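import Vale.Agent.P032.H61.GenSt

/-!
# P032: the words of two classes from the states of the induction

Fixed centres `Zc : C → ℂ` with nodes `(c, m)` (direction `m`), states `s0` (right at `u1`), `s1` (left at `u1 + 1`),
`L` (left at `u`), `R` (right at `u`).  Further points `Y : J → ℂ`, `e : J → Option C` tells which of them are fixed
centres.  Ticks `t2 u1 u`: `u1 + m` for `2 m`, `u + m` for `2 m + 1`.

* `tick_t2`, `exists_wd` : **letters of all points `Y j` at all ticks (`Wd`) which extend the four states.**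
-/

open Set Filter Topology Metric

noncomputable section

namespace Vale.Agent.P032.H61

open Vale.Agent.P032.Six Vale.Agent.P032.Words Vale.Agent.P032.S5.H767 Vale.Agent.P032.H892
  Vale.Agent.P032.H913

variable {U : Fin 6 → Set ℂ} {T : ℂ → Set (Fin 6)}

/-- the ticks of two classes -/
def t2 (u1 u : ℝ) (t : ℕ) : ℝ := (if t % 2 = 0 then u1 else u) + ((t / 2 : ℕ) : ℝ)

theorem t2_even (u1 u : ℝ) (m : ℕ) : t2 u1 u (2 * m) = u1 + m := by
  unfold t2
  rw [if_pos (by omega), show 2 * m / 2 = m by omega]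

theorem t2_odd (u1 u : ℝ) (m : ℕ) : t2 u1 u (2 * m + 1) = u + m := by
  unfold t2
  rw [if_neg (by omega), show (2 * m + 1) / 2 = m by omega]

theorem tick_t2 {u1 u : ℝ} (hu : u ∈ Ioo u1 (u1 + 1)) : Tick 2 (t2 u1 u) where
  pos := by norm_num
  mono := by
    refine strictMono_nat_of_lt_succ fun t => ?_
    rcases Nat.even_or_odd' t with ⟨m, h | h⟩
    · rw [h, t2_even, t2_odd]; linarith [hu.1]
    · rw [h, t2_odd, show 2 * m + 1 + 1 = 2 * (m + 1) by ring, t2_even]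
      push_cast
      linarith [hu.2]
  per := fun t => by
    rcases Nat.even_or_odd' t with ⟨m, h | h⟩
    · rw [h, show 2 * m + 2 = 2 * (m + 1) by ring, t2_even, t2_even]; push_cast; ring
    · rw [h, show 2 * m + 1 + 2 = 2 * (m + 1) + 1 by ring, t2_odd, t2_odd]; push_cast; ring

/-- the nodes of the centres -/
def nX {C : Type*} (Zc : C → ℂ) : C × Fin 6 → ℂ := fun i => Zc i.1

/-- the shifts of the nodes -/
def nO {C : Type*} : C × Fin 6 → ℝ := fun i => (i.2.val : ℝ)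

theorem ino_shift {x : ℂ} {b τ : ℝ} {n : ℕ} {p q : Fin 6}
    (I : Ino U T x (b + ((n % 6 : ℕ) : ℝ) + τ) p q) : Ino U T x (b + (n : ℝ) + τ) p q := by
  have h1 := I.per ((n / 6 : ℕ) : ℤ)
  have h2 : (n : ℝ) = ((n % 6 : ℕ) : ℝ) + 6 * ((n / 6 : ℕ) : ℝ) := by
    have := Nat.mod_add_div n 6
    exact_mod_cast this.symm
  have e : b + ((n % 6 : ℕ) : ℝ) + τ + 6 * (((n / 6 : ℕ) : ℤ) : ℝ) = b + (n : ℝ) + τ := by
    rw [h2, Int.cast_natCast]; ring
  rwa [e] at h1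

/-- the direction `m` modulo 6 -/
def f6 (m : ℕ) : Fin 6 := ⟨m % 6, Nat.mod_lt _ (by norm_num)⟩

/-- the letters from four states -/
def wds {J : Type*} (s0 s1 L R : J × Fin 6 → Fin 6 × Fin 6) (j : J) (t sd io : ℕ) : Fin 6 :=
  let p := if t % 2 = 0 then (if sd = 1 then s0 (j, f6 (t / 2)) else s1 (j, f6 (t / 2 + 5)))
    else (if sd = 1 then R (j, f6 (t / 2)) else L (j, f6 (t / 2)))
  if io = 0 then p.1 else p.2

section
variable {J : Type*} {s0 s1 L R : J × Fin 6 → Fin 6 × Fin 6} {j : J} {m : ℕ}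

theorem wds_even_one : wds s0 s1 L R j (2 * m) 1 0 = (s0 (j, f6 m)).1 ∧
    wds s0 s1 L R j (2 * m) 1 1 = (s0 (j, f6 m)).2 := by
  unfold wds
  rw [show 2 * m / 2 = m by omega, show 2 * m % 2 = 0 by omega]
  simp

theorem wds_even_zero : wds s0 s1 L R j (2 * m) 0 0 = (s1 (j, f6 (m + 5))).1 ∧
    wds s0 s1 L R j (2 * m) 0 1 = (s1 (j, f6 (m + 5))).2 := by
  unfold wds
  rw [show 2 * m / 2 = m by omega, show 2 * m % 2 = 0 by omega]
  simp

theorem wds_odd_one : wds s0 s1 L R j (2 * m + 1) 1 0 = (R (j, f6 m)).1 ∧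
    wds s0 s1 L R j (2 * m + 1) 1 1 = (R (j, f6 m)).2 := by
  unfold wds
  rw [show (2 * m + 1) / 2 = m by omega, show (2 * m + 1) % 2 = 1 by omega]
  simp

theorem wds_odd_zero : wds s0 s1 L R j (2 * m + 1) 0 0 = (L (j, f6 m)).1 ∧
    wds s0 s1 L R j (2 * m + 1) 0 1 = (L (j, f6 m)).2 := by
  unfold wds
  rw [show (2 * m + 1) / 2 = m by omega, show (2 * m + 1) % 2 = 1 by omega]
  simp

end

/-- the letters are a `Wd` -/
theorem wd_wds {J : Type*} {Y : J → ℂ} {u1 u : ℝ} {s0 s1 L R : J × Fin 6 → Fin 6 × Fin 6}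
    (h0 : s0 ∈ RSt DO (IOs U T (nX Y) nO) u1) (h1 : s1 ∈ LSt DO (IOs U T (nX Y) nO) (u1 + 1))
    (hL : L ∈ LSt DO (IOs U T (nX Y) nO) u) (hR : R ∈ RSt DO (IOs U T (nX Y) nO) u) :
    Wd U T 2 (t2 u1 u) Y (wds s0 s1 L R) where
  fam := by
    intro sd t0
    have F0 := rst_fam h0
    have F1 := lst_fam h1
    have FL := lst_fam hL
    have FR := rst_fam hR
    rcases Nat.even_or_odd' t0 with ⟨k, hk | hk⟩
    · by_cases hs : sd = 1
      · subst hs
        rw [sdf_one]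
        refine F0.mono fun τ hτ i => ?_
        obtain ⟨j, n⟩ := i
        have e : t0 + 2 * n = 2 * (k + n) := by omega
        simp only
        rw [e, t2_even, wds_even_one.1, wds_even_one.2]
        exact ino_shift (hτ (j, f6 (k + n)))
      · rw [sdf_ne hs]
        refine F1.mono fun τ hτ i => ?_
        obtain ⟨j, n⟩ := i
        have e : t0 + 2 * n = 2 * (k + n) := by omega
        simp only
        rw [e, t2_even]
        have e2 : ∀ io, wds s0 s1 L R j (2 * (k + n)) sd io = wds s0 s1 L R j (2 * (k + n)) 0 io := by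
          intro io
          unfold wds
          rw [if_neg hs, if_neg (show ¬ (0 : ℕ) = 1 by norm_num)]
          rw [if_pos (show 2 * (k + n) % 2 = 0 by omega), if_pos (show 2 * (k + n) % 2 = 0 by omega)]
        rw [e2, e2, wds_even_zero.1, wds_even_zero.2]
        have h2 := hτ (j, f6 (k + n + 5))
        have h3 : Ino U T (Y j) (u1 + 1 + ((k + n + 5 : ℕ) : ℝ) + τ) (s1 (j, f6 (k + n + 5))).1
          (s1 (j, f6 (k + n + 5))).2 := ino_shift h2
        have h4 := h3.per (-1)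
        have e3 : u1 + 1 + ((k + n + 5 : ℕ) : ℝ) + τ + 6 * ((-1 : ℤ) : ℝ) =
            u1 + ((k + n : ℕ) : ℝ) + τ := by push_cast; ring
        rwa [e3] at h4
    · by_cases hs : sd = 1
      · subst hs
        rw [sdf_one]
        refine FR.mono fun τ hτ i => ?_
        obtain ⟨j, n⟩ := i
        have e : t0 + 2 * n = 2 * (k + n) + 1 := by omega
        simp only
        rw [e, t2_odd, wds_odd_one.1, wds_odd_one.2]
        exact ino_shift (hτ (j, f6 (k + n)))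
      · rw [sdf_ne hs]
        refine FL.mono fun τ hτ i => ?_
        obtain ⟨j, n⟩ := i
        have e : t0 + 2 * n = 2 * (k + n) + 1 := by omega
        simp only
        rw [e, t2_odd]
        have e2 : ∀ io, wds s0 s1 L R j (2 * (k + n) + 1) sd io =
            wds s0 s1 L R j (2 * (k + n) + 1) 0 io := by
          intro io
          unfold wds
          have e4 : ¬ (2 * (k + n) + 1) % 2 = 0 := by omega
          simp only [if_neg e4, if_neg hs, if_neg (show ¬ (0 : ℕ) = 1 by norm_num)]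
        rw [e2, e2, wds_odd_zero.1, wds_odd_zero.2]
        exact ino_shift (hτ (j, f6 (k + n)))
  per := by
    intro j t sd io
    have e1 : t % (6 * 2) % 2 = t % 2 := by omega
    have e2 : f6 (t % (6 * 2) / 2) = f6 (t / 2) := by unfold f6; congr 1; omega
    have e3 : f6 (t % (6 * 2) / 2 + 5) = f6 (t / 2 + 5) := by unfold f6; congr 1; omega
    unfold wds
    rw [e1, e2, e3]

/-- **Letters of all points from the four states of the fixed centres.** -/
theorem exists_wd (h : Irr U T) (hl3 : LF3 U T) {C J : Type*} [Finite J] {Zc : C → ℂ} {Y : J → ℂ}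
    {e : J → Option C} (he : ∀ j c, e j = some c → Y j = Zc c) {u1 u : ℝ}
    {s0 s1 L R : C × Fin 6 → Fin 6 × Fin 6}
    (h0 : s0 ∈ RSt DO (IOs U T (nX Zc) nO) u1) (h1 : s1 ∈ LSt DO (IOs U T (nX Zc) nO) (u1 + 1))
    (hL : L ∈ LSt DO (IOs U T (nX Zc) nO) u) (hR : R ∈ RSt DO (IOs U T (nX Zc) nO) u) :
    ∃ W : J → ℕ → ℕ → ℕ → Fin 6, Wd U T 2 (t2 u1 u) Y W ∧
      ∀ j c, e j = some c → ∀ m : ℕ,
        (W j (2 * m) 1 0 = (s0 (c, f6 m)).1 ∧ W j (2 * m) 1 1 = (s0 (c, f6 m)).2) ∧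
        (W j (2 * m) 0 0 = (s1 (c, f6 (m + 5))).1 ∧ W j (2 * m) 0 1 = (s1 (c, f6 (m + 5))).2) ∧
        (W j (2 * m + 1) 1 0 = (R (c, f6 m)).1 ∧ W j (2 * m + 1) 1 1 = (R (c, f6 m)).2) ∧
        (W j (2 * m + 1) 0 0 = (L (c, f6 m)).1 ∧ W j (2 * m + 1) 0 1 = (L (c, f6 m)).2) := by
  let e' : J × Fin 6 → Option (C × Fin 6) := fun i => (e i.1).map fun c => (c, i.2)
  have he' : ∀ i' i, e' i' = some i → nX Y i' = nX Zc i ∧ ∃ n : ℤ, nO i' = nO i + 6 * n := by
    rintro ⟨j, m⟩ ⟨c, m'⟩ hi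
    have hi : (e j).map (fun c => (c, m)) = some (c, m') := hi
    rw [Option.map_eq_some_iff] at hi
    obtain ⟨c', h1, h2⟩ := hi
    rw [Prod.mk.injEq] at h2
    obtain ⟨h3, h4⟩ := h2
    subst h3 h4
    exact ⟨he j _ h1, 0, by unfold nO; simp⟩
  have hcomm : ∀ {s : C × Fin 6 → Fin 6 × Fin 6} {s' : J × Fin 6 → Fin 6 × Fin 6},
      (∀ i' i, e' i' = some i → s' i' = s i) → ∀ j c, e j = some c → ∀ m, s' (j, m) = s (c, m) := by
    intro s s' h1 j c hj m
    exact h1 (j, m) (c, m) (by show (e j).map _ = _; rw [hj]; rfl)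
  obtain ⟨s0', k0, m0⟩ := ext_R h hl3 he' h0
  obtain ⟨s1', k1, m1⟩ := ext_L h hl3 he' h1
  obtain ⟨L', kL, mL⟩ := ext_L h hl3 he' hL
  obtain ⟨R', kR, mR⟩ := ext_R h hl3 he' hR
  refine ⟨wds s0' s1' L' R', wd_wds m0 m1 mL mR, fun j c hj m => ?_⟩
  rw [wds_even_one.1, wds_even_one.2, wds_even_zero.1, wds_even_zero.2, wds_odd_one.1, wds_odd_one.2,
    wds_odd_zero.1, wds_odd_zero.2, hcomm k0 j c hj, hcomm k1 j c hj, hcomm kL j c hj, hcomm kR j c hj]
  exact ⟨⟨rfl, rfl⟩, ⟨rfl, rfl⟩, ⟨rfl, rfl⟩, ⟨rfl, rfl⟩⟩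

/-- restriction of states -/
theorem rst_sub {M M' : Type*} {X : M → ℂ} {X' : M' → ℂ} {o : M → ℝ} {o' : M' → ℝ} (f : M' → M)
    (hf : ∀ i, X' i = X (f i) ∧ o' i = o (f i)) {u : ℝ} {s : M → Fin 6 × Fin 6}
    (hs : s ∈ RSt DO (IOs U T X o) u) : (fun i => s (f i)) ∈ RSt DO (IOs U T X' o') u := by
  have hs : ∃ᶠ v in 𝓝[>] u ⊓ DO, IOs U T X o v s := hs
  exact hs.mono fun v hv i => by rw [(hf i).1, (hf i).2]; exact hv (f i)

theorem lst_sub {M M' : Type*} {X : M → ℂ} {X' : M' → ℂ} {o : M → ℝ} {o' : M' → ℝ} (f : M' → M)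
    (hf : ∀ i, X' i = X (f i) ∧ o' i = o (f i)) {u : ℝ} {s : M → Fin 6 × Fin 6}
    (hs : s ∈ LSt DO (IOs U T X o) u) : (fun i => s (f i)) ∈ LSt DO (IOs U T X' o') u := by
  have hs : ∃ᶠ v in 𝓝[<] u ⊓ DO, IOs U T X o v s := hs
  exact hs.mono fun v hv i => by rw [(hf i).1, (hf i).2]; exact hv (f i)

/-! ### rotation by 60 degrees -/

theorem tendsto_DO (c : ℝ) : Tendsto (fun v : ℝ => v + c) DO DO := by
  rintro S ⟨G, hG, hGo, hGd⟩
  refine ⟨(fun v : ℝ => v + c) ⁻¹' G, fun v hv => hG hv, hGo.preimage (by fun_prop), ?_⟩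
  exact hGd.preimage (Homeomorph.addRight c).isOpenMap

theorem tendsto_R (u c : ℝ) : Tendsto (fun v : ℝ => v + c) (𝓝[>] u ⊓ DO) (𝓝[>] (u + c) ⊓ DO) := by
  refine tendsto_inf.2 ⟨(tendsto_nhdsWithin_of_tendsto_nhds_of_eventually_within _ ?_ ?_).mono_left
    inf_le_left, (tendsto_DO c).mono_left inf_le_right⟩
  · exact ((by fun_prop : Continuous fun v : ℝ => v + c).tendsto u).mono_left nhdsWithin_le_nhds
  · filter_upwards [self_mem_nhdsWithin] with v hv
    have hv : u < v := hv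
    show u + c < v + c
    linarith

theorem tendsto_L (u c : ℝ) : Tendsto (fun v : ℝ => v + c) (𝓝[<] u ⊓ DO) (𝓝[<] (u + c) ⊓ DO) := by
  refine tendsto_inf.2 ⟨(tendsto_nhdsWithin_of_tendsto_nhds_of_eventually_within _ ?_ ?_).mono_left
    inf_le_left, (tendsto_DO c).mono_left inf_le_right⟩
  · exact ((by fun_prop : Continuous fun v : ℝ => v + c).tendsto u).mono_left nhdsWithin_le_nhds
  · filter_upwards [self_mem_nhdsWithin] with v hv
    have hv : v < u := hv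
    show v + c < u + c
    linarith

/-- the state seen from `u + 1` -/
def rotS {C : Type*} (s : C × Fin 6 → Fin 6 × Fin 6) : C × Fin 6 → Fin 6 × Fin 6 :=
  fun i => s (i.1, i.2 + 1)

/-- the state seen from `u - 1` -/
def rotS' {C : Type*} (s : C × Fin 6 → Fin 6 × Fin 6) : C × Fin 6 → Fin 6 × Fin 6 :=
  fun i => s (i.1, i.2 + 5)

theorem rotS_rotS' {C : Type*} (s : C × Fin 6 → Fin 6 × Fin 6) : rotS (rotS' s) = s := by
  funext i
  show s (i.1, i.2 + 1 + 5) = s i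
  have : i.2 + 1 + 5 = i.2 := by
    have : ∀ m : Fin 6, m + 1 + 5 = m := by decide
    exact this _
  rw [this]

theorem rotS'_rotS {C : Type*} (s : C × Fin 6 → Fin 6 × Fin 6) : rotS' (rotS s) = s := by
  funext i
  show s (i.1, i.2 + 5 + 1) = s i
  have : i.2 + 5 + 1 = i.2 := by
    have : ∀ m : Fin 6, m + 5 + 1 = m := by decide
    exact this _
  rw [this]

theorem rot_time (u : ℝ) (m : Fin 6) (d : Fin 6) : ∃ n : ℤ,
    u + (((m + d : Fin 6).val : ℕ) : ℝ) + 6 * n = u + (d.val : ℝ) + (m.val : ℝ) := by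
  refine ⟨((m.val + d.val) / 6 : ℕ), ?_⟩
  have h1 : (m + d : Fin 6).val = (m.val + d.val) % 6 := Fin.val_add m d
  have h2 := Nat.mod_add_div (m.val + d.val) 6
  rw [h1]
  have h3 : (((m.val + d.val) % 6 : ℕ) : ℝ) + 6 * (((m.val + d.val) / 6 : ℕ) : ℝ) = m.val + d.val := by
    exact_mod_cast h2
  rw [Int.cast_natCast]
  linarith

theorem ios_rot {C : Type*} {Zc : C → ℂ} {v : ℝ} {s : C × Fin 6 → Fin 6 × Fin 6} (d : Fin 6)
    (h : IOs U T (nX Zc) nO v s) : IOs U T (nX Zc) nO (v + (d.val : ℝ)) (fun i => s (i.1, i.2 + d)) := by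
  rintro ⟨c, m⟩
  have h1 := h (c, m + d)
  obtain ⟨n, hn⟩ := rot_time v m d
  have h2 := h1.per n
  have e : v + nO (c, m + d) + 6 * (n : ℝ) = v + (d.val : ℝ) + nO (c, m) := hn
  rw [e] at h2
  exact h2

theorem rst_rot {C : Type*} {Zc : C → ℂ} {u : ℝ} {s : C × Fin 6 → Fin 6 × Fin 6}
    (h : s ∈ RSt DO (IOs U T (nX Zc) nO) u) : rotS s ∈ RSt DO (IOs U T (nX Zc) nO) (u + 1) := by
  have h : ∃ᶠ v in 𝓝[>] u ⊓ DO, IOs U T (nX Zc) nO v s := h
  refine (tendsto_R u 1).frequently (h.mono fun v hv => ?_)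
  have := ios_rot 1 hv
  simp only [Fin.val_one, Nat.cast_one] at this
  exact this

theorem lst_rot {C : Type*} {Zc : C → ℂ} {u : ℝ} {s : C × Fin 6 → Fin 6 × Fin 6}
    (h : s ∈ LSt DO (IOs U T (nX Zc) nO) u) : rotS s ∈ LSt DO (IOs U T (nX Zc) nO) (u + 1) := by
  have h : ∃ᶠ v in 𝓝[<] u ⊓ DO, IOs U T (nX Zc) nO v s := h
  refine (tendsto_L u 1).frequently (h.mono fun v hv => ?_)
  have := ios_rot 1 hv
  simp only [Fin.val_one, Nat.cast_one] at this
  exact this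

/-- **Letters of all points from the four states of the fixed centres**, with the extended states. -/
theorem exists_wd_all (h : Irr U T) (hl3 : LF3 U T) {C J : Type*} [Finite J] {Zc : C → ℂ} {Y : J → ℂ}
    {e : J → Option C} (he : ∀ j c, e j = some c → Y j = Zc c) {u1 u : ℝ}
    {s0 s1 L R : C × Fin 6 → Fin 6 × Fin 6}
    (h0 : s0 ∈ RSt DO (IOs U T (nX Zc) nO) u1) (h1 : s1 ∈ LSt DO (IOs U T (nX Zc) nO) (u1 + 1))
    (hL : L ∈ LSt DO (IOs U T (nX Zc) nO) u) (hR : R ∈ RSt DO (IOs U T (nX Zc) nO) u) :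
    ∃ s0' s1' L' R' : J × Fin 6 → Fin 6 × Fin 6, s0' ∈ RSt DO (IOs U T (nX Y) nO) u1 ∧
      s1' ∈ LSt DO (IOs U T (nX Y) nO) (u1 + 1) ∧ L' ∈ LSt DO (IOs U T (nX Y) nO) u ∧
      R' ∈ RSt DO (IOs U T (nX Y) nO) u ∧ Wd U T 2 (t2 u1 u) Y (wds s0' s1' L' R') ∧
      ∀ j c, e j = some c → ∀ m : Fin 6, s0' (j, m) = s0 (c, m) ∧ s1' (j, m) = s1 (c, m) ∧
        L' (j, m) = L (c, m) ∧ R' (j, m) = R (c, m) := by
  let e' : J × Fin 6 → Option (C × Fin 6) := fun i => (e i.1).map fun c => (c, i.2)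
  have he' : ∀ i' i, e' i' = some i → nX Y i' = nX Zc i ∧ ∃ n : ℤ, nO i' = nO i + 6 * n := by
    rintro ⟨j, m⟩ ⟨c, m'⟩ hi
    have hi : (e j).map (fun c => (c, m)) = some (c, m') := hi
    rw [Option.map_eq_some_iff] at hi
    obtain ⟨c', h1, h2⟩ := hi
    rw [Prod.mk.injEq] at h2
    obtain ⟨h3, h4⟩ := h2
    subst h3 h4
    exact ⟨he j _ h1, 0, by unfold nO; simp⟩
  have hcomm : ∀ {s : C × Fin 6 → Fin 6 × Fin 6} {s' : J × Fin 6 → Fin 6 × Fin 6},
      (∀ i' i, e' i' = some i → s' i' = s i) → ∀ j c, e j = some c → ∀ m, s' (j, m) = s (c, m) := by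
    intro s s' h1 j c hj m
    exact h1 (j, m) (c, m) (by show (e j).map _ = _; rw [hj]; rfl)
  obtain ⟨s0', k0, m0⟩ := ext_R h hl3 he' h0
  obtain ⟨s1', k1, m1⟩ := ext_L h hl3 he' h1
  obtain ⟨L', kL, mL⟩ := ext_L h hl3 he' hL
  obtain ⟨R', kR, mR⟩ := ext_R h hl3 he' hR
  exact ⟨s0', s1', L', R', m0, m1, mL, mR, wd_wds m0 m1 mL mR, fun j c hj m =>
    ⟨hcomm k0 j c hj m, hcomm k1 j c hj m, hcomm kL j c hj m, hcomm kR j c hj m⟩⟩

end Vale.Agent.P032.H61
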