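import Vale.Agent.P032.H61.Word
import Vale.Agent.P032.H357.CellK

/-!
# P032: the words of all points in index form

Any number `K` of classes of directions (`Tick K a`), ticks modulo `6 K`, cells `Cl` of `H357`.

`Wd U T K a X W` : `W j t sd io` is the colour just inside (`io = 0`) and just outside (`io = 1`) of the unit circle
about `X j`, just before (`sd = 0`) and just after (`sd = 1`) the direction `a t`; every class of directions has its own
sequence of shifts.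

* `exists_Wd`, `Wd.wa`, `Wd.in_sector`, `Wd.in_ray`, `Wd.in_end`, `Wd.in_zone`, `Wd.out_*` (b), `Wd.w60`, `Wd.glue_in`,
  `Wd.glue_out`, `Wd.wc`, `Wd.wc2`, `Wd.wpair`, `Wd.letter`.
-/

open Set Filter Topology Metric

noncomputable section

namespace Vale.Agent.P032.H61

open Vale.Agent.P032.Six Vale.Agent.P032.Words Vale.Agent.P032.S5.H767 Vale.Agent.P032.H892
  Vale.Agent.P032.H913 Vale.Agent.P032.H357

variable {U : Fin 6 → Set ℂ} {T : ℂ → Set (Fin 6)}

/-! ### periodicity -/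

theorem pt_int (x : ℂ) (s : ℝ) (n : ℤ) : pt x (s + 6 * n) = pt x s := pt_per x s n

theorem Ino.per {x : ℂ} {s : ℝ} {p q : Fin 6} (I : Ino U T x s p q) (n : ℤ) :
    Ino U T x (s + 6 * n) p q where
  loc := by
    have h1 : Tendsto (fun v : ℝ => v - 6 * n) (𝓝 (s + 6 * n)) (𝓝 s) := by
      have h5 : Continuous fun v : ℝ => v - 6 * n := by fun_prop
      have h6 := h5.tendsto (s + 6 * n)
      rwa [add_sub_cancel_right] at h6
    filter_upwards [h1.eventually I.loc] with v hv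
    rw [pt_int, ← hv, ← pt_int x (v - 6 * n) n, sub_add_cancel]
  nex := by rw [pt_int]; exact I.nex
  inn := by rw [pt_int]; exact I.inn
  out := by rw [pt_int]; exact I.out

/-- the side `sd` -/
def sdf (sd : ℕ) : Filter ℝ := if sd = 1 then 𝓝[>] 0 else 𝓝[<] 0

theorem sdf_side (sd : ℕ) : Side (sdf sd) := by
  unfold sdf Side
  by_cases h : sd = 1
  · rw [if_pos h]; exact Or.inl rfl
  · rw [if_neg h]; exact Or.inr rfl

theorem sdf_one : sdf 1 = 𝓝[>] 0 := if_pos rfl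

theorem sdf_ne {sd : ℕ} (h : sd ≠ 1) : sdf sd = 𝓝[<] 0 := if_neg h

/-- the letters of all points at all ticks -/
structure Wd (U : Fin 6 → Set ℂ) (T : ℂ → Set (Fin 6)) {J : Type*} (K : ℕ) (a : ℕ → ℝ) (X : J → ℂ)
    (W : J → ℕ → ℕ → ℕ → Fin 6) : Prop where
  fam : ∀ sd t0, Fam U T (sdf sd) (fun i : J × ℕ => X i.1) (fun i => a (t0 + K * i.2))
    (fun i => W i.1 (t0 + K * i.2) sd 0) (fun i => W i.1 (t0 + K * i.2) sd 1)
  per : ∀ j t sd io, W j (t % (6 * K)) sd io = W j t sd io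

/-- **Existence** -/
theorem exists_Wd (h : Irr U T) (hl3 : LF3 U T) {J : Type*} [Finite J] {K : ℕ} {a : ℕ → ℝ}
    (A : Tick K a) (X : J → ℂ) : ∃ W, Wd U T K a X W := by
  have hK : 0 < 6 * K := by have := A.pos; omega
  choose p q hpq using fun sd => exists_Fam h hl3 (fun i : J × Fin (6 * K) => X i.1)
    (fun i => a i.2) (sdf_side sd)
  have hmul : ∀ t m : ℕ, a (t + 6 * K * m) = a t + 6 * (m : ℤ) := by
    intro t m
    have h1 := A.per_mul t (6 * m)
    rw [show t + 6 * K * m = t + 6 * m * K by ring, h1]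
    push_cast; ring
  refine ⟨fun j t sd io => if io = 0 then p sd (j, ⟨t % (6 * K), Nat.mod_lt _ hK⟩) else
    q sd (j, ⟨t % (6 * K), Nat.mod_lt _ hK⟩), fun sd t0 => ?_, fun j t sd io => ?_⟩
  · refine (hpq sd).mono fun τ hτ i => ?_
    obtain ⟨j, m⟩ := i
    set t := t0 + K * m with ht
    have h1 := (hτ (j, ⟨t % (6 * K), Nat.mod_lt _ hK⟩)).per ((t / (6 * K) : ℕ) : ℤ)
    have e : a (t % (6 * K)) + τ + 6 * (((t / (6 * K) : ℕ) : ℤ) : ℝ) = a t + τ := by
      have h2 := hmul (t % (6 * K)) (t / (6 * K))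
      rw [Nat.mod_add_div] at h2
      rw [h2]; ring
    simp only at h1 ⊢
    rw [e] at h1
    simpa using h1
  · have e : t % (6 * K) % (6 * K) = t % (6 * K) := Nat.mod_mod _ _
    simp only [e]

theorem ev_mem {l : Filter ℝ} (hl : Side l) {c lo hi : ℝ} (h1 : lo < c) (h2 : c < hi) :
    ∀ᶠ τ in l, lo < c - τ ∧ c - τ < hi := by
  have h3 : Tendsto (fun τ : ℝ => c - τ) l (𝓝 c) := by
    have h5 : Continuous fun τ : ℝ => c - τ := by fun_prop
    have h6 := h5.tendsto 0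
    rw [sub_zero] at h6
    exact h6.mono_left hl.le
  exact h3.eventually (Ioo_mem_nhds h1 h2)

theorem neg_of {θ b : ℝ} (h1 : b + 3 / 2 < θ) (h2 : θ < b + 9 / 2) :
    Real.cos ((θ - b) * (Real.pi / 3)) < 0 := cos_neg_of (by linarith) (by linarith)

theorem ds_closure {S : Set ℂ} {x : ℂ} {θ : ℝ} (h : θ ∈ DS S x) :
    ((0 : ℝ), θ) ∈ closure (H61.PS S x) := mem_closure_iff_frequently.2 h

theorem ds_mono {S S' : Set ℂ} (hS : S ⊆ S') {x : ℂ} {θ : ℝ} (h : θ ∈ DS S x) : θ ∈ DS S' x :=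
  h.mono fun _ hp => ⟨hp.1, hS hp.2⟩

theorem u_pal (U : Fin 6 → Set ℂ) (p : Fin 6) : U p ⊆ {y | p ∈ Pal U y} := fun _ hy =>
  subset_closure hy

section
variable {J : Type*} {l : Filter ℝ} {X : J → ℂ} {t : J → ℝ} {p q : J → Fin 6}

/-- angular form, inner colour -/
theorem Fam.far_ds (F : Fam U T l X t p q) (h : Irr U T) (hct : ∀ y, Ctn U T y) (j : J) {θ : ℝ}
    (hθ : θ ∈ DS (U (p j)) (X j)) (hc : ∀ᶠ τ in l, 3 / 2 < θ - t j - τ ∧ θ - t j - τ < 9 / 2) :
    False :=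
  F.far_cl h hct (ds_closure (ds_mono (u_pal U _) hθ))
    (hc.mono fun τ hτ => neg_of (by linarith [hτ.1]) (by linarith [hτ.2]))

/-- angular form, outer colour -/
theorem Fam.near_ds (F : Fam U T l X t p q) (h : Irr U T) (hct : ∀ y, Ctn U T y) (j : J) {θ : ℝ}
    (hθ : θ ∈ DS (U (q j)) (X j)) (hc : ∀ᶠ τ in l, 9 / 2 < θ - t j - τ ∧ θ - t j - τ < 15 / 2) :
    False :=
  F.near_cl h hct (ds_closure (ds_mono (u_pal U _) hθ))
    (hc.mono fun τ hτ => CK.cos_pos_six (by linarith [hτ.1]) (by linarith [hτ.2]))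

/-- closed form at the limit point, inner colour -/
theorem Fam.far_at' (F : Fam U T l X t p q) (h : Irr U T) (hct : ∀ y, Ctn U T y) (hl : Side l) (j : J) :
    ∀ᶠ y in 𝓝 (X j), 1 ≤ dist y (pt (X j) (t j)) → y ∉ U (p j) := by
  filter_upwards [F.far_at h hct hl j] with y hy hy1 hyU
  rcases hy1.eq_or_lt with h1 | h1
  · exact h.mx.notMem' hyU h1.symm (h.sub _ (F.p_mem h hl j))
  · exact hy h1 (subset_closure hyU)

/-- closed form at the limit point, outer colour -/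
theorem Fam.near_at' (F : Fam U T l X t p q) (h : Irr U T) (hct : ∀ y, Ctn U T y) (hl : Side l) (j : J) :
    ∀ᶠ y in 𝓝 (X j), dist y (pt (X j) (t j)) < 1 → y ∉ U (q j) := by
  filter_upwards [F.near_at h hct hl j] with y hy hy1 hyU
  exact hy hy1 (subset_closure hyU)

theorem Fam.far_in (F : Fam U T l X t p q) (h : Irr U T) (hct : ∀ y, Ctn U T y) (hl : Side l) (j : J)
    (hO : ∃ᶠ w in 𝓝 (X j), w ∈ U (p j) ∧ 1 ≤ dist w (pt (X j) (t j))) : False := by
  obtain ⟨w, h1, h2⟩ := (hO.and_eventually (F.far_at' h hct hl j)).exists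
  exact h2 h1.2 h1.1

theorem Fam.near_in (F : Fam U T l X t p q) (h : Irr U T) (hct : ∀ y, Ctn U T y) (hl : Side l) (j : J)
    (hO : ∃ᶠ w in 𝓝 (X j), w ∈ U (q j) ∧ dist w (pt (X j) (t j)) < 1) : False := by
  obtain ⟨w, h1, h2⟩ := (hO.and_eventually (F.near_at' h hct hl j)).exists
  exact h2 h1.2 h1.1

/-- **(c2)**: the inner colour is absent at `X j`: then it is at the mirror point -/
theorem Fam.mate2 (F : Fam U T l X t p q) (h : Irr U T) (hl : Side l) {j : J}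
    (hq : q j ∈ Pal U (X j)) (hp : p j ∉ Pal U (X j)) :
    p j ∈ Pal U (2 * pt (X j) (t j) - X j) := by
  have h1 : ∃ᶠ τ in l, p j ∈ Pal U (2 * pt (X j) (t j + τ) - X j) := by
    refine F.mono fun τ hτ => ?_
    have I := hτ j
    have h1 : pt (X j) (t j + τ) ∈ XX U := h.mem_XX (dist_pt _ _) (I.q_mem h) hq
    have hpv := I.p_mem h
    obtain ⟨V, hzV, hV⟩ : ∃ V, dist (pt (X j) (t j + τ)) V = 1 ∧ p j ∈ Pal U V := by
      first
        | exact h.partner_XX h1 (p j)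
        | exact h.partner_XX h1 hpv
    have harc : ∀ᶠ y in 𝓝[sphere (X j) 1] (pt (X j) (t j + τ)), p j ∈ Pal U y :=
      I.arc.mono fun y hy => h.sub y (by rw [hy]; exact hpv)
    rcases h.mx.partner_line (dist_pt _ _) harc hzV hV with h3 | h3
    · rw [h3] at hV; exact absurd hV hp
    · have : V = 2 * pt (X j) (t j + τ) - X j := by rw [← h3]; ring
      rwa [this] at hV
  have h2 : Tendsto (fun τ : ℝ => 2 * pt (X j) (t j + τ) - X j) l (𝓝 (2 * pt (X j) (t j) - X j)) := by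
    have h3 := tendsto_pt_shift hl (X j) (t j)
    exact (h3.const_mul 2).sub_const _
  exact isClosed_closure.mem_of_frequently_of_tendsto h1 h2

end

namespace Wd

variable {J : Type*} {K : ℕ} {a : ℕ → ℝ} {X : J → ℂ} {W : J → ℕ → ℕ → ℕ → Fin 6}
variable (D : Wd U T K a X W)
include D

/-- the letters at one tick -/
theorem fam1 (sd t : ℕ) : Fam U T (sdf sd) X (fun _ => a t) (fun j => W j t sd 0) (fun j => W j t sd 1) :=
  (D.fam sd t).mono fun _ hτ j => hτ (j, 0)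

/-- **(a)** -/
theorem wa (h : Irr U T) (hct : ∀ y, Ctn U T y) {j : J} {t sd : ℕ} (hp : W j t sd 0 ∈ Pal U (X j)) :
    W j t sd 0 ≠ W j t sd 1 := (D.fam1 sd t).ne h hct (j := j) hp

/-- **(c)** -/
theorem wc (h : Irr U T) {j : J} {t sd : ℕ} (hpq : W j t sd 0 ≠ W j t sd 1)
    (hp : W j t sd 0 ∈ Pal U (X j)) : W j t sd 1 ∈ Pal U (X j) :=
  (D.fam1 sd t).mate h (j := j) hpq hp

/-- **(c2)** -/
theorem wc2 (h : Irr U T) {j : J} {t sd : ℕ}
    (hq : W j t sd 1 ∈ Pal U (X j)) (hp : W j t sd 0 ∉ Pal U (X j)) :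
    W j t sd 0 ∈ Pal U (X j + 2 * dir (a t)) := by
  have h1 := (D.fam1 sd t).mate2 h (sdf_side sd) (j := j) hq hp
  have e : 2 * pt (X j) (a t) - X j = X j + 2 * dir (a t) := by
    unfold pt dir; ring
  rwa [e] at h1

/-- **(60)** -/
theorem w60 (h : Irr U T) (A : Tick K a) {j : J} {t sd : ℕ} :
    (W j t sd 0 ≠ W j (t + K) sd 0 ∧ W j t sd 0 ≠ W j (t + K) sd 1) ∧
      (W j t sd 1 ≠ W j (t + K) sd 0 ∧ W j t sd 1 ≠ W j (t + K) sd 1) :=
  by
  have h1 := (D.fam sd t).sixty h (i := (j, 0)) (j := (j, 1)) rfl (by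
    simp only [Nat.mul_zero, add_zero, Nat.mul_one]; exact A.per t)
  simpa only [Nat.mul_zero, add_zero, Nat.mul_one] using h1

/-- **(pair)** -/
theorem wpair (h : Irr U T) {i j : J} {t sd : ℕ} (hx : dist (X i) (X j) = 1) :
    (W i t sd 0 ≠ W j t sd 0 ∧ W i t sd 0 ≠ W j t sd 1) ∧
      (W i t sd 1 ≠ W j t sd 0 ∧ W i t sd 1 ≠ W j t sd 1) :=
  (D.fam1 sd t).par h (sdf_side sd) (i := i) (j := j) hx rfl

/-! #### the rule (b), inner colour -/

theorem in_sector (h : Irr U T) (hct : ∀ y, Ctn U T y) (A : Tick K a) {j : J} {t sd d : ℕ}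
    (hd : d < 3 * K) : ¬ Cl (U (W j t sd 0)) (X j) a 0 (t + d) := by
  intro hc
  obtain ⟨θ, hθ, h2⟩ := cl_zero.1 hc
  have h3 := CK.ra_le A (show t ≤ t + d by omega)
  have h4 := CK.ra_le A (show t + d + 1 ≤ t + 3 * K by omega)
  rw [CK.ra_half A] at h4
  have h5 : ra a t = a t + 3 / 2 := rfl
  exact (D.fam1 sd t).far_ds h hct j h2 (ev_mem (sdf_side sd) (by linarith [hθ.1])
    (by linarith [hθ.2]))

theorem in_ray (h : Irr U T) (hct : ∀ y, Ctn U T y) (A : Tick K a) {j : J} {t sd d k : ℕ}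
    (hd1 : 1 ≤ d) (hd : d < 3 * K) (hk : k ≠ 0) : ¬ Cl (U (W j t sd 0)) (X j) a k (t + d) := by
  intro hc
  have h3 := CK.ra_lt A (show t < t + d by omega)
  have h4 := CK.ra_lt A (show t + d < t + 3 * K by omega)
  rw [CK.ra_half A] at h4
  have h5 : ra a t = a t + 3 / 2 := rfl
  exact (D.fam1 sd t).far_ds h hct j (cl_ray hk hc) (ev_mem (sdf_side sd) (by linarith)
    (by linarith))

/-- after: the ray `t + 3 K` -/
theorem in_end_R (h : Irr U T) (hct : ∀ y, Ctn U T y) (A : Tick K a) {j : J} {t k : ℕ} (hk : k ≠ 0) :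
    ¬ Cl (U (W j t 1 0)) (X j) a k (t + 3 * K) := by
  intro hc
  have h1 := cl_ray hk hc
  rw [CK.ra_half A] at h1
  have h5 : ra a t = a t + 3 / 2 := rfl
  refine (D.fam1 1 t).far_ds h hct j h1 ?_
  rw [sdf_one]
  filter_upwards [Ioo_mem_nhdsGT (one_pos : (0 : ℝ) < 1)] with τ hτ
  constructor <;> linarith [hτ.1, hτ.2]

/-- before: the ray `t` -/
theorem in_end_L (h : Irr U T) (hct : ∀ y, Ctn U T y) {j : J} {t k : ℕ} (hk : k ≠ 0) :
    ¬ Cl (U (W j t 0 0)) (X j) a k t := by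
  intro hc
  have h1 := cl_ray hk hc
  have h5 : ra a t = a t + 3 / 2 := rfl
  refine (D.fam1 0 t).far_ds h hct j h1 ?_
  rw [sdf_ne (by norm_num)]
  filter_upwards [Ioo_mem_nhdsLT (by norm_num : (-1 : ℝ) < 0)] with τ hτ
  constructor <;> linarith [hτ.1, hτ.2]

omit D in
theorem pt_dir (x : ℂ) (t : ℕ) : pt x (a t) = x + dir (a t) := rfl

omit D in
/-- a point inside `S(x - u)` is outside `S(x + u)` -/
theorem out_of_in {x u w : ℂ} (hu : ‖u‖ = 1) (h : dist w (x - u) < 1) : 1 ≤ dist w (x + u) := by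
  have hn : u.re ^ 2 + u.im ^ 2 = 1 := by
    have := Complex.sq_norm u
    rw [hu, Complex.normSq_apply] at this
    linarith
  have h1 : dist w (x + u) ^ 2 + dist w (x - u) ^ 2 = 2 * dist w x ^ 2 + 2 := by
    rw [sq_dist, sq_dist, sq_dist]
    simp only [Complex.add_re, Complex.add_im, Complex.sub_re, Complex.sub_im]
    linear_combination 2 * hn
  have h2 : dist w (x - u) ^ 2 < 1 := by
    have := dist_nonneg (x := w) (y := x - u)
    nlinarith
  have h3 : 1 ≤ dist w (x + u) ^ 2 := by nlinarith [sq_nonneg (dist w x)]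
  by_contra hcon
  push Not at hcon
  have := dist_nonneg (x := w) (y := x + u)
  nlinarith

/-- the zones at the ray `t`, inner colour (any side) -/
theorem in_zone_three (h : Irr U T) (hct : ∀ y, Ctn U T y) {j : J} {t sd : ℕ} :
    ¬ Cl (U (W j t sd 0)) (X j) a 3 t := by
  intro hc
  refine (D.fam1 sd t).far_in h hct (sdf_side sd) j ?_
  refine H357.freq_po (P := fun w => w ∈ U (W j t sd 0) ∧ 1 ≤ dist w (pt (X j) (a t)))
    (((cl_pos (by norm_num)).1 hc).mono fun q hq => ⟨hq.1.2, ?_⟩)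
  exact out_of_in (norm_dir _) (zn_three.1 hq.2)

theorem in_zone_two (h : Irr U T) (hct : ∀ y, Ctn U T y) {j : J} {t sd : ℕ} :
    ¬ Cl (U (W j t sd 0)) (X j) a 2 t := by
  intro hc
  exact (D.fam1 sd t).far_in h hct (sdf_side sd) j (ou_two hc).1

theorem in_zone_one_half (h : Irr U T) (hct : ∀ y, Ctn U T y) (A : Tick K a) {j : J} {t sd : ℕ} :
    ¬ Cl (U (W j t sd 0)) (X j) a 1 (t + 3 * K) := by
  intro hc
  refine (D.fam1 sd t).far_in h hct (sdf_side sd) j ?_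
  refine H357.freq_po (P := fun w => w ∈ U (W j t sd 0) ∧ 1 ≤ dist w (pt (X j) (a t)))
    (((cl_pos (by norm_num)).1 hc).mono fun q hq => ⟨hq.1.2, ?_⟩)
  have h1 := zn_one.1 hq.2
  rw [CK.dir_half A, ← sub_eq_add_neg] at h1
  exact out_of_in (norm_dir _) h1

theorem in_zone_two_half (h : Irr U T) (hct : ∀ y, Ctn U T y) (A : Tick K a) {j : J} {t sd : ℕ} :
    ¬ Cl (U (W j t sd 0)) (X j) a 2 (t + 3 * K) := by
  intro hc
  exact (D.fam1 sd t).far_in h hct (sdf_side sd) j (CK.ou_two_half A hc).1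

/-! #### the rule (b), outer colour -/

theorem out_sector (h : Irr U T) (hct : ∀ y, Ctn U T y) (A : Tick K a) {j : J} {t sd d : ℕ}
    (hd : 3 * K ≤ d) (hd2 : d < 6 * K) : ¬ Cl (U (W j t sd 1)) (X j) a 0 (t + d) := by
  intro hc
  obtain ⟨θ, hθ, h2⟩ := cl_zero.1 hc
  have h3 := CK.ra_le A (show t + 3 * K ≤ t + d by omega)
  have h4 := CK.ra_le A (show t + d + 1 ≤ t + 6 * K by omega)
  rw [CK.ra_half A] at h3
  rw [CK.ra_full A] at h4
  have h5 : ra a t = a t + 3 / 2 := rfl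
  exact (D.fam1 sd t).near_ds h hct j h2 (ev_mem (sdf_side sd) (by linarith [hθ.1])
    (by linarith [hθ.2]))

theorem out_ray (h : Irr U T) (hct : ∀ y, Ctn U T y) (A : Tick K a) {j : J} {t sd d k : ℕ}
    (hd1 : 3 * K < d) (hd : d < 6 * K) (hk : k ≠ 0) : ¬ Cl (U (W j t sd 1)) (X j) a k (t + d) := by
  intro hc
  have h3 := CK.ra_lt A (show t + 3 * K < t + d by omega)
  have h4 := CK.ra_lt A (show t + d < t + 6 * K by omega)
  rw [CK.ra_half A] at h3
  rw [CK.ra_full A] at h4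
  have h5 : ra a t = a t + 3 / 2 := rfl
  exact (D.fam1 sd t).near_ds h hct j (cl_ray hk hc) (ev_mem (sdf_side sd) (by linarith)
    (by linarith))

/-- after: the ray `t` -/
theorem out_end_R (h : Irr U T) (hct : ∀ y, Ctn U T y) {j : J} {t k : ℕ} (hk : k ≠ 0) :
    ¬ Cl (U (W j t 1 1)) (X j) a k t := by
  intro hc
  have h1 := ds_six.2 (cl_ray hk hc)
  have h5 : ra a t = a t + 3 / 2 := rfl
  refine (D.fam1 1 t).near_ds h hct j h1 ?_
  rw [sdf_one]
  filter_upwards [Ioo_mem_nhdsGT (one_pos : (0 : ℝ) < 1)] with τ hτ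
  constructor <;> linarith [hτ.1, hτ.2]

/-- before: the ray `t + 3 K` -/
theorem out_end_L (h : Irr U T) (hct : ∀ y, Ctn U T y) (A : Tick K a) {j : J} {t k : ℕ} (hk : k ≠ 0) :
    ¬ Cl (U (W j t 0 1)) (X j) a k (t + 3 * K) := by
  intro hc
  have h1 := cl_ray hk hc
  rw [CK.ra_half A] at h1
  have h5 : ra a t = a t + 3 / 2 := rfl
  refine (D.fam1 0 t).near_ds h hct j h1 ?_
  rw [sdf_ne (by norm_num)]
  filter_upwards [Ioo_mem_nhdsLT (by norm_num : (-1 : ℝ) < 0)] with τ hτ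
  constructor <;> linarith [hτ.1, hτ.2]

/-- the zones inside `S(X j + u)`, outer colour (any side) -/
theorem out_zone_one (h : Irr U T) (hct : ∀ y, Ctn U T y) {j : J} {t sd : ℕ} :
    ¬ Cl (U (W j t sd 1)) (X j) a 1 t := by
  intro hc
  exact (D.fam1 sd t).near_in h hct (sdf_side sd) j (in_one hc)

theorem out_zone_three_half (h : Irr U T) (hct : ∀ y, Ctn U T y) (A : Tick K a) {j : J} {t sd : ℕ} :
    ¬ Cl (U (W j t sd 1)) (X j) a 3 (t + 3 * K) := by
  intro hc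
  exact (D.fam1 sd t).near_in h hct (sdf_side sd) j (CK.hi_three A hc)

/-! #### the rule (f) -/

theorem glue_in_R {j : J} {t : ℕ} : Cl (Sq T (W j t 1 0)) (X j + dir (a t)) a 3 t := by
  have F := D.fam1 1 t
  rw [sdf_one] at F
  rw [cl_pos (by norm_num)]
  refine (F.tang_in_R j).mono fun p hp => ⟨⟨hp.1, hp.2.1⟩, zn_three.2 ?_⟩
  rw [add_sub_cancel_right]
  exact hp.2.2

theorem glue_out_R {j : J} {t : ℕ} : Cl (Sq T (W j t 1 1)) (X j + dir (a t)) a 2 t := by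
  have F := D.fam1 1 t
  rw [sdf_one] at F
  rw [cl_pos (by norm_num)]
  refine (F.tang_out_R j).mono fun p hp => ⟨⟨hp.1, hp.2.1⟩, zn_two.2 ⟨?_, ?_⟩⟩
  · have e : X j + dir (a t) + dir (a t) = 2 * pt (X j) (a t) - X j := by unfold pt dir; ring
    rw [e]; exact hp.2.2.2.le
  · rw [add_sub_cancel_right]
    exact hp.2.2.1.le

omit D in
theorem shift_L {P : ℝ × ℝ → ℂ → Prop} {x : ℂ} {b : ℝ}
    (h : ∃ᶠ p in 𝓝 ((0 : ℝ), b - 3 / 2), P p (po x p))
    (hP : ∀ r θ w, P (r, θ) w → P (r, θ + 6) w) :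
    ∃ᶠ p in 𝓝 ((0 : ℝ), b + 9 / 2), P p (po x p) := by
  have ht := tendsto_shift (b - 3 / 2) 6
  rw [show b - 3 / 2 + 6 = b + 9 / 2 by ring] at ht
  refine ht.frequently (h.mono ?_)
  rintro ⟨r, θ⟩ hp
  show P (r, θ + 6) (po x (r, θ + 6))
  rw [po_six]
  exact hP _ _ _ hp

theorem glue_in_L (A : Tick K a) {j : J} {t : ℕ} :
    Cl (Sq T (W j t 0 0)) (X j + dir (a t)) a 1 (t + 3 * K) := by
  have F := D.fam1 0 t
  rw [sdf_ne (by norm_num)] at F
  rw [cl_pos (by norm_num), CK.ra_half A, show ra a t + 3 = a t + 9 / 2 by unfold ra; ring]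
  refine shift_L (P := fun p w => (0 < p.1 ∧ w ∈ Sq T (W j t 0 0)) ∧
    Zn (X j + dir (a t)) (dir (a (t + 3 * K))) 1 w) ?_ (fun r θ w h => h)
  refine (F.tang_in_L j).mono fun p hp => ⟨⟨hp.1, hp.2.1⟩, zn_one.2 ?_⟩
  rw [CK.dir_half A, add_neg_cancel_right]
  exact hp.2.2

theorem glue_out_L (A : Tick K a) {j : J} {t : ℕ} :
    Cl (Sq T (W j t 0 1)) (X j + dir (a t)) a 2 (t + 3 * K) := by
  have F := D.fam1 0 t
  rw [sdf_ne (by norm_num)] at F
  rw [cl_pos (by norm_num), CK.ra_half A, show ra a t + 3 = a t + 9 / 2 by unfold ra; ring]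
  refine shift_L (P := fun p w => (0 < p.1 ∧ w ∈ Sq T (W j t 0 1)) ∧
    Zn (X j + dir (a t)) (dir (a (t + 3 * K))) 2 w) ?_ (fun r θ w h => h)
  refine (F.tang_out_L j).mono fun p hp => ⟨⟨hp.1, hp.2.1⟩, zn_two.2 ⟨?_, ?_⟩⟩
  · rw [CK.dir_half A, add_neg_cancel_right]
    exact hp.2.2.1.le
  · rw [CK.dir_half A, sub_neg_eq_add]
    have e : X j + dir (a t) + dir (a t) = 2 * pt (X j) (a t) - X j := by unfold pt dir; ring
    rw [e]; exact hp.2.2.2.le

/-! #### letters -/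

theorem mem (h : Irr U T) {j : J} {t sd : ℕ} :
    W j t sd 0 ∈ T (X j + dir (a t)) ∧ W j t sd 1 ∈ T (X j + dir (a t)) :=
  ⟨(D.fam1 sd t).p_mem h (sdf_side sd) j, (D.fam1 sd t).q_mem h (sdf_side sd) j⟩

theorem cr_some (h : Irr U T) (hct : ∀ y, Ctn U T y) {j : J} {t : ℕ} (C : Cn U T (X j))
    (hp : W j t 1 0 ∈ T (X j)) (hq : W j t 1 1 ∈ T (X j)) :
    CR U T (X j) (a t) = some (W j t 1 0, W j t 1 1) := by
  have F := D.fam1 1 t
  rw [sdf_one] at F
  exact F.cr_some h hct (j := j) C hp hq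

theorem cr_none (h : Irr U T) {j : J} {t : ℕ}
    (hpq : ¬ (W j t 1 0 ∈ T (X j) ∧ W j t 1 1 ∈ T (X j))) : CR U T (X j) (a t) = none := by
  have F := D.fam1 1 t
  rw [sdf_one] at F
  exact F.cr_none h (j := j) hpq

theorem cl_some (h : Irr U T) (hct : ∀ y, Ctn U T y) {j : J} {t : ℕ} (C : Cn U T (X j))
    (hp : W j t 0 0 ∈ T (X j)) (hq : W j t 0 1 ∈ T (X j)) :
    CL U T (X j) (a t) = some (W j t 0 0, W j t 0 1) := by
  have F := D.fam1 0 t
  rw [sdf_ne (by norm_num)] at F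
  exact F.cl_some h hct (j := j) C hp hq

theorem cl_none (h : Irr U T) {j : J} {t : ℕ}
    (hpq : ¬ (W j t 0 0 ∈ T (X j) ∧ W j t 0 1 ∈ T (X j))) : CL U T (X j) (a t) = none := by
  have F := D.fam1 0 t
  rw [sdf_ne (by norm_num)] at F
  exact F.cl_none h (j := j) hpq

end Wd

end Vale.Agent.P032.H61
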