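import Vale.Agent.P032.H357.HistE

/-!
# P032: history bits of any word points and any pairs of colours as monitors

A monitor `i` has a fixed centre `c` (the word point number `x = c.1`) and a pair `p, q` of colours of `T` at this point:
an exact letter with the colours `p, q` has occurred at the class 0 or since `u1`.

* `Mon` : the data of a family of monitors, `XG` : the values of the free atoms, `EGi` : the laws of the monitor `i`,
* `ho_EGi` : they hold in all legal models; `ho_EGe` : the last bit is true if the letter occurs at all.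
-/

open Set Filter Topology Metric

noncomputable section

namespace Vale.Agent.P032.H61.HG

open Vale.Agent.P032.Six Vale.Agent.P032.H892 Vale.Agent.P032.H913 Vale.Agent.P032.S5.H767 Vale.Agent.P032.H61
  Vale.Agent.P032.H357 Vale.Agent.P032.H491 Vale.Agent.P032.H357.MK
open Vale.Agent.P032.H820.K (nbf Md En a0 a1 a2 a3 a4 av lv ps ng Ho hn hp ht lv_ps lv_ng av9)

/-! ### the clauses -/

/-- auxiliary atom: the letter just after `u + k` has the colours of the pair `i` -/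
def wR (i k : ℕ) : ℕ := En 4 4094 0 0 (6 * i + k)

/-- auxiliary atom: the letter at the class 0, direction `k`, side `sd` has the colours of the pair `i` -/
def wC (i k sd : ℕ) : ℕ := En 4 4094 0 0 (64 + 2 * (6 * i + k) + sd)

/-- letter atom of the word point `x` -/
def lz (x t sd io q : ℕ) : ℕ := En 9 x t (2 * sd + io) q

/-- the laws of the monitor `i` at the word point `x` with the colours `p`, `q` -/
def EGi (i x p q : ℕ) : List (List ℕ) :=
  [[ng (hA i 2), ps (hA i 1), ps (wR i 0), ps (wR i 1), ps (wR i 2), ps (wR i 3), ps (wR i 4), ps (wR i 5)],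
   [ng (hA i 0), ps (wC i 0 0), ps (wC i 0 1), ps (wC i 1 0), ps (wC i 1 1), ps (wC i 2 0), ps (wC i 2 1),
    ps (wC i 3 0), ps (wC i 3 1), ps (wC i 4 0), ps (wC i 4 1), ps (wC i 5 0), ps (wC i 5 1)],
   [ng (hA i 0), ps (hA i 1)], [ng (hA i 1), ps (hA i 2)], [ng (hA i 2), ps (hA i 3)]] ++
  (List.range 6).flatMap fun k =>
    [[ng (wR i k), ps (lz x (2 * k + 1) 1 0 p), ps (lz x (2 * k + 1) 1 0 q)],
     [ng (wR i k), ps (lz x (2 * k + 1) 1 1 p), ps (lz x (2 * k + 1) 1 1 q)],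
     [ng (lz x (2 * k + 1) 1 0 p), ng (lz x (2 * k + 1) 1 1 q), ps (hA i 2)],
     [ng (lz x (2 * k + 1) 1 0 q), ng (lz x (2 * k + 1) 1 1 p), ps (hA i 2)],
     [ng (lz x (2 * k + 1) 0 0 p), ng (lz x (2 * k + 1) 0 1 q), ps (hA i 1)],
     [ng (lz x (2 * k + 1) 0 0 q), ng (lz x (2 * k + 1) 0 1 p), ps (hA i 1)]] ++
    (List.range 2).flatMap fun sd =>
      [[ng (wC i k sd), ps (lz x (2 * k) sd 0 p), ps (lz x (2 * k) sd 0 q)],
       [ng (wC i k sd), ps (lz x (2 * k) sd 1 p), ps (lz x (2 * k) sd 1 q)],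
       [ng (lz x (2 * k) sd 0 p), ng (lz x (2 * k) sd 1 q), ps (hA i 0)],
       [ng (lz x (2 * k) sd 0 q), ng (lz x (2 * k) sd 1 p), ps (hA i 0)]]

/-! ### the values -/

variable {U : Fin 6 → Set ℂ} {T : ℂ → Set (Fin 6)} {NP NW TB TC : ℕ}

/-- the two colours of the pair `p, q` -/
def prs (σ : Equiv.Perm (Fin 6)) (p q : ℕ) (w : Fin 6) : Prop := w = co σ p ∨ w = co σ q

/-- both components of a letter are in the pair `p, q` -/
def lpr (σ : Equiv.Perm (Fin 6)) (p q : ℕ) (w : Fin 6 × Fin 6) : Prop := prs σ p q w.1 ∧ prs σ p q w.2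

/-- the directions of the exact letters with the colours of the pair `p, q` -/
def Hp (U : Fin 6 → Set ℂ) (T : ℂ → Set (Fin 6)) (z : ℂ) (σ : Equiv.Perm (Fin 6)) (p q : ℕ) : Set ℝ :=
  closure (OC U T z (co σ p, co σ q)) ∪ closure (OC U T z (co σ q, co σ p))

/-- an exact letter at the class 0 -/
def Kp (σ : Equiv.Perm (Fin 6)) (p q : ℕ) (c : Cn NW TC) (s0 s1 : Cn NW TC × Fin 6 → Fin 6 × Fin 6) : Prop :=
  ∃ m : Fin 6, lpr σ p q (s0 (c, m)) ∨ lpr σ p q (s1 (c, m))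

/-- the data of a family of monitors -/
structure Mon (NW TC : ℕ) where
  /-- the centre -/
  c : ℕ → Cn NW TC
  /-- the first colour -/
  p : ℕ → ℕ
  /-- the second colour -/
  q : ℕ → ℕ

/-- the values of the free atoms (`t0`, `t1` = the letters of the class 0) -/
def XG (D : Mon NW TC) (U : Fin 6 → Set ℂ) (T : ℂ → Set (Fin 6)) (z : ℂ) (σ : Equiv.Perm (Fin 6)) (u1 : ℝ)
    (t0 t1 : Cn NW TC × Fin 6 → Fin 6 × Fin 6) : XV NW :=
  fun u _ _ _ R x n =>
    if x = 4095 then Kp σ (D.p (n / 4)) (D.q (n / 4)) (D.c (n / 4)) t0 t1 ∨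
      hb (Hp U T (Zf u1 TC z NW (D.c (n / 4))) σ (D.p (n / 4)) (D.q (n / 4))) (n % 4) u1 u
    else if n < 64 then lpr σ (D.p (n / 6)) (D.q (n / 6)) (rs TC R (D.c (n / 6), f6 (n % 6)))
    else if n % 2 = 0 then
      lpr σ (D.p ((n - 64) / 2 / 6)) (D.q ((n - 64) / 2 / 6)) (t1 (D.c ((n - 64) / 2 / 6), f6 ((n - 64) / 2 % 6 + 5)))
    else lpr σ (D.p ((n - 64) / 2 / 6)) (D.q ((n - 64) / 2 / 6)) (t0 (D.c ((n - 64) / 2 / 6), f6 ((n - 64) / 2 % 6)))

theorem hp_closed (σ : Equiv.Perm (Fin 6)) (z : ℂ) (p q : ℕ) : IsClosed (Hp U T z σ p q) :=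
  isClosed_closure.union isClosed_closure

/-- the constants -/
def Kg (D : Mon NW TC) (σ : Equiv.Perm (Fin 6)) (t0 t1 : Cn NW TC × Fin 6 → Fin 6 × Fin 6) (i : ℕ) : Prop :=
  Kp σ (D.p i) (D.q i) (D.c i) t0 t1

/-- the closed sets -/
def Hg (D : Mon NW TC) (U : Fin 6 → Set ℂ) (T : ℂ → Set (Fin 6)) (z : ℂ) (σ : Equiv.Perm (Fin 6)) (u1 : ℝ) (i : ℕ) :
    Set ℝ := Hp U T (Zf u1 TC z NW (D.c i)) σ (D.p i) (D.q i)

theorem xg_ok (D : Mon NW TC) (z : ℂ) (σ : Equiv.Perm (Fin 6)) (u1 : ℝ)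
    (t0 t1 : Cn NW TC × Fin 6 → Fin 6 × Fin 6) (nm : ℕ) :
    Xok (XG D U T z σ u1 t0 t1) (fun i : Fin nm => Kg D σ t0 t1 i.val) (fun i : Fin nm => Hg D U T z σ u1 i.val) u1 := by
  intro u s0 s1 L R i r hr
  show (if (4095 : ℕ) = 4095 then _ else _) ↔ _
  rw [if_pos rfl, show (4 * i.val + r) / 4 = i.val by omega, show (4 * i.val + r) % 4 = r by omega]
  exact Iff.rfl

/-! ### letters -/

/-! ### the laws of the directions -/

section
variable {z : ℂ} {σ : Equiv.Perm (Fin 6)} {u1 u : ℝ} {p q : ℕ}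

/-- the letter after `x` has the colours of the pair -/
def crp (U : Fin 6 → Set ℂ) (T : ℂ → Set (Fin 6)) (z : ℂ) (σ : Equiv.Perm (Fin 6)) (p q : ℕ) (x : ℝ) : Prop :=
  CR U T z x = some (co σ p, co σ q) ∨ CR U T z x = some (co σ q, co σ p)

/-- the letter before `x` has the colours of the pair -/
def clp (U : Fin 6 → Set ℂ) (T : ℂ → Set (Fin 6)) (z : ℂ) (σ : Equiv.Perm (Fin 6)) (p q : ℕ) (x : ℝ) : Prop :=
  CL U T z x = some (co σ p, co σ q) ∨ CL U T z x = some (co σ q, co σ p)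

theorem hb_zero (C : Vale.Agent.P032.H892.Cn U T z) (hb0 : hb (Hp U T z σ p q) 0 u1 u) :
    ∃ m : Fin 6, crp U T z σ p q (u1 + m.val) := by
  obtain ⟨m, h1⟩ := hb0
  refine ⟨m, ?_⟩
  have h1 : ∃ᶠ v in 𝓝[>] (u1 + m.val), v ∈ Hp U T z σ p q := h1
  have h2 : (∃ᶠ v in 𝓝[>] (u1 + m.val), v ∈ closure (OC U T z (co σ p, co σ q))) ∨
      ∃ᶠ v in 𝓝[>] (u1 + m.val), v ∈ closure (OC U T z (co σ q, co σ p)) :=
    frequently_or_distrib.1 (h1.mono fun v hv => hv)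
  rcases h2 with h2 | h2
  · exact Or.inl ((hist_start (D := fun (_ : Unit) (_ : Fin 6) => closure (OC U T z _)) (b := ()) (q := 0) rfl C).1 h2)
  · exact Or.inr ((hist_start (D := fun (_ : Unit) (_ : Fin 6) => closure (OC U T z _)) (b := ()) (q := 0) rfl C).1 h2)

theorem hb_jump (h : Irr U T) (C : Vale.Agent.P032.H892.Cn U T z) (hu : u1 < u)
    (h1 : ¬ hb (Hp U T z σ p q) 1 u1 u) (h2 : hb (Hp U T z σ p q) 2 u1 u) :
    ∃ m : Fin 6, crp U T z σ p q (u + m.val) := by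
  obtain ⟨m, h3⟩ := hb_new h1 h2
  refine ⟨m, ?_⟩
  have h4 : ∀ v, u1 + m.val < v → v < u + m.val → v ∉ Hp U T z σ p q := fun v k1 k2 k3 => h1 ⟨m, v, k3, k1, k2⟩
  rcases h3 with h3 | h3
  · refine Or.inl (hist_jump h (D := fun (_ : Unit) (_ : Fin 6) => closure (OC U T z _)) (b := ()) (q := 0) rfl C hu ?_ ?_)
    · rintro ⟨v, k1, k2, k3⟩
      exact h4 v k2 k3 (Or.inl k1)
    · exact ⟨_, h3, by linarith, le_rfl⟩
  · refine Or.inr (hist_jump h (D := fun (_ : Unit) (_ : Fin 6) => closure (OC U T z _)) (b := ()) (q := 0) rfl C hu ?_ ?_)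
    · rintro ⟨v, k1, k2, k3⟩
      exact h4 v k2 k3 (Or.inr k1)
    · exact ⟨_, h3, by linarith, le_rfl⟩

theorem hb_left (hu : u1 < u) {m : Fin 6} (hc : clp U T z σ p q (u + m.val)) : hb (Hp U T z σ p q) 1 u1 u := by
  rcases hc with hc | hc
  · obtain ⟨v, h1, h2⟩ := hist_left (D := fun (_ : Unit) (_ : Fin 6) => closure (OC U T z _)) (b := ()) (q := 0) rfl hu hc
    exact ⟨m, v, Or.inl h1, h2⟩
  · obtain ⟨v, h1, h2⟩ := hist_left (D := fun (_ : Unit) (_ : Fin 6) => closure (OC U T z _)) (b := ()) (q := 0) rfl hu hc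
    exact ⟨m, v, Or.inr h1, h2⟩

theorem hb_right (hu : u1 < u) {m : Fin 6} (hc : crp U T z σ p q (u + m.val)) : hb (Hp U T z σ p q) 2 u1 u := by
  rcases hc with hc | hc
  · obtain ⟨v, h1, h2⟩ := hist_right (D := fun (_ : Unit) (_ : Fin 6) => closure (OC U T z _)) (b := ()) (q := 0) rfl hu hc
    exact ⟨m, v, Or.inl h1, h2⟩
  · obtain ⟨v, h1, h2⟩ := hist_right (D := fun (_ : Unit) (_ : Fin 6) => closure (OC U T z _)) (b := ()) (q := 0) rfl hu hc
    exact ⟨m, v, Or.inr h1, h2⟩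

/-- the pair occurs as an exact letter -/
def Occ (U : Fin 6 → Set ℂ) (T : ℂ → Set (Fin 6)) (z : ℂ) (a b : Fin 6) : Prop :=
  ∃ v, v ∈ OC U T z (a, b) ∨ v ∈ OC U T z (b, a)

theorem hb_three (h : Irr U T) (hz : Occ U T z (co σ p) (co σ q)) : hb (Hp U T z σ p q) 3 u1 u := by
  have key : ∀ {l : L6} {v : ℝ}, v ∈ OC U T z l → ∃ m : Fin 6,
      (closure (OC U T z l) ∩ Ioo (u1 + m.val) (u1 + m.val + 1)).Nonempty := fun {l v} hv =>
    hist_sector h (D := fun (_ : Unit) (_ : Fin 6) => closure (OC U T z l)) (b := ()) (q := 0) rfl hv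
  obtain ⟨v, hv | hv⟩ := hz
  · obtain ⟨m, x, h1, h2⟩ := key hv
    exact ⟨m, x, Or.inl h1, h2⟩
  · obtain ⟨m, x, h1, h2⟩ := key hv
    exact ⟨m, x, Or.inr h1, h2⟩

end

/-! ### the clauses hold -/

section
variable {F : Hy U T} {B : Tb NP NW TB TC} {z : ℂ} {σ : Equiv.Perm (Fin 6)} {u1 u : ℝ} {hu : u ∈ Ioo u1 (u1 + 1)}
  {c : Cn NW TC} {t0 t1 : Cn NW TC × Fin 6 → Fin 6 × Fin 6} {s0 s1 L R : Fin NW × Fin 6 → Fin 6 × Fin 6}
  {S : St4 U T (Yw u1 u TC z NW) u1 u s0 s1 L R} {X : ℕ → ℕ → Prop} {x i k io p q : ℕ}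

theorem lz_av {t sd : ℕ} (hx : x < 4096) (ht : t < 256) (hsd : sd < 2) (hio : io < 2) (hc : c.1 = x) :
    av (xT (mS F B z σ hu S) X) (lz x t sd io q) ↔ (mS F B z σ hu S).W c.1 t sd io = q := by
  unfold lz
  rw [av9 hx ht (by omega), show (2 * sd + io) / 2 = sd by omega, show (2 * sd + io) % 2 = io by omega, hc]
  exact Iff.rfl

theorem lz_oddR (hx : x < 4096) (hk : k < 6) (hio : io < 2) (hq : q < 6) (hc : c.1 = x) :
    av (xT (mS F B z σ hu S) X) (lz x (2 * k + 1) 1 io q) ↔ cio io (rs TC R (c, f6 k)) = co σ q := by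
  rw [lz_av hx (by omega) (by norm_num) hio hc, w_odd c.2.1 c.2.2 (by omega), if_pos rfl,
    show (2 * k + 1) / 2 = k by omega]
  exact MK.nio_iff σ hq

theorem lz_oddL (hx : x < 4096) (hk : k < 6) (hio : io < 2) (hq : q < 6) (hc : c.1 = x) :
    av (xT (mS F B z σ hu S) X) (lz x (2 * k + 1) 0 io q) ↔ cio io (rs TC L (c, f6 k)) = co σ q := by
  rw [lz_av hx (by omega) (by norm_num) hio hc, w_odd c.2.1 c.2.2 (by omega), if_neg (by norm_num),
    show (2 * k + 1) / 2 = k by omega]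
  exact MK.nio_iff σ hq

theorem lz_evenR (hx : x < 4096) (hk : k < 6) (hio : io < 2) (hq : q < 6) (hc : c.1 = x) :
    av (xT (mS F B z σ hu S) X) (lz x (2 * k) 1 io q) ↔ cio io (rs TC s0 (c, f6 k)) = co σ q := by
  rw [lz_av hx (by omega) (by norm_num) hio hc, w_even c.2.1 c.2.2 (by omega), if_pos rfl,
    show 2 * k / 2 = k by omega]
  exact MK.nio_iff σ hq

theorem lz_evenL (hx : x < 4096) (hk : k < 6) (hio : io < 2) (hq : q < 6) (hc : c.1 = x) :
    av (xT (mS F B z σ hu S) X) (lz x (2 * k) 0 io q) ↔ cio io (rs TC s1 (c, f6 (k + 5))) = co σ q := by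
  rw [lz_av hx (by omega) (by norm_num) hio hc, w_even c.2.1 c.2.2 (by omega), if_neg (by norm_num),
    show 2 * k / 2 = k by omega]
  exact MK.nio_iff σ hq

theorem r_R (F : Hy U T) (S : St4 U T (Yw u1 u TC z NW) u1 u s0 s1 L R)
    (C : Vale.Agent.P032.H892.Cn U T (Zf u1 TC z NW c)) (m0 : co σ p ∈ T (Zf u1 TC z NW c))
    (m1 : co σ q ∈ T (Zf u1 TC z NW c)) :
    lpr σ p q (rs TC R (c, f6 k)) ↔ crp U T (Zf u1 TC z NW c) σ p q (u + k) := by
  have D := wd_wds S.h0 S.h1 S.hL S.hR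
  have eY : Yw u1 u TC z NW (fc c) = Zf u1 TC z NW c := yw_fc c
  have C' : Vale.Agent.P032.H892.Cn U T (Yw u1 u TC z NW (fc c)) := by rw [eY]; exact C
  have e := wds_odd_one (s0 := s0) (s1 := s1) (L := L) (R := R) (j := fc c) (m := k)
  constructor
  · rintro ⟨h0, h1⟩
    have h2 := lw_R D F.h F.ct (j := fc c) (t := 2 * k + 1) C' (by rw [eY]; exact m0) (by rw [eY]; exact m1)
      (by rw [e.1]; exact h0) (by rw [e.2]; exact h1)
    rw [eY, t2_odd] at h2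
    exact h2
  · rintro (h2 | h2)
    · rw [← eY, ← t2_odd u1 u k] at h2
      obtain ⟨k0, k1⟩ := lw_R' D F.h F.ct C' h2
      rw [e.1] at k0
      rw [e.2] at k1
      exact ⟨Or.inl k0, Or.inr k1⟩
    · rw [← eY, ← t2_odd u1 u k] at h2
      obtain ⟨k0, k1⟩ := lw_R' D F.h F.ct C' h2
      rw [e.1] at k0
      rw [e.2] at k1
      exact ⟨Or.inr k0, Or.inl k1⟩

theorem r_L (F : Hy U T) (S : St4 U T (Yw u1 u TC z NW) u1 u s0 s1 L R)
    (C : Vale.Agent.P032.H892.Cn U T (Zf u1 TC z NW c)) (m0 : co σ p ∈ T (Zf u1 TC z NW c))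
    (m1 : co σ q ∈ T (Zf u1 TC z NW c)) (h3 : lpr σ p q (rs TC L (c, f6 k))) :
    clp U T (Zf u1 TC z NW c) σ p q (u + k) := by
  have D := wd_wds S.h0 S.h1 S.hL S.hR
  have eY : Yw u1 u TC z NW (fc c) = Zf u1 TC z NW c := yw_fc c
  have C' : Vale.Agent.P032.H892.Cn U T (Yw u1 u TC z NW (fc c)) := by rw [eY]; exact C
  have e := wds_odd_zero (s0 := s0) (s1 := s1) (L := L) (R := R) (j := fc c) (m := k)
  obtain ⟨h0, h1⟩ := h3
  have h2 := lw_L D F.h F.ct (j := fc c) (t := 2 * k + 1) C' (by rw [eY]; exact m0) (by rw [eY]; exact m1)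
    (by rw [e.1]; exact h0) (by rw [e.2]; exact h1)
  rw [eY, t2_odd] at h2
  exact h2

theorem r_0 (F : Hy U T) (S : St4 U T (Yw u1 u TC z NW) u1 u s0 s1 L R)
    (C : Vale.Agent.P032.H892.Cn U T (Zf u1 TC z NW c)) (h2 : crp U T (Zf u1 TC z NW c) σ p q (u1 + k)) :
    lpr σ p q (rs TC s0 (c, f6 k)) := by
  have D := wd_wds S.h0 S.h1 S.hL S.hR
  have eY : Yw u1 u TC z NW (fc c) = Zf u1 TC z NW c := yw_fc c
  have C' : Vale.Agent.P032.H892.Cn U T (Yw u1 u TC z NW (fc c)) := by rw [eY]; exact C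
  have e := wds_even_one (s0 := s0) (s1 := s1) (L := L) (R := R) (j := fc c) (m := k)
  rcases h2 with h2 | h2
  · rw [← eY, ← t2_even u1 u k] at h2
    obtain ⟨k0, k1⟩ := lw_R' D F.h F.ct C' h2
    rw [e.1] at k0
    rw [e.2] at k1
    exact ⟨Or.inl k0, Or.inr k1⟩
  · rw [← eY, ← t2_even u1 u k] at h2
    obtain ⟨k0, k1⟩ := lw_R' D F.h F.ct C' h2
    rw [e.1] at k0
    rw [e.2] at k1
    exact ⟨Or.inr k0, Or.inl k1⟩

/-- the hypotheses on the monitor `i` -/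
structure MonOk (D : Mon NW TC) (U : Fin 6 → Set ℂ) (T : ℂ → Set (Fin 6)) (z : ℂ) (σ : Equiv.Perm (Fin 6)) (u1 : ℝ)
    (i : ℕ) : Prop where
  cn : Vale.Agent.P032.H892.Cn U T (Zf u1 TC z NW (D.c i))
  p6 : D.p i < 6
  q6 : D.q i < 6
  mp : co σ (D.p i) ∈ T (Zf u1 TC z NW (D.c i))
  mq : co σ (D.q i) ∈ T (Zf u1 TC z NW (D.c i))

/-- **The laws of the history bits hold in all legal models.** -/
theorem ho_EGi {D : Mon NW TC} (H : MonOk D U T z σ u1 i) (hi : i < 4) (hNP : NP ≤ 4094)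
    {M : Md 2 NP NW (nbf 2 TB)} (hM : LegX F B z σ (XG D U T z σ u1 t0 t1) u1 t0 t1 M) :
    ∀ e ∈ EGi i (D.c i).1 (D.p i) (D.q i), Ho M e := by
  have hX := xg_ok (U := U) (T := T) D z σ u1 t0 t1 4
  have hmono : ∀ r r', r ≤ r' → r' < 4 → Ho M [ng (hA i r), ps (hA i r')] := fun r r' h1 h2 =>
    mon_mono hX (by omega) hM hi h1 h2
  obtain ⟨C, p6, q6, m0, m1⟩ := H
  have hx4 : (D.c i).1 < 4096 := lt_of_lt_of_le (D.c i).2.1 (B.hNW.trans B.hNP)
  obtain ⟨u, hu, s0, s1, L, R, S, e0, e1, rfl⟩ := hM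
  have hav : ∀ r < 4, (av (xT (mS F B z σ hu S) (XG D U T z σ u1 t0 t1 u s0 s1 L R)) (hA i r) ↔
      Kg D σ t0 t1 i ∨ hb (Hg D U T z σ u1 i) r u1 u) := fun r hr => hA_av hX (by omega) hi hr
  have hwR : ∀ k < 6, (av (xT (mS F B z σ hu S) (XG D U T z σ u1 t0 t1 u s0 s1 L R)) (wR i k) ↔
      lpr σ (D.p i) (D.q i) (rs TC R (D.c i, f6 k))) := fun k hk => by
    refine (xT_fr (x := 4094) (by omega) (by norm_num)).trans ?_
    show (if (4094 : ℕ) = 4095 then _ else if 6 * i + k < 64 then _ else _) ↔ _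
    rw [if_neg (by norm_num), if_pos (by omega), show (6 * i + k) / 6 = i by omega,
      show (6 * i + k) % 6 = k by omega]
  have hwC1 : ∀ k < 6, (av (xT (mS F B z σ hu S) (XG D U T z σ u1 t0 t1 u s0 s1 L R)) (wC i k 1) ↔
      lpr σ (D.p i) (D.q i) (t0 (D.c i, f6 k))) := fun k hk => by
    refine (xT_fr (x := 4094) (by omega) (by norm_num)).trans ?_
    show (if (4094 : ℕ) = 4095 then _ else if 64 + 2 * (6 * i + k) + 1 < 64 then _ else
      if (64 + 2 * (6 * i + k) + 1) % 2 = 0 then _ else _) ↔ _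
    rw [if_neg (by norm_num), if_neg (by omega), if_neg (by omega),
      show (64 + 2 * (6 * i + k) + 1 - 64) / 2 / 6 = i by omega,
      show (64 + 2 * (6 * i + k) + 1 - 64) / 2 % 6 = k by omega]
  have hwC0 : ∀ k < 6, (av (xT (mS F B z σ hu S) (XG D U T z σ u1 t0 t1 u s0 s1 L R)) (wC i k 0) ↔
      lpr σ (D.p i) (D.q i) (t1 (D.c i, f6 (k + 5)))) := fun k hk => by
    refine (xT_fr (x := 4094) (by omega) (by norm_num)).trans ?_
    show (if (4094 : ℕ) = 4095 then _ else if 64 + 2 * (6 * i + k) + 0 < 64 then _ else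
      if (64 + 2 * (6 * i + k) + 0) % 2 = 0 then _ else _) ↔ _
    rw [if_neg (by norm_num), if_neg (by omega), if_pos (by omega),
      show (64 + 2 * (6 * i + k) + 0 - 64) / 2 / 6 = i by omega,
      show (64 + 2 * (6 * i + k) + 0 - 64) / 2 % 6 = k by omega]
  have hR : ∀ k < 6, ∀ io < 2, ∀ q < 6, (av (xT (mS F B z σ hu S) (XG D U T z σ u1 t0 t1 u s0 s1 L R))
      (lz (D.c i).1 (2 * k + 1) 1 io q) ↔ cio io (rs TC R (D.c i, f6 k)) = co σ q) := fun k hk io hio q hq =>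
    lz_oddR hx4 hk hio hq rfl
  have hL : ∀ k < 6, ∀ io < 2, ∀ q < 6, (av (xT (mS F B z σ hu S) (XG D U T z σ u1 t0 t1 u s0 s1 L R))
      (lz (D.c i).1 (2 * k + 1) 0 io q) ↔ cio io (rs TC L (D.c i, f6 k)) = co σ q) := fun k hk io hio q hq =>
    lz_oddL hx4 hk hio hq rfl
  have h0 : ∀ k < 6, ∀ io < 2, ∀ q < 6, (av (xT (mS F B z σ hu S) (XG D U T z σ u1 t0 t1 u s0 s1 L R))
      (lz (D.c i).1 (2 * k) 1 io q) ↔ cio io (t0 (D.c i, f6 k)) = co σ q) := fun k hk io hio q hq => by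
    rw [← e0]; exact lz_evenR hx4 hk hio hq rfl
  have h1 : ∀ k < 6, ∀ io < 2, ∀ q < 6, (av (xT (mS F B z σ hu S) (XG D U T z σ u1 t0 t1 u s0 s1 L R))
      (lz (D.c i).1 (2 * k) 0 io q) ↔ cio io (t1 (D.c i, f6 (k + 5))) = co σ q) := fun k hk io hio q hq => by
    rw [← e1]; exact lz_evenL hx4 hk hio hq rfl
  have hf6 : ∀ m : Fin 6, f6 m.val = m := fun m => f6_lt m.isLt
  have hf65 : ∀ m : Fin 6, f6 ((m.val + 1) % 6 + 5) = m := fun m => by
    apply Fin.ext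
    show ((m.val + 1) % 6 + 5) % 6 = m.val
    have := m.isLt
    omega
  intro e he
  simp only [EGi, List.mem_append, List.mem_cons, List.mem_flatMap, List.mem_range, List.not_mem_nil,
    or_false] at he
  rcases he with (rfl | rfl | rfl | rfl | rfl) | ⟨k, hk, (rfl | rfl | rfl | rfl | rfl | rfl) |
    ⟨sd, hsd, rfl | rfl | rfl | rfl⟩⟩
  · -- new only with a letter
    refine hn fun h2 => ?_
    by_cases h3 : av (xT (mS F B z σ hu S) (XG D U T z σ u1 t0 t1 u s0 s1 L R)) (hA i 1)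
    · exact hp h3
    · rw [hav 2 (by norm_num)] at h2
      rw [hav 1 (by norm_num), not_or] at h3
      obtain ⟨m, hm⟩ := hb_jump F.h C hu.1 h3.2 (h2.resolve_left h3.1)
      have h4 : lpr σ (D.p i) (D.q i) (rs TC R (D.c i, f6 m.val)) := (r_R F S C m0 m1).2 hm
      have h5 := (hwR m.val m.isLt).2 h4
      refine ⟨ps (wR i m.val), ?_, lv_ps.2 h5⟩
      fin_cases m <;> simp
  · -- the start
    refine hn fun h2 => ?_
    rw [hav 0 (by norm_num)] at h2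
    have h3 : ∃ m : Fin 6, lpr σ (D.p i) (D.q i) (t0 (D.c i, m)) ∨ lpr σ (D.p i) (D.q i) (t1 (D.c i, m)) := by
      rcases h2 with h2 | h2
      · exact h2
      · obtain ⟨m, hm⟩ := hb_zero C h2
        have := r_0 F S C hm
        rw [e0, hf6] at this
        exact ⟨m, Or.inl this⟩
    obtain ⟨m, hm | hm⟩ := h3
    · have h5 := (hwC1 m.val m.isLt).2 (by rw [hf6]; exact hm)
      refine ⟨ps (wC i m.val 1), ?_, lv_ps.2 h5⟩
      fin_cases m <;> simp
    · have h5 := (hwC0 ((m.val + 1) % 6) (Nat.mod_lt _ (by norm_num))).2 (by rw [hf65]; exact hm)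
      refine ⟨ps (wC i ((m.val + 1) % 6) 0), ?_, lv_ps.2 h5⟩
      fin_cases m <;> simp
  · exact hmono 0 1 (by norm_num) (by norm_num)
  · exact hmono 1 2 (by norm_num) (by norm_num)
  · exact hmono 2 3 (by norm_num) (by norm_num)
  · refine hn fun h2 => ?_
    rcases ((hwR k hk).1 h2).1 with h3 | h3
    · exact hp ((hR k hk 0 (by norm_num) _ p6).2 h3)
    · exact ht (hp ((hR k hk 0 (by norm_num) _ q6).2 h3))
  · refine hn fun h2 => ?_
    rcases ((hwR k hk).1 h2).2 with h3 | h3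
    · exact hp ((hR k hk 1 (by norm_num) _ p6).2 h3)
    · exact ht (hp ((hR k hk 1 (by norm_num) _ q6).2 h3))
  · refine hn fun h2 => hn fun h3 => hp ((hav 2 (by norm_num)).2 (Or.inr ?_))
    rw [hR k hk 0 (by norm_num) _ p6] at h2
    rw [hR k hk 1 (by norm_num) _ q6] at h3
    exact hb_right (m := ⟨k, hk⟩) hu.1 ((r_R F S C m0 m1).1 ⟨Or.inl h2, Or.inr h3⟩)
  · refine hn fun h2 => hn fun h3 => hp ((hav 2 (by norm_num)).2 (Or.inr ?_))
    rw [hR k hk 0 (by norm_num) _ q6] at h2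
    rw [hR k hk 1 (by norm_num) _ p6] at h3
    exact hb_right (m := ⟨k, hk⟩) hu.1 ((r_R F S C m0 m1).1 ⟨Or.inr h2, Or.inl h3⟩)
  · refine hn fun h2 => hn fun h3 => hp ((hav 1 (by norm_num)).2 (Or.inr ?_))
    rw [hL k hk 0 (by norm_num) _ p6] at h2
    rw [hL k hk 1 (by norm_num) _ q6] at h3
    exact hb_left (m := ⟨k, hk⟩) hu.1 (r_L F S C m0 m1 ⟨Or.inl h2, Or.inr h3⟩)
  · refine hn fun h2 => hn fun h3 => hp ((hav 1 (by norm_num)).2 (Or.inr ?_))
    rw [hL k hk 0 (by norm_num) _ q6] at h2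
    rw [hL k hk 1 (by norm_num) _ p6] at h3
    exact hb_left (m := ⟨k, hk⟩) hu.1 (r_L F S C m0 m1 ⟨Or.inr h2, Or.inl h3⟩)
  · interval_cases sd
    · refine hn fun h2 => ?_
      rcases ((hwC0 k hk).1 h2).1 with h3 | h3
      · exact hp ((h1 k hk 0 (by norm_num) _ p6).2 h3)
      · exact ht (hp ((h1 k hk 0 (by norm_num) _ q6).2 h3))
    · refine hn fun h2 => ?_
      rcases ((hwC1 k hk).1 h2).1 with h3 | h3
      · exact hp ((h0 k hk 0 (by norm_num) _ p6).2 h3)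
      · exact ht (hp ((h0 k hk 0 (by norm_num) _ q6).2 h3))
  · interval_cases sd
    · refine hn fun h2 => ?_
      rcases ((hwC0 k hk).1 h2).2 with h3 | h3
      · exact hp ((h1 k hk 1 (by norm_num) _ p6).2 h3)
      · exact ht (hp ((h1 k hk 1 (by norm_num) _ q6).2 h3))
    · refine hn fun h2 => ?_
      rcases ((hwC1 k hk).1 h2).2 with h3 | h3
      · exact hp ((h0 k hk 1 (by norm_num) _ p6).2 h3)
      · exact ht (hp ((h0 k hk 1 (by norm_num) _ q6).2 h3))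
  · refine hn fun h2 => hn fun h3 => hp ((hav 0 (by norm_num)).2 (Or.inl ?_))
    interval_cases sd
    · rw [h1 k hk 0 (by norm_num) _ p6] at h2
      rw [h1 k hk 1 (by norm_num) _ q6] at h3
      exact ⟨f6 (k + 5), Or.inr ⟨Or.inl h2, Or.inr h3⟩⟩
    · rw [h0 k hk 0 (by norm_num) _ p6] at h2
      rw [h0 k hk 1 (by norm_num) _ q6] at h3
      exact ⟨f6 k, Or.inl ⟨Or.inl h2, Or.inr h3⟩⟩
  · refine hn fun h2 => hn fun h3 => hp ((hav 0 (by norm_num)).2 (Or.inl ?_))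
    interval_cases sd
    · rw [h1 k hk 0 (by norm_num) _ q6] at h2
      rw [h1 k hk 1 (by norm_num) _ p6] at h3
      exact ⟨f6 (k + 5), Or.inr ⟨Or.inr h2, Or.inl h3⟩⟩
    · rw [h0 k hk 0 (by norm_num) _ q6] at h2
      rw [h0 k hk 1 (by norm_num) _ p6] at h3
      exact ⟨f6 k, Or.inl ⟨Or.inr h2, Or.inl h3⟩⟩

/-- **The last bit.** -/
theorem ho_EGe {D : Mon NW TC} (H : Occ U T (Zf u1 TC z NW (D.c i)) (co σ (D.p i)) (co σ (D.q i))) (hi : i < 4)
    (hNP : NP ≤ 4094) {M : Md 2 NP NW (nbf 2 TB)} (hM : LegX F B z σ (XG D U T z σ u1 t0 t1) u1 t0 t1 M) :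
    Ho M [ps (hA i 3)] := by
  have hX := xg_ok (U := U) (T := T) D z σ u1 t0 t1 4
  obtain ⟨u, hu, s0, s1, L, R, S, e0, e1, rfl⟩ := hM
  exact hp ((hA_av hX (by omega) hi (by norm_num)).2 (Or.inr (hb_three F.h H)))

end

end Vale.Agent.P032.H61.HG
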