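import Vale.Agent.P032.H61.SymK
import Vale.Agent.P032.H61.HistG

/-!
# P032: images of patterns with history bits, general form

`KA F i` : the meaning of the bit `hA i 0` (`i < nm`) in the frame `F`.

* `tvG`, `lfG`, `DeadG`, `WG`, `VlG` : atoms, literals, dead patterns with the bits,
* `ClG` : classes closed under an element of the dihedral group, `clG_all`, `clG_six`,
* `imTG`, `imTG_ho` : the clauses of the images in the models with free atoms,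
* `chTG`, `tr_allG'` : trees of certified patterns, `dead_QG` : a query,
* `KG D` : the bits of a family `D : Mon` of monitors of `HistG`; `kg_rot`, `kg_mir`, `kg_col`, `mvG_XG`.
-/

open Set Filter Topology Metric

noncomputable section

namespace Vale.Agent.P032.H61

open Vale.Agent.P032.Six Vale.Agent.P032.Words Vale.Agent.P032.S5.H767 Vale.Agent.P032.H892
  Vale.Agent.P032.H913 Vale.Agent.P032.H357
open Vale.Agent.P032.H357.MK (fx0 cf al al_spec Tb nbeq co Cn Hy alL alL_spec alLL alLL_spec Qy XV xT xT_av xT_fr LegX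
  PatH pdrH Xok mS Zf hA hA_av rs)
open Vale.Agent.P032.H820.K (a0 a1 a2 a3 a4 En en_eq dec Md av lv Ho ps ng nbf lb lb_iff trv ho_trv ho_bif nthC_ho)

/-- the atoms of class 0 with the bits -/
def tvG (KA : Fr → ℕ → Prop) (κ : ℕ → ℤ × ℤ) (F : Fr) (n : ℕ) : Prop := if a1 n = 4095 then KA F (a4 n / 4) else tv κ F n

/-- the literals -/
def lfG (KA : Fr → ℕ → Prop) (κ : ℕ → ℤ × ℤ) (F : Fr) (l : ℕ) : Prop :=
  if l % 2 = 0 then tvG KA κ F (l / 2) else ¬ tvG KA κ F (l / 2)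

/-- the pattern `P` does not occur -/
def DeadG (KA : Fr → ℕ → Prop) (κ : ℕ → ℤ × ℤ) (C : Fr → Prop) (P : List ℕ) : Prop :=
  ∀ F, C F → ¬ ∀ l ∈ P, lfG KA κ F l

/-- valid atoms with the bits -/
def WG (nm : ℕ) (G Ce : ℕ → Prop) (n : ℕ) : Prop := Wn G Ce n ∨ ∃ i < nm, n = hA i 0

/-- valid patterns with the bits -/
def VlG (nm : ℕ) (G Ce : ℕ → Prop) (P : List ℕ) : Prop := ∀ l ∈ P, WG nm G Ce (l / 2)

/-- image of an atom under a permutation of the colours, `j` = the action on the bits -/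
def cJ (f j : ℕ → ℕ) (n : ℕ) : ℕ := if a1 n = 4095 then hA (j (a4 n / 4)) 0 else nc f n

/-- the class `C` is closed under the element `g` -/
def ClG (KA : Fr → ℕ → Prop) (nm : ℕ) (κ : ℕ → ℤ × ℤ) (tab : ℕ → ℕ → ℕ) (C : Fr → Prop) (G Ce : ℕ → Prop) (g : ℕ) :
    Prop := ∀ F, C F → ∃ F', C F' ∧ ∀ n, WG nm G Ce n → (tvG KA κ F' n ↔ tvG KA κ F (gK tab g n))

/-- the permutation `π` acts on the bits by `j` -/
def JOk (KA : Fr → ℕ → Prop) (nm : ℕ) (π : Equiv.Perm (Fin 6)) (j : ℕ → ℕ) : Prop :=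
  ∀ i < nm, j i < nm ∧ ∀ F : Fr, (KA (F.col π) i ↔ KA F (j i))

section
variable {KA : Fr → ℕ → Prop} {nm : ℕ} {κ : ℕ → ℤ × ℤ} {G Ce : ℕ → Prop} {tab : ℕ → ℕ → ℕ} {C : Fr → Prop}
  {P : List ℕ}

theorem tvG_hA {F : Fr} {i : ℕ} : tvG KA κ F (hA i 0) ↔ KA F i := by
  obtain ⟨-, e1, -, -, e4⟩ := hA_dec i
  unfold tvG
  rw [if_pos e1, e4, show 4 * i / 4 = i by omega]

theorem tvG_real (hG : ∀ x, G x → x < 4095) {F : Fr} {n : ℕ} (hn : Wn G Ce n) : tvG KA κ F n ↔ tv κ F n := by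
  have h := hG _ hn.va.pt
  unfold tvG
  rw [if_neg (by omega)]

theorem cJ_real (hG : ∀ x, G x → x < 4095) {f j : ℕ → ℕ} {n : ℕ} (hn : Wn G Ce n) : cJ f j n = nc f n := by
  have h := hG _ hn.va.pt
  unfold cJ
  rw [if_neg (by omega)]

theorem cJ_hA {f j : ℕ → ℕ} {i : ℕ} : cJ f j (hA i 0) = hA (j i) 0 := by
  obtain ⟨-, e1, -, -, e4⟩ := hA_dec i
  unfold cJ
  rw [if_pos e1, e4, show 4 * i / 4 = i by omega]

theorem lfG_lm {F F' : Fr} {f : ℕ → ℕ} {l : ℕ} (h : tvG KA κ F' (l / 2) ↔ tvG KA κ F (f (l / 2))) :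
    lfG KA κ F' l ↔ lfG KA κ F (lm f l) := by
  unfold lfG
  rw [lm_mod, lm_div, h]

variable (t : Tabs κ G Ce tab) (hG : ∀ x, G x → x < 4095)
include t hG

theorem tvG_rot {F : Fr} {n : ℕ} (hn : Wn G Ce n) :
    tvG KA κ (F.rot (tab 1)) n ↔ tvG KA κ F (nr (tab 1) 1 n) := by
  rw [tvG_real hG hn, tvG_real hG (Wn.nr t (g := 1) (r := 1) hn (by norm_num))]
  unfold H61.nr
  rw [tv_en t.lt (Wa.rot hn (t.good _ hn.va.pt 1 (by norm_num)) fun hc => t.cen _ hc 1 (by norm_num))]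
  exact tva_rot (t.rot _ hn.va.pt) hn.va

theorem tvG_mir {F : Fr} {n : ℕ} (hn : Wn G Ce n) :
    tvG KA κ (F.mir (tab 6)) n ↔ tvG KA κ F (H61.nm (tab 6) n) := by
  rw [tvG_real hG hn, tvG_real hG (Wn.nm t (g := 6) hn (by norm_num))]
  unfold H61.nm
  rw [tv_en t.lt (Wa.mir hn (t.good _ hn.va.pt 6 (by norm_num)) fun hc => t.cen _ hc 6 (by norm_num))]
  exact tva_mir (t.mir _ hn.va.pt) hn.va

theorem tvG_zero {F : Fr} {n : ℕ} (hn : WG nm G Ce n) : tvG KA κ F n ↔ tvG KA κ F (gK tab 0 n) := by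
  rcases hn with hn | ⟨i, hi, rfl⟩
  · rw [gK_real hG hn, tvG_real hG hn, tvG_real hG (wn_gn t (by norm_num) hn)]
    obtain ⟨e0, e1, e2, e3, e4⟩ := gn_zero t hn
    unfold tv
    rw [e0, e1, e2, e3, e4]
  · rw [gK_hA]

theorem clG_six (hC : ∀ F, C F → C (F.mir (tab 6))) (h6 : ∀ F : Fr, ∀ i < nm, (KA (F.mir (tab 6)) i ↔ KA F i)) {g : ℕ}
    (hg : g = 0 ∨ g = 6) : ClG KA nm κ tab C G Ce g := by
  intro F hF
  rcases hg with rfl | rfl
  · exact ⟨F, hF, fun n hn => tvG_zero t hG hn⟩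
  · refine ⟨_, hC F hF, fun n hn => ?_⟩
    rcases hn with hn | ⟨i, hi, rfl⟩
    · rw [gK_real hG hn, gn_six t hn]
      exact tvG_mir t hG hn
    · rw [gK_hA, tvG_hA, tvG_hA]
      exact h6 F i hi

/-- one more rotation -/
theorem clG_rot (hC : ∀ F, C F → C (F.rot (tab 1))) (h1 : ∀ F : Fr, ∀ i < nm, (KA (F.rot (tab 1)) i ↔ KA F i))
    {g g' : ℕ} (hg : g < 12) (h : ClG KA nm κ tab C G Ce g)
    (e : ∀ n, Wn G Ce n → nr (tab 1) 1 (gn tab g n) = gn tab g' n) : ClG KA nm κ tab C G Ce g' := by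
  intro F hF
  obtain ⟨F', hF', h2⟩ := h _ (hC F hF)
  refine ⟨F', hF', fun n hn => ?_⟩
  rw [h2 n hn]
  rcases hn with hn | ⟨i, hi, rfl⟩
  · rw [gK_real hG hn, gK_real hG hn, ← e n hn]
    exact tvG_rot t hG (wn_gn t hg hn)
  · rw [gK_hA, gK_hA, tvG_hA, tvG_hA]
    exact h1 F i hi

/-- **closed under the dihedral group** -/
theorem clG_all (hCr : ∀ F, C F → C (F.rot (tab 1))) (hCm : ∀ F, C F → C (F.mir (tab 6)))
    (h1 : ∀ F : Fr, ∀ i < nm, (KA (F.rot (tab 1)) i ↔ KA F i))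
    (h6 : ∀ F : Fr, ∀ i < nm, (KA (F.mir (tab 6)) i ↔ KA F i)) {g : ℕ} (hg : g < 12) :
    ClG KA nm κ tab C G Ce g := by
  have key1 : ∀ r, r ≤ 5 → ClG KA nm κ tab C G Ce r := by
    intro r
    induction r with
    | zero => intro _; exact clG_six t hG hCm h6 (Or.inl rfl)
    | succ r ih =>
      intro hr
      exact clG_rot t hG hCr h1 (g := r) (by omega) (ih (by omega)) fun n hn => gn_r t (by omega) hn
  have key2 : ∀ r, r ≤ 5 → ClG KA nm κ tab C G Ce (6 + r) := by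
    intro r
    induction r with
    | zero => intro _; exact clG_six t hG hCm h6 (Or.inr rfl)
    | succ r ih =>
      intro hr
      exact clG_rot t hG hCr h1 (g := 6 + r) (by omega) (ih (by omega)) fun n hn => gn_m t (by omega) hn
  rcases Nat.lt_or_ge g 6 with h | h
  · exact key1 g (by omega)
  · have := key2 (g - 6) (by omega)
    rwa [show 6 + (g - 6) = g by omega] at this

theorem tvG_col {F : Fr} {π : Equiv.Perm (Fin 6)} {j : ℕ → ℕ} (hπ : JOk KA nm π j) {n : ℕ} (hn : WG nm G Ce n) :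
    tvG KA κ (F.col π) n ↔ tvG KA κ F (cJ (pn π) j n) := by
  rcases hn with hn | ⟨i, hi, rfl⟩
  · rw [cJ_real hG hn, tvG_real hG hn, tvG_real hG (Wn.nc t hn π)]
    unfold H61.nc
    rw [tv_en t.lt (Wa.col hn π)]
    exact tva_col' π
  · rw [cJ_hA, tvG_hA, tvG_hA]
    exact (hπ i hi).2 F

theorem wG_g {g n : ℕ} (hg : g < 12) (hn : WG nm G Ce n) : WG nm G Ce (gK tab g n) := by
  rcases hn with hn | ⟨i, hi, rfl⟩
  · left; rw [gK_real hG hn]; exact wn_gn t hg hn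
  · right; exact ⟨i, hi, gK_hA⟩

theorem wG_c {π : Equiv.Perm (Fin 6)} {j : ℕ → ℕ} (hπ : JOk KA nm π j) {n : ℕ} (hn : WG nm G Ce n) :
    WG nm G Ce (cJ (pn π) j n) := by
  rcases hn with hn | ⟨i, hi, rfl⟩
  · left; rw [cJ_real hG hn]; exact Wn.nc t hn π
  · right
    exact ⟨j i, (hπ i hi).1, cJ_hA⟩

/-- **images of dead patterns with bits** -/
theorem deadG_img (hP : DeadG KA κ C P) (hv : VlG nm G Ce P) {g : ℕ} (hg : ClG KA nm κ tab C G Ce g) (hg12 : g < 12)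
    {π : Equiv.Perm (Fin 6)} {j : ℕ → ℕ} (hπ : JOk KA nm π j) (hCc : ∀ F, C F → C (F.col π)) :
    DeadG KA κ C (P.map (lm fun n => cJ (pn π) j (gK tab g n))) := by
  intro F hF hall
  obtain ⟨F', hF', h1⟩ := hg _ (hCc F hF)
  refine hP F' hF' fun l hl => ?_
  have h2 := hall _ (List.mem_map_of_mem hl)
  refine (lfG_lm ?_).2 h2
  rw [h1 _ (hv l hl)]
  exact tvG_col t hG hπ (wG_g t hG hg12 (hv l hl))

theorem vlG_img (hv : VlG nm G Ce P) {g : ℕ} (hg12 : g < 12) {π : Equiv.Perm (Fin 6)} {j : ℕ → ℕ}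
    (hπ : JOk KA nm π j) : VlG nm G Ce (P.map (lm fun n => cJ (pn π) j (gK tab g n))) := by
  intro l hl
  obtain ⟨l', h1, rfl⟩ := List.mem_map.1 hl
  rw [lm_div]
  exact wG_c t hG hπ (wG_g t hG hg12 (hv l' h1))

end

/-! ### models -/

/-- the atoms of class 0 and the bits of the model are those of the frame -/
def MvG {NP NW TB : ℕ} (KA : Fr → ℕ → Prop) (nm TC : ℕ) (F : Fr) (M : Md 2 NP NW (nbf 2 TB)) : Prop :=
  ∀ n, WG nm (Gp NP TC) (Ce NW TC) n → (av M n ↔ tvG KA (kap TC) F n)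

section
variable {KA : Fr → ℕ → Prop} {nm NP NW TB TC TG : ℕ} {B : Tb NP NW TB TC} {F : Fr} {M : Md 2 NP NW (nbf 2 TB)}
  {C : Fr → Prop}

theorem mvG_of {XF : Fr → XV NW} (hNP : NP ≤ 4095) (hM : MdlX B XF F M) (h : ∀ i < nm, (av M (hA i 0) ↔ KA F i)) :
    MvG KA nm TC F M := by
  rintro n (hn | ⟨i, hi, rfl⟩)
  · rw [tvG_real (gp_lt hNP) hn]
    exact hM.av hn
  · rw [tvG_hA]; exact h i hi

theorem MvG.lv (hM : MvG KA nm TC F M) {l : ℕ} (hv : WG nm (Gp NP TC) (Ce NW TC) (l / 2)) :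
    lv M l ↔ lfG KA (kap TC) F l := by
  unfold H820.K.lv lfG
  rw [hM _ hv]

theorem ho_nclG (hM : MvG KA nm TC F M) {P : List ℕ} (hP : DeadG KA (kap TC) C P) (hF : C F)
    (hv : VlG nm (Gp NP TC) (Ce NW TC) P) : Ho M (ncl P) := by
  have h := hP F hF
  rw [not_forall] at h
  obtain ⟨l, h⟩ := h
  rw [Classical.not_imp] at h
  obtain ⟨hl, h⟩ := h
  refine ⟨Nat.xor l 1, List.mem_map_of_mem hl, lv_xor.2 ?_⟩
  rw [hM.lv (hv l hl)]
  exact h

/-! ### images in the kernel -/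

/-- the image of an atom, `J cp` = the action on the bits -/
def gBG (J : ℕ → ℕ → ℕ) (TG cp g n : ℕ) : ℕ := bif Nat.beq (Nat.mod (Nat.div n 16) 4096) 4095 then
    hA (J cp (Nat.div (Nat.div n 134217728) 4)) 0 else gB TG cp g n

/-- the negated image of a literal -/
def gLG (J : ℕ → ℕ → ℕ) (TG cp g l : ℕ) : ℕ :=
  Nat.add (Nat.mul 2 (gBG J TG cp g (Nat.div l 2))) (Nat.sub 1 (Nat.mod l 2))

/-- the clause of an image of a pattern -/
def imCG (J : ℕ → ℕ → ℕ) (TG cp g x : ℕ) : List ℕ := upk (gLG J TG cp g) 64 x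

theorem gLG_eq (J : ℕ → ℕ → ℕ) (TG cp g l : ℕ) : gLG J TG cp g l = Nat.xor (lm (gBG J TG cp g) l) 1 := by
  have h1 : gLG J TG cp g l = 2 * gBG J TG cp g (l / 2) + (1 - l % 2) := rfl
  have h2 : lm (gBG J TG cp g) l = 2 * gBG J TG cp g (l / 2) + l % 2 := rfl
  rw [h1, h2]
  show _ = (2 * gBG J TG cp g (l / 2) + l % 2) ^^^ 1
  rcases Nat.mod_two_eq_zero_or_one l with h | h
  · rw [h, Nat.xor_one_of_even (by simp)]
  · rw [h, Nat.xor_one_of_odd (by exact odd_two_mul_add_one _)]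
    simp

theorem gBG_eq (t : Tabs (kap TC) (Gp NP TC) (Ce NW TC) (ptb TG)) (hNP : NP ≤ 4095) {J : ℕ → ℕ → ℕ} {cp g n : ℕ}
    (hg : g < 12) {π : Equiv.Perm (Fin 6)} (hcp : ∀ q < 6, pn π q = cpf cp q)
    (hn : WG nm (Gp NP TC) (Ce NW TC) n) : gBG J TG cp g n = cJ (pn π) (J cp) (gK (ptb TG) g n) := by
  rcases hn with hn | ⟨i, hi, rfl⟩
  · have h1 := gp_lt hNP _ hn.va.pt
    have h2 : Nat.beq (Nat.mod (Nat.div n 16) 4096) 4095 = false := by
      rw [← Bool.not_eq_true, nbeq]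
      intro e
      have : a1 n = 4095 := e
      omega
    unfold gBG
    rw [h2, cond_false, gB_eq t hg hn, gK_real (gp_lt hNP) hn, cJ_real (gp_lt hNP) (wn_gn t hg hn)]
    have hw := wn_gn t hg hn
    unfold nc
    congr 1
    unfold qc
    split_ifs
    · rfl
    · exact (hcp _ hw.va.col).symm
  · obtain ⟨-, e1, -, -, e4⟩ := hA_dec i
    have h2 : Nat.beq (Nat.mod (Nat.div (hA i 0) 16) 4096) 4095 = true := nbeq.2 e1
    have h3 : Nat.div (Nat.div (hA i 0) 134217728) 4 = i := by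
      have e4 : Nat.div (hA i 0) 134217728 = 4 * i := e4
      rw [e4]
      show 4 * i / 4 = i
      omega
    unfold gBG
    rw [h2, cond_true, h3, gK_hA, cJ_hA]

/-- the permutations with the numbers below `NPM` in the table `PT` are allowed and act on the bits by `J` -/
def OkPG (KA : Fr → ℕ → Prop) (nm : ℕ) (J : ℕ → ℕ → ℕ) (C : Fr → Prop) (PT NPM : ℕ) : Prop :=
  ∀ i < NPM, ∃ π : Equiv.Perm (Fin 6),
    (∀ q < 6, pn π q = cpf (Nat.land (Nat.shiftRight PT (Nat.mul 18 i)) 262143) q) ∧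
    JOk KA nm π (J (Nat.land (Nat.shiftRight PT (Nat.mul 18 i)) 262143)) ∧ ∀ F, C F → C (F.col π)

/-- the clause of an image, code `g + 16 i + 4096 n` -/
def imTG (J : ℕ → ℕ → ℕ) (G : ℕ → Bool) (t : PTr) (PT NPM TG c : ℕ) : List ℕ :=
  bif G (Nat.land c 15) && lb (Nat.land (Nat.shiftRight c 4) 255) NPM then
    imCG J TG (Nat.land (Nat.shiftRight PT (Nat.mul 18 (Nat.land (Nat.shiftRight c 4) 255))) 262143)
      (Nat.land c 15) (t.get (Nat.shiftRight c 12)) else trv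

/-- **clauses of images hold in every model** -/
theorem imTG_ho (t : Tabs (kap TC) (Gp NP TC) (Ce NW TC) (ptb TG)) (hNP : NP ≤ 4095) (hM : MvG KA nm TC F M)
    (hF : C F) {G : ℕ → Bool}
    (hG : ∀ g, G g = true → g < 12 ∧ ClG KA nm (kap TC) (ptb TG) C (Gp NP TC) (Ce NW TC) g) {J : ℕ → ℕ → ℕ}
    {PT NPM : ℕ} (hPT : OkPG KA nm J C PT NPM) {tr : PTr}
    (ht : tr.All fun p => DeadG KA (kap TC) C (pk p) ∧ VlG nm (Gp NP TC) (Ce NW TC) (pk p)) (c : ℕ) :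
    Ho M (imTG J G tr PT NPM TG c) := by
  unfold imTG
  cases h1 : G (Nat.land c 15) && lb (Nat.land (Nat.shiftRight c 4) 255) NPM
  · rw [cond_false]; exact ho_trv M
  · rw [cond_true]
    rw [Bool.and_eq_true, lb_iff] at h1
    generalize Nat.land c 15 = g at h1
    generalize Nat.land (Nat.shiftRight c 4) 255 = i at h1
    obtain ⟨hg, hg1⟩ := hG g h1.1
    obtain ⟨π, h2, hk, h3⟩ := hPT i h1.2
    generalize Nat.land (Nat.shiftRight PT (Nat.mul 18 i)) 262143 = cp at h2 hk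
    obtain ⟨h4, h5⟩ := PTr.get_all ht (Nat.shiftRight c 12)
    generalize tr.get (Nat.shiftRight c 12) = x at h4 h5
    have h7 := deadG_img t (gp_lt hNP) h4 h5 hg1 hg hk h3
    have h6 := ho_nclG hM h7 hF (vlG_img t (gp_lt hNP) h5 hg hk)
    have e1 : imCG J TG cp g x = ncl ((pk x).map (lm fun n => cJ (pn π) (J cp) (gK (ptb TG) g n))) := by
      unfold imCG ncl pk
      rw [upk_map (gLG J TG cp g), List.map_map]
      refine List.map_congr_left fun l hl => ?_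
      show gLG J TG cp g l = Nat.xor (lm (fun n => cJ (pn π) (J cp) (gK (ptb TG) g n)) l) 1
      rw [gLG_eq]
      congr 1
      unfold lm
      rw [gBG_eq t hNP hg h2 (h5 l hl)]
    rw [e1]; exact h6

theorem gA_okG (t : Tabs (kap TC) (Gp NP TC) (Ce NW TC) (ptb TG)) (hNP : NP ≤ 4095)
    (hCr : ∀ F, C F → C (F.rot (ptb TG 1))) (hCm : ∀ F, C F → C (F.mir (ptb TG 6)))
    (h1 : ∀ F : Fr, ∀ i < nm, (KA (F.rot (ptb TG 1)) i ↔ KA F i))
    (h6 : ∀ F : Fr, ∀ i < nm, (KA (F.mir (ptb TG 6)) i ↔ KA F i)) (g : ℕ) (hg : gA g = true) :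
    g < 12 ∧ ClG KA nm (kap TC) (ptb TG) C (Gp NP TC) (Ce NW TC) g := by
  have h := lb_iff.1 hg
  exact ⟨h, clG_all t (gp_lt hNP) hCr hCm h1 h6 h⟩

theorem gS_okG (t : Tabs (kap TC) (Gp NP TC) (Ce NW TC) (ptb TG)) (hNP : NP ≤ 4095)
    (hCm : ∀ F, C F → C (F.mir (ptb TG 6)))
    (h6 : ∀ F : Fr, ∀ i < nm, (KA (F.mir (ptb TG 6)) i ↔ KA F i)) (g : ℕ) (hg : gS g = true) :
    g < 12 ∧ ClG KA nm (kap TC) (ptb TG) C (Gp NP TC) (Ce NW TC) g := by
  unfold gS at hg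
  rw [Bool.or_eq_true, nbeq, nbeq] at hg
  exact ⟨by omega, clG_six t (gp_lt hNP) hCm h6 hg⟩

/-! ### trees of certified patterns -/

/-- check of a valid pattern with bits -/
def vlGB (nm NP NW TC : ℕ) (P : List ℕ) : Bool :=
  alL (fun l => wnL NP NW TC l || (Nat.beq (Nat.div l 2) (hA (Nat.div (Nat.div (Nat.div l 2) 134217728) 4) 0) &&
    lb (Nat.div (Nat.div (Nat.div l 2) 134217728) 4) nm)) P

theorem vlG_of_B {P : List ℕ} (h : vlGB nm NP NW TC P = true) : VlG nm (Gp NP TC) (Ce NW TC) P := by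
  intro l hl
  have h1 := alL_spec h l hl
  rw [Bool.or_eq_true, Bool.and_eq_true, nbeq, lb_iff] at h1
  rcases h1 with h1 | ⟨h1, h2⟩
  · exact Or.inl (wa_of_F h1)
  · exact Or.inr ⟨_, h2, h1⟩

/-- the packed patterns `N` are the patterns `L`, all are valid -/
def chLG (nm NP NW TC : ℕ) (N : List ℕ) : List (List ℕ) → Bool :=
  @List.rec ℕ (fun _ => List (List ℕ) → Bool)
    (fun L => @List.rec (List ℕ) (fun _ => Bool) true (fun _ _ _ => false) L)
    (fun x _ ih L => @List.rec (List ℕ) (fun _ => Bool) false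
      (fun P L' _ => (eqLc (pk x) P && vlGB nm NP NW TC P) && ih L') L) N

theorem chLG_spec {N : List ℕ} {L : List (List ℕ)} (h : chLG nm NP NW TC N L = true) :
    ∀ x ∈ N, pk x ∈ L ∧ VlG nm (Gp NP TC) (Ce NW TC) (pk x) := by
  induction N generalizing L with
  | nil => exact fun x hx => absurd hx List.not_mem_nil
  | cons y N ih =>
    cases L with
    | nil => exact absurd h Bool.false_ne_true
    | cons P L =>
      have h1 : ((eqLc (pk y) P && vlGB nm NP NW TC P) && chLG nm NP NW TC N L) = true := h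
      rw [Bool.and_eq_true, Bool.and_eq_true] at h1
      intro x hx
      rcases List.mem_cons.1 hx with rfl | hx
      · have e := eqLc_spec h1.1.1
        rw [e]
        exact ⟨List.mem_cons_self, vlG_of_B h1.1.2⟩
      · obtain ⟨h2, h3⟩ := ih h1.2 x hx
        exact ⟨List.mem_cons_of_mem _ h2, h3⟩

/-- the tree `t` is the tree of the patterns `L` (with bits) -/
def chTG (nm NP NW TC : ℕ) (t : PTr) (L : List (List ℕ)) : Bool := chLG nm NP NW TC (t.lvs []) L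

/-- **patterns which are certified with monitors are dead** (the bits of the class 0 may occur in the pattern) -/
theorem deadG_of_patH {XF : Fr → XV NW} {Kc : Fr → Fin nm → Prop} {Hs : Fr → Fin nm → Set ℝ}
    {E : List (List ℕ)} {P : List ℕ} {Inv : List (List ℕ)} (B : Tb NP NW TB TC)
    (hC : ∀ F, C F → FOk (kap TC) (cxv NW TC) F) (hcl : ∀ F, C F → ∀ i, IsClosed (Hs F i))
    (hX : ∀ F, C F → Xok (XF F) (Kc F) (Hs F) F.b) (hNP : NP ≤ 4095)
    (hMK : ∀ F (M : Md 2 NP NW (nbf 2 TB)), C F → MdlX B XF F M → MvG KA nm TC F M)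
    (hE : ∀ F M, C F → MdlX B XF F M → ∀ c ∈ E, Ho M c) (hv : VlG nm (Gp NP TC) (Ce NW TC) P)
    (H : PatH NP NW TB TC nm E P Inv) : DeadG KA (kap TC) C P := by
  intro F hF hall
  obtain ⟨M, hM⟩ := exists_mdlX B XF (hC F hF)
  obtain ⟨hy, hl⟩ := id hM
  exact pdrH (hcl F hF) (hX F hF) hNP (fun M' hM' => hE F M' hF ⟨hy, hM'⟩) H
    ⟨M, hl, fun l hl => ((hMK F M hF hM).lv (hv l hl)).2 (hall l hl)⟩

/-- **the tree of a list of patterns which are certified with monitors, extra clauses from a function** -/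
theorem tr_allGG {XF : Fr → XV NW} {Kc : Fr → Fin nm → Prop} {Hs : Fr → Fin nm → Set ℝ} {t : PTr}
    {L : List (List ℕ)} {fam : ℕ → List ℕ} (B : Tb NP NW TB TC) (h : chTG nm NP NW TC t L = true)
    (hL : ∀ P ∈ L, CrtG NP NW TB TC nm fam P) (hC : ∀ F, C F → FOk (kap TC) (cxv NW TC) F)
    (hcl : ∀ F, C F → ∀ i, IsClosed (Hs F i)) (hX : ∀ F, C F → Xok (XF F) (Kc F) (Hs F) F.b) (hNP : NP ≤ 4095)
    (hMK : ∀ F (M : Md 2 NP NW (nbf 2 TB)), C F → MdlX B XF F M → MvG KA nm TC F M)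
    (hE : ∀ F M, C F → MdlX B XF F M → ∀ c, Ho M (fam c)) :
    t.All fun p => DeadG KA (kap TC) C (pk p) ∧ VlG nm (Gp NP TC) (Ce NW TC) (pk p) := by
  refine (PTr.all_of (acc := []) fun x hx => ?_).1
  obtain ⟨h1, h2⟩ := chLG_spec h x hx
  obtain ⟨cs, I, hI⟩ := hL _ h1
  refine ⟨deadG_of_patH B hC hcl hX hNP hMK (fun F M hF hM c hc => ?_) h2 hI, h2⟩
  obtain ⟨i, -, rfl⟩ := List.mem_map.1 hc
  exact hE F M hF hM i

/-- patterns of a larger class without bits -/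
theorem deadG_of_dead {C' : Fr → Prop} {P : List ℕ} (hNP : NP ≤ 4095) (hCC : ∀ F, C F → C' F)
    (hv : Vl (Gp NP TC) (Ce NW TC) P) (h : Dead (kap TC) C' P) : DeadG KA (kap TC) C P := by
  intro F hF hall
  refine h F (hCC F hF) fun l hl => ?_
  have h1 := hall l hl
  unfold lfG at h1
  unfold lf
  rw [tvG_real (gp_lt hNP) (hv l hl)] at h1
  exact h1

theorem vlG_of_vl {P : List ℕ} {G Ce : ℕ → Prop} (hv : Vl G Ce P) : VlG nm G Ce P := fun l hl => Or.inl (hv l hl)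

/-- a tree of dead patterns without bits -/
theorem allG_of_all {C' : Fr → Prop} {t : PTr} (hNP : NP ≤ 4095) (hCC : ∀ F, C F → C' F)
    (h : t.All fun p => Dead (kap TC) C' (pk p) ∧ Vl (Gp NP TC) (Ce NW TC) (pk p)) :
    t.All fun p => DeadG KA (kap TC) C (pk p) ∧ VlG nm (Gp NP TC) (Ce NW TC) (pk p) := by
  induction t with
  | leaf n => exact ⟨deadG_of_dead hNP hCC h.2 h.1, vlG_of_vl h.2⟩
  | node l r ihl ihr => exact ⟨ihl h.1, ihr h.2⟩

/-- **a query with free atoms** -/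
theorem dead_QG (B : Tb NP NW TB TC) (XF : Fr → XV NW) {C' : Fr → Prop}
    (hOk : ∀ F, C' F → FOk (kap TC) (cxv NW TC) F)
    (hMK : ∀ F (M : Md 2 NP NW (nbf 2 TB)), C' F → MdlX B XF F M → MvG KA nm TC F M) {P : List ℕ}
    (hv : VlG nm (Gp NP TC) (Ce NW TC) P) {E : ℕ → List ℕ}
    (hE : ∀ F M, C' F → MdlX B XF F M → (∀ l ∈ P, H820.K.lv M l) → ∀ i, Ho M (E i))
    {cs : List ℕ} (hq : Qy NP NW TB (cs.map E)) : DeadG KA (kap TC) C' P := by
  intro F hF hall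
  obtain ⟨M, hM⟩ := exists_mdlX B XF (hOk F hF)
  refine hq M fun c hc => ?_
  obtain ⟨i, -, rfl⟩ := List.mem_map.1 hc
  exact hE F M hF hM (fun l hl => ((hMK F M hF hM).lv (hv l hl)).2 (hall l hl)) i

/-- the class is empty -/
theorem deadG_nil {C' : Fr → Prop} (h : DeadG KA (kap TC) C' []) {κ : ℕ → ℤ × ℤ} : Dead κ C' [] :=
  fun F hF _ => h F hF fun _ hl => absurd hl List.not_mem_nil

end

/-! ### the bits of a family of monitors -/

section
variable {NP NW TB TC : ℕ} {B : Tb NP NW TB TC} {F : Fr} {M : Md 2 NP NW (nbf 2 TB)}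

/-- a letter of the centre `D.c i` at the class 0 has both colours of the pair `i` -/
def KG (D : HG.Mon NW TC) (F : Fr) (i : ℕ) : Prop :=
  ∃ m : Fin 6, HG.lpr F.σ (D.p i) (D.q i) (F.s0 ((D.c i).1, m)) ∨ HG.lpr F.σ (D.p i) (D.q i) (F.s1 ((D.c i).1, m))

theorem kg_rot {D : HG.Mon NW TC} {pr : ℕ → ℕ} {i : ℕ} (h : pr (D.c i).1 = (D.c i).1) : KG D (F.rot pr) i ↔ KG D F i := by
  constructor
  · rintro ⟨m, hm⟩
    refine ⟨m + 1, ?_⟩
    have hm : HG.lpr F.σ (D.p i) (D.q i) (F.s0 (pr (D.c i).1, m + 1)) ∨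
      HG.lpr F.σ (D.p i) (D.q i) (F.s1 (pr (D.c i).1, m + 1)) := hm
    rwa [h] at hm
  · rintro ⟨m, hm⟩
    refine ⟨m - 1, ?_⟩
    show HG.lpr F.σ (D.p i) (D.q i) (F.s0 (pr (D.c i).1, m - 1 + 1)) ∨
      HG.lpr F.σ (D.p i) (D.q i) (F.s1 (pr (D.c i).1, m - 1 + 1))
    rw [h, sub_add_cancel]; exact hm

theorem kg_mir {D : HG.Mon NW TC} {pm : ℕ → ℕ} {i : ℕ} (h : pm (D.c i).1 = (D.c i).1) : KG D (F.mir pm) i ↔ KG D F i := by
  constructor
  · rintro ⟨m, hm⟩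
    refine ⟨m.rev, ?_⟩
    have hm : HG.lpr F.σ (D.p i) (D.q i) (F.s1 (pm (D.c i).1, m.rev)) ∨
      HG.lpr F.σ (D.p i) (D.q i) (F.s0 (pm (D.c i).1, m.rev)) := hm
    rw [h] at hm
    exact hm.symm
  · rintro ⟨m, hm⟩
    refine ⟨m.rev, ?_⟩
    show HG.lpr F.σ (D.p i) (D.q i) (F.s1 (pm (D.c i).1, m.rev.rev)) ∨
      HG.lpr F.σ (D.p i) (D.q i) (F.s0 (pm (D.c i).1, m.rev.rev))
    rw [h, Fin.rev_rev]
    exact hm.symm

/-- the monitor `j` is the image of the monitor `i` under the colours `cp` -/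
def mgB (D : HG.Mon NW TC) (cp i j : ℕ) : Bool :=
  Nat.beq (D.c j).1 (D.c i).1 &&
    ((Nat.beq (D.p j) (cpf cp (D.p i)) && Nat.beq (D.q j) (cpf cp (D.q i))) ||
      (Nat.beq (D.p j) (cpf cp (D.q i)) && Nat.beq (D.q j) (cpf cp (D.p i))))

/-- the action of the colours on the monitors -/
def JG (D : HG.Mon NW TC) (cp i : ℕ) : ℕ :=
  bif mgB D cp i 0 then 0 else bif mgB D cp i 1 then 1 else bif mgB D cp i 2 then 2 else 3

/-- the check of the action -/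
def jchk (D : HG.Mon NW TC) (nm PT NPM : ℕ) : Bool := al (fun k => al (fun i =>
  (lb (D.p i) 6 && lb (D.q i) 6) &&
  (lb (JG D (Nat.land (Nat.shiftRight PT (Nat.mul 18 k)) 262143) i) nm &&
    mgB D (Nat.land (Nat.shiftRight PT (Nat.mul 18 k)) 262143) i
      (JG D (Nat.land (Nat.shiftRight PT (Nat.mul 18 k)) 262143) i))) nm) NPM

theorem kg_col {D : HG.Mon NW TC} {π : Equiv.Perm (Fin 6)} {cp i j : ℕ} (hcp : ∀ q < 6, pn π q = cpf cp q)
    (hp : D.p i < 6) (hq : D.q i < 6) (h : mgB D cp i j = true) : KG D (F.col π) i ↔ KG D F j := by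
  unfold mgB at h
  rw [Bool.and_eq_true, Bool.or_eq_true, Bool.and_eq_true, Bool.and_eq_true, nbeq, nbeq, nbeq, nbeq, nbeq,
    ← hcp _ hp, ← hcp _ hq] at h
  obtain ⟨h1, h2⟩ := h
  have key : ∀ w : Fin 6 × Fin 6, HG.lpr (F.σ * π) (D.p i) (D.q i) w ↔ HG.lpr F.σ (D.p j) (D.q j) w := fun w => by
    unfold HG.lpr HG.prs
    rw [co_pn, co_pn]
    rcases h2 with ⟨e1, e2⟩ | ⟨e1, e2⟩
    · rw [e1, e2]
    · rw [e1, e2, or_comm, @or_comm (w.2 = co F.σ (pn π (D.p i)))]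
  unfold KG
  rw [h1]
  exact exists_congr fun m => or_congr (key _) (key _)

/-- **the permutations of a table act on the bits** -/
theorem okPG_of {D : HG.Mon NW TC} {nm PT NPM : ℕ} {C : Fr → Prop} (h : OkPT C PT NPM)
    (hj : jchk D nm PT NPM = true) : OkPG (KG D) nm (JG D) C PT NPM := by
  intro k hk
  obtain ⟨π, h1, h2⟩ := h k hk
  refine ⟨π, h1, fun i hi => ?_, h2⟩
  have h3 := al_spec (al_spec hj k hk) i hi
  rw [Bool.and_eq_true, Bool.and_eq_true, Bool.and_eq_true, lb_iff, lb_iff, lb_iff] at h3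
  exact ⟨h3.2.1, fun F => kg_col h1 h3.1.1 h3.1.2 h3.2.2⟩

/-- the values of the free atoms -/
def XKG (D : HG.Mon NW TC) (F : Fr) : XV NW :=
  HG.XG D F.U F.T F.z F.σ F.b (rS (cxv NW TC) F.s0) (rS (cxv NW TC) F.s1)

/-- the constants of the monitors -/
def KcG (D : HG.Mon NW TC) (nm : ℕ) (F : Fr) (i : Fin nm) : Prop :=
  HG.Kg D F.σ (rS (cxv NW TC) F.s0) (rS (cxv NW TC) F.s1) i.val

/-- the directions of the monitors -/
def HsG (D : HG.Mon NW TC) (nm : ℕ) (F : Fr) (i : Fin nm) : Set ℝ := HG.Hg D F.U F.T F.z F.σ F.b i.val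

theorem xKG_ok (D : HG.Mon NW TC) (nm : ℕ) (F : Fr) : Xok (XKG D F) (KcG D nm F) (HsG D nm F) F.b :=
  HG.xg_ok D _ _ _ _ _ nm

theorem hsG_closed (D : HG.Mon NW TC) (nm : ℕ) (F : Fr) (i : Fin nm) : IsClosed (HsG D nm F i) := HG.hp_closed _ _ _ _

/-- **the monitor at the class 0 is a letter at the class 0** -/
theorem kg_XG {D : HG.Mon NW TC} {i : ℕ} (hNP : NP ≤ 4095) (H : HG.MonOk D F.U F.T F.z F.σ F.b i)
    (hM : MdlX B (XKG D) F M) : av M (hA i 0) ↔ KG D F i := by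
  obtain ⟨hy, u, hu, s0, s1, L, R, S, e0, e1, rfl⟩ := hM
  refine (hA_av (xKG_ok D (i + 1) F) hNP (Nat.lt_succ_self i) (by norm_num)).trans ?_
  have e2 : KcG D (i + 1) F ⟨i, Nat.lt_succ_self i⟩ ↔ KG D F i := Iff.rfl
  rw [e2]
  refine or_iff_left_of_imp fun h => ?_
  obtain ⟨m, hm⟩ := HG.hb_zero (u := u) H.cn h
  have h2 := HG.r_0 (k := m.val) hy S H.cn hm
  rw [e0] at h2
  refine ⟨m, Or.inl ?_⟩
  have h3 : f6 m.val = m := Fin.ext (Nat.mod_eq_of_lt m.isLt)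
  rw [h3] at h2
  exact h2

/-- **the models with monitors** -/
theorem mvG_XG {D : HG.Mon NW TC} {nm : ℕ} (hNP : NP ≤ 4095)
    (H : ∀ i < nm, HG.MonOk D F.U F.T F.z F.σ F.b i) (hM : MdlX B (XKG D) F M) : MvG (KG D) nm TC F M :=
  mvG_of hNP hM fun i hi => kg_XG hNP (H i hi) hM

/-- **the laws of the monitors** -/
theorem MdlX.ho_EGi {D : HG.Mon NW TC} {i : ℕ} (hi : i < 4) (hNP : NP ≤ 4094)
    (H : HG.MonOk D F.U F.T F.z F.σ F.b i) (hM : MdlX B (XKG D) F M) :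
    ∀ e ∈ HG.EGi i (D.c i).1 (D.p i) (D.q i), Ho M e := by
  obtain ⟨hy, hl⟩ := hM
  exact HG.ho_EGi H hi hNP hl

/-- the last bit -/
theorem MdlX.ho_EGe {D : HG.Mon NW TC} {i : ℕ} (hi : i < 4) (hNP : NP ≤ 4094)
    (H : HG.Occ F.U F.T (Zf F.b TC F.z NW (D.c i)) (co F.σ (D.p i)) (co F.σ (D.q i))) (hM : MdlX B (XKG D) F M) :
    Ho M [ps (hA i 3)] := by
  obtain ⟨hy, hl⟩ := hM
  exact HG.ho_EGe H hi hNP hl

end

end Vale.Agent.P032.H61
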