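import Mathlib

/-!
# P032: real induction for states which are only defined frequently

`P v σ` : at the point `v` the state `σ` is possible (several states at one point, no state at some points).
`E` : any filter of sets of points (for instance the filter of the dense open sets).
`LSt E P u`, `RSt E P u` : the states which occur frequently at points arbitrarily close to `u` on the left and on the
right.

* `ev_RSt`, `ev_LSt` : near `u` on the right all one sided states are in `RSt E P u`,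
* `exists_start`, `exists_end` : `σ` in `LSt` and in `RSt` at points arbitrarily close to `a` on the right,
* `gen_run` : **a set of states which is closed under the transitions `LSt → RSt` and contains a start is full.**
-/

open Set Filter Topology

namespace Vale.Agent.P032.H61

section
variable {S : Type*} {E : Filter ℝ} {P : ℝ → S → Prop} {a b u : ℝ} {σ : S}

/-- the states on the left -/
def LSt (E : Filter ℝ) (P : ℝ → S → Prop) (u : ℝ) : Set S := {σ | ∃ᶠ v in 𝓝[<] u ⊓ E, P v σ}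

/-- the states on the right -/
def RSt (E : Filter ℝ) (P : ℝ → S → Prop) (u : ℝ) : Set S := {σ | ∃ᶠ v in 𝓝[>] u ⊓ E, P v σ}

theorem ev_ev_right {Q : ℝ → Prop} (h : ∀ᶠ v in 𝓝[>] u ⊓ E, Q v) :
    ∀ᶠ v in 𝓝[>] u, ∀ᶠ w in 𝓝 v ⊓ E, Q w := by
  obtain ⟨s1, h1, s2, h2, hs⟩ := mem_inf_iff_superset.1 h
  obtain ⟨c, hc, hs1⟩ := (mem_nhdsGT_iff_exists_Ioo_subset (a := u)).1 h1
  filter_upwards [Ioo_mem_nhdsGT hc] with v hv
  have h3 : Ioo u c ∩ s2 ∈ 𝓝 v ⊓ E := inter_mem_inf (Ioo_mem_nhds hv.1 hv.2) h2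
  filter_upwards [h3] with w hw
  exact hs ⟨hs1 hw.1, hw.2⟩

theorem ev_ev_left {Q : ℝ → Prop} (h : ∀ᶠ v in 𝓝[<] u ⊓ E, Q v) :
    ∀ᶠ v in 𝓝[<] u, ∀ᶠ w in 𝓝 v ⊓ E, Q w := by
  obtain ⟨s1, h1, s2, h2, hs⟩ := mem_inf_iff_superset.1 h
  obtain ⟨c, hc, hs1⟩ := (mem_nhdsLT_iff_exists_Ioo_subset (a := u)).1 h1
  filter_upwards [Ioo_mem_nhdsLT hc] with v hv
  have h3 : Ioo c u ∩ s2 ∈ 𝓝 v ⊓ E := inter_mem_inf (Ioo_mem_nhds hv.1 hv.2) h2
  filter_upwards [h3] with w hw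
  exact hs ⟨hs1 hw.1, hw.2⟩

theorem inf_le_r {v : ℝ} : 𝓝[>] v ⊓ E ≤ 𝓝 v ⊓ E := inf_le_inf_right E nhdsWithin_le_nhds

theorem inf_le_l {v : ℝ} : 𝓝[<] v ⊓ E ≤ 𝓝 v ⊓ E := inf_le_inf_right E nhdsWithin_le_nhds

/-- one sided states near `u` on the right are right states of `u` -/
theorem mem_RSt_of (h : ∃ᶠ v in 𝓝[>] u, σ ∈ LSt E P v ∨ σ ∈ RSt E P v) : σ ∈ RSt E P u := by
  by_contra hcon
  have h1 : ∀ᶠ v in 𝓝[>] u ⊓ E, ¬ P v σ := not_frequently.1 hcon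
  obtain ⟨v, h2, h3⟩ := (h.and_eventually (ev_ev_right h1)).exists
  rcases h2 with h2 | h2
  · exact h2 (h3.filter_mono inf_le_l)
  · exact h2 (h3.filter_mono inf_le_r)

theorem mem_LSt_of (h : ∃ᶠ v in 𝓝[<] u, σ ∈ LSt E P v ∨ σ ∈ RSt E P v) : σ ∈ LSt E P u := by
  by_contra hcon
  have h1 : ∀ᶠ v in 𝓝[<] u ⊓ E, ¬ P v σ := not_frequently.1 hcon
  obtain ⟨v, h2, h3⟩ := (h.and_eventually (ev_ev_left h1)).exists
  rcases h2 with h2 | h2
  · exact h2 (h3.filter_mono inf_le_l)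
  · exact h2 (h3.filter_mono inf_le_r)

variable [Finite S]

theorem freq_ex {α : Type*} {l : Filter α} {Q : S → α → Prop} (h : ∃ᶠ x in l, ∃ σ, Q σ x) :
    ∃ σ, ∃ᶠ x in l, Q σ x := by
  by_contra hcon
  rw [not_exists] at hcon
  refine h ?_
  have h1 : ∀ᶠ x in l, ∀ σ, ¬ Q σ x := eventually_all.2 fun σ => not_frequently.1 (hcon σ)
  filter_upwards [h1] with x hx
  rw [not_exists]
  exact hx

theorem ev_RSt : ∀ᶠ v in 𝓝[>] u, ∀ σ, (σ ∈ LSt E P v ∨ σ ∈ RSt E P v) → σ ∈ RSt E P u := by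
  refine eventually_all.2 fun σ => ?_
  by_cases h : σ ∈ RSt E P u
  · exact Eventually.of_forall fun _ _ => h
  · have h1 : ∀ᶠ v in 𝓝[>] u ⊓ E, ¬ P v σ := not_frequently.1 h
    filter_upwards [ev_ev_right h1] with v h3 h4
    rcases h4 with h4 | h4
    · exact absurd (h3.filter_mono inf_le_l) h4
    · exact absurd (h3.filter_mono inf_le_r) h4

theorem ev_LSt : ∀ᶠ v in 𝓝[<] u, ∀ σ, (σ ∈ LSt E P v ∨ σ ∈ RSt E P v) → σ ∈ LSt E P u := by
  refine eventually_all.2 fun σ => ?_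
  by_cases h : σ ∈ LSt E P u
  · exact Eventually.of_forall fun _ _ => h
  · have h1 : ∀ᶠ v in 𝓝[<] u ⊓ E, ¬ P v σ := not_frequently.1 h
    filter_upwards [ev_ev_left h1] with v h3 h4
    rcases h4 with h4 | h4
    · exact absurd (h3.filter_mono inf_le_l) h4
    · exact absurd (h3.filter_mono inf_le_r) h4

theorem RSt_nonempty (h : ∃ᶠ v in 𝓝[>] u ⊓ E, ∃ σ, P v σ) : (RSt E P u).Nonempty := freq_ex h

theorem LSt_nonempty (h : ∃ᶠ v in 𝓝[<] u ⊓ E, ∃ σ, P v σ) : (LSt E P u).Nonempty := freq_ex h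

/-- in every interval there is a point with a common left and right state -/
theorem exists_both (hab : a < b) (hL : ∀ u ∈ Ioo a b, (LSt E P u).Nonempty) :
    ∃ u ∈ Ioo a b, ∃ σ, σ ∈ LSt E P u ∧ σ ∈ RSt E P u := by
  classical
  -- an interval with the least number of states
  let St : ℝ × ℝ → Set S := fun p => {σ | ∃ u ∈ Ioo p.1 p.2, σ ∈ LSt E P u}
  let F : Set (ℝ × ℝ) := {p | a ≤ p.1 ∧ p.1 < p.2 ∧ p.2 ≤ b}
  have hne : ((fun p => (St p).ncard) '' F).Nonempty := ⟨_, (a, b), ⟨le_rfl, hab, le_rfl⟩, rfl⟩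
  obtain ⟨_, ⟨p, hp, rfl⟩, hmin⟩ :=
    WellFounded.has_min (r := ((· < ·) : ℕ → ℕ → Prop)) wellFounded_lt _ hne
  obtain ⟨hp1, hp2, hp3⟩ := hp
  have key : ∀ c d, p.1 ≤ c → c < d → d ≤ p.2 → St (c, d) = St p := by
    intro c d h1 h2 h3
    have hsub : St (c, d) ⊆ St p := by
      rintro σ ⟨u, hu, hσ⟩
      exact ⟨u, ⟨h1.trans_lt hu.1, hu.2.trans_le h3⟩, hσ⟩
    refine Set.eq_of_subset_of_ncard_le hsub ?_ (Set.toFinite _)
    exact not_lt.1 (hmin _ ⟨(c, d), ⟨hp1.trans h1, h2, h3.trans hp3⟩, rfl⟩)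
  set u := (p.1 + p.2) / 2 with hu
  have hu1 : p.1 < u := by rw [hu]; linarith
  have hu2 : u < p.2 := by rw [hu]; linarith
  have huab : u ∈ Ioo a b := ⟨hp1.trans_lt hu1, hu2.trans_le hp3⟩
  obtain ⟨σ, hσ⟩ := hL u huab
  have hσp : σ ∈ St p := ⟨u, ⟨hu1, hu2⟩, hσ⟩
  refine ⟨u, huab, σ, hσ, mem_RSt_of ?_⟩
  rw [frequently_iff]
  intro N hN
  obtain ⟨c, hc, hs⟩ := (mem_nhdsGT_iff_exists_Ioo_subset (a := u)).1 hN
  have h1 := key u (min c p.2) hu1.le (lt_min hc hu2) (min_le_right _ _)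
  rw [← h1] at hσp
  obtain ⟨v, hv, hσv⟩ := hσp
  exact ⟨v, hs ⟨hv.1, hv.2.trans_le (min_le_left _ _)⟩, Or.inl hσv⟩

/-- **the start** -/
theorem exists_start (hab : a < b) (hL : ∀ u ∈ Ioo a b, (LSt E P u).Nonempty) :
    ∃ σ, ∃ᶠ u in 𝓝[>] a, σ ∈ LSt E P u ∧ σ ∈ RSt E P u := by
  refine freq_ex ?_
  rw [frequently_iff]
  intro N hN
  obtain ⟨c, hc, hs⟩ := (mem_nhdsGT_iff_exists_Ioo_subset (a := a)).1 hN
  have h1 : a < min c b := lt_min hc hab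
  obtain ⟨u, hu, σ, h2⟩ := exists_both (E := E) (P := P) h1 fun u hu =>
    hL u ⟨hu.1, hu.2.trans_le (min_le_right _ _)⟩
  exact ⟨u, hs ⟨hu.1, hu.2.trans_le (min_le_left _ _)⟩, σ, h2⟩

/-- **the end** -/
theorem exists_end (hab : a < b) (hL : ∀ u ∈ Ioo a b, (LSt E P u).Nonempty) :
    ∃ σ, ∃ᶠ u in 𝓝[<] b, σ ∈ LSt E P u ∧ σ ∈ RSt E P u := by
  refine freq_ex ?_
  rw [frequently_iff]
  intro N hN
  obtain ⟨c, hc, hs⟩ := (mem_nhdsLT_iff_exists_Ioo_subset (a := b)).1 hN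
  have h1 : max c a < b := max_lt hc hab
  obtain ⟨u, hu, σ, h2⟩ := exists_both (E := E) (P := P) h1 fun u hu =>
    hL u ⟨(le_max_right _ _).trans_lt hu.1, hu.2⟩
  exact ⟨u, hs ⟨(le_max_left _ _).trans_lt hu.1, hu.2⟩, σ, h2⟩

/-- **Real induction.** -/
theorem gen_run (hab : a < b) (hne : ∀ u ∈ Ioo a b, (RSt E P u).Nonempty) {V : Set S}
    (hstep : ∀ u ∈ Ioo a b, ∀ σ ∈ LSt E P u, ∀ σ' ∈ RSt E P u, σ ∈ V → σ' ∈ V) {s0 : S}
    (h0 : ∃ᶠ u in 𝓝[>] a, s0 ∈ LSt E P u) (h0V : s0 ∈ V) :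
    ∀ s1, (∃ᶠ u in 𝓝[<] b, s1 ∈ RSt E P u) → s1 ∈ V := by
  obtain ⟨β, hβ1, hβ⟩ := (h0.and_eventually (Ioo_mem_nhdsGT hab)).exists
  have hβab : β ∈ Ioo a b := hβ
  have hstart : RSt E P β ⊆ V := fun σ hσ => hstep β hβab s0 hβ1 σ hσ h0V
  have key : ∀ u, β ≤ u → u < b → RSt E P u ⊆ V := by
    by_contra hcon
    push Not at hcon
    set Bad : Set ℝ := {u | β ≤ u ∧ u < b ∧ ¬ RSt E P u ⊆ V} with hBad
    have hBne : Bad.Nonempty := by
      obtain ⟨u, h1, h2, h3⟩ := hcon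
      exact ⟨u, h1, h2, h3⟩
    have hbdd : BddBelow Bad := ⟨β, fun u hu => hu.1⟩
    set s := sInf Bad with hs
    have hβs : β ≤ s := le_csInf hBne fun u hu => hu.1
    have hsb : s < b := by
      obtain ⟨u, hu⟩ := hBne
      exact (csInf_le hbdd hu).trans_lt hu.2.1
    have hgood : ∀ u, β ≤ u → u < s → RSt E P u ⊆ V := by
      intro u h1 h2
      by_contra h3
      exact absurd (csInf_le hbdd (show u ∈ Bad from ⟨h1, h2.trans hsb, h3⟩)) (not_le.2 h2)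
    have hgs : RSt E P s ⊆ V := by
      rcases hβs.eq_or_lt with h1 | h1
      · rw [← h1]; exact hstart
      · have h2 : ∃ᶠ u in 𝓝[<] s, ∃ σ, σ ∈ V ∧ σ ∈ RSt E P u := by
          refine Eventually.frequently ?_
          filter_upwards [Ioo_mem_nhdsLT h1] with u hu
          obtain ⟨σ, hσ⟩ := hne u ⟨hβab.1.trans hu.1, hu.2.trans hsb⟩
          exact ⟨σ, hgood u hu.1.le hu.2 hσ, hσ⟩
        obtain ⟨σ, hσ⟩ := freq_ex h2
        have hσV : σ ∈ V := hσ.exists.elim fun _ h => h.1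
        have hσL : σ ∈ LSt E P s := mem_LSt_of (hσ.mono fun _ h => Or.inr h.2)
        exact fun σ' hσ' => hstep s ⟨hβab.1.trans_le hβs, hsb⟩ σ hσL σ' hσ' hσV
    have h1 : ∀ᶠ v in 𝓝[>] s, RSt E P v ⊆ V := by
      filter_upwards [ev_RSt (E := E) (P := P) (u := s)] with v hv σ hσ
      exact hgs (hv σ (Or.inr hσ))
    obtain ⟨c, hc, hsub⟩ := (mem_nhdsGT_iff_exists_Ioo_subset (a := s)).1 h1
    obtain ⟨u, hu, huc⟩ := exists_lt_of_csInf_lt hBne (show sInf Bad < c from hc)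
    have hsu : s ≤ u := csInf_le hbdd hu
    rcases hsu.eq_or_lt with h2 | h2
    · rw [← h2] at hu; exact hu.2.2 hgs
    · exact hu.2.2 (hsub ⟨h2, huc⟩)
  intro s1 h1
  obtain ⟨u, h2, h3⟩ := (h1.and_eventually (Ioo_mem_nhdsLT hβab.2)).exists
  exact key u h3.1.le h3.2 h2

end

end Vale.Agent.P032.H61
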