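import Vale.Agent.P032.H892.Perm

/-!
# P032: codes of states (letters, left hull ends)

`Cd x s` : the number `x < 2 ^ 108` is the code of the letters and the left hull end sectors of the lifted state `s`.
The colour `c` owns the bits `18 c, .., 18 c + 17` : bit `18 c + k` : the inner letter at `k` is `c`;
bit `18 c + 6 + k` : the outer letter at `k` is `c`; bit `18 c + 12 + m` : the left end is in the sector `m` modulo `6`.
-/

namespace Vale.Agent.P032.H61

open Vale.Agent.P032.H892

/-- `x` is the code of `s` -/
def Cd (x : ℕ) (s : StZ) : Prop :=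
  x < 2 ^ 108 ∧ ∀ c k : Fin 6, (x.testBit (18 * c.val + k.val) = true ↔ (s.1 k).1 = c) ∧
    (x.testBit (18 * c.val + 6 + k.val) = true ↔ (s.1 k).2 = c) ∧
    (x.testBit (18 * c.val + 12 + k.val) = true ↔ s.2.1 c % 6 = (k.val : ℤ))

end Vale.Agent.P032.H61
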