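import Vale.Agent.P032.H61.Act

/-!
# P032: kernel checker for the elimination of classes of states

An entry `e` packs a code `cdE e` (108 bits), a class `mE e` (8 bits), a permutation `pE e` (18 bits) and a turn
`jE e` (3 bits).  `rep m` is the code of the class `m`, `suc m` the list of the after-states of `rep m`; the class
`255` marks states which are not static.  `chk n ef t` : the tree `t` of entries contains `rep n`, does not contain the
turned code of `rep n`, and is closed under all events which respect the monotone motion of the left ends, except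
that (if `ef`) events which change all six inner letters are disregarded, and classes `< n` are disregarded.
-/

open Set Filter Topology Metric

namespace Vale.Agent.P032.H61

open Vale.Agent.P032.H892

/-- branching -/
def br (b x y : Bool) : Bool := @Bool.rec (fun _ => Bool) y x b

theorem br_true (x y : Bool) : br true x y = x := rfl
theorem br_false (x y : Bool) : br false x y = y := rfl

theorem br_and {b x : Bool} (h : br b x false = true) : b = true ∧ x = true := by
  cases b
  · exact absurd h (by simp [br_false])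
  · exact ⟨rfl, h⟩

theorem br_not {b x : Bool} (h : br b false x = true) : b = false ∧ x = true := by
  cases b
  · exact ⟨rfl, h⟩
  · exact absurd h (by simp [br_true])

theorem br_or {b x : Bool} (h : br b true x = true) : b = true ∨ x = true := by
  cases b
  · exact Or.inr h
  · exact Or.inl rfl

/-- search trees of entries -/
inductive Tr : Type
  | e : Tr
  | n : Tr → ℕ → Tr → Tr

/-- decision trees -/
inductive Dt (α : Type) : Type
  | leaf : α → Dt α
  | node : ℕ → Dt α → Dt α → Dt α

/-- value of a decision tree -/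
noncomputable def Dt.get {α : Type} (t : Dt α) (m : ℕ) : α :=
  @Dt.rec α (fun _ => α) (fun v => v) (fun k _ _ a b => @Bool.rec (fun _ => α) b a (Nat.ble m k)) t

/-- fields of entries -/
def cdE (e : ℕ) : ℕ := Nat.land e 324518553658426726783156020576255
def mE (e : ℕ) : ℕ := Nat.land (Nat.shiftRight e 108) 255
def pE (e : ℕ) : ℕ := Nat.land (Nat.shiftRight e 116) 262143
def jE (e : ℕ) : ℕ := Nat.land (Nat.shiftRight e 134) 7

theorem cdE_lt (e : ℕ) : cdE e < 2 ^ 108 := by
  have : cdE e = e &&& (2 ^ 108 - 1) := rfl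
  rw [this]
  exact Nat.and_lt_two_pow _ (by norm_num)

/-- membership in a tree -/
def Tr.Mem (x : ℕ) : Tr → Prop
  | .e => False
  | .n l y r => Tr.Mem x l ∨ x = y ∨ Tr.Mem x r

/-- search for a code -/
noncomputable def memT (y : ℕ) (t : Tr) : Bool :=
  @Tr.rec (fun _ => Bool) false (fun _ e _ a b => br (Nat.beq y (cdE e)) true (br (Nat.ble y (cdE e)) a b)) t

/-- all entries -/
noncomputable def allT (f : ℕ → Bool) (t : Tr) : Bool :=
  @Tr.rec (fun _ => Bool) true (fun _ e _ a b => br (f e) (br a b false) false) t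

/-- all elements -/
noncomputable def allL (f : ℕ → Bool) (l : List ℕ) : Bool :=
  @List.rec ℕ (fun _ => Bool) true (fun e _ ih => br (f e) ih false) l

theorem memT_spec {y : ℕ} {t : Tr} (h : memT y t = true) : ∃ e, t.Mem e ∧ cdE e = y := by
  induction t with
  | e => exact absurd h (by simp [memT])
  | n l x r ihl ihr =>
    have h1 : br (Nat.beq y (cdE x)) true (br (Nat.ble y (cdE x)) (memT y l) (memT y r)) = true := h
    rcases br_or h1 with h2 | h2
    · exact ⟨x, Or.inr (Or.inl rfl), (Nat.eq_of_beq_eq_true h2).symm⟩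
    · cases hb : Nat.ble y (cdE x) with
      | true =>
        rw [hb, br_true] at h2
        obtain ⟨e, h3, h4⟩ := ihl h2
        exact ⟨e, Or.inl h3, h4⟩
      | false =>
        rw [hb, br_false] at h2
        obtain ⟨e, h3, h4⟩ := ihr h2
        exact ⟨e, Or.inr (Or.inr h3), h4⟩

theorem allT_spec {f : ℕ → Bool} {t : Tr} (h : allT f t = true) {e : ℕ} (he : t.Mem e) : f e = true := by
  induction t with
  | e => exact absurd he (by simp [Tr.Mem])
  | n l x r ihl ihr =>
    have h1 : br (f x) (br (allT f l) (allT f r) false) false = true := h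
    obtain ⟨h2, h3⟩ := br_and h1
    obtain ⟨h4, h5⟩ := br_and h3
    rcases he with he | he | he
    · exact ihl h4 he
    · rw [he]; exact h2
    · exact ihr h5 he

theorem allL_spec {f : ℕ → Bool} {l : List ℕ} (h : allL f l = true) {e : ℕ} (he : e ∈ l) :
    f e = true := by
  induction l with
  | nil => exact absurd he (by simp)
  | cons x l ih =>
    have h1 : br (f x) (allL f l) false = true := h
    obtain ⟨h2, h3⟩ := br_and h1
    rcases List.mem_cons.1 he with he | he
    · rw [he]; exact h2
    · exact ih h3 he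

/-- bits of the left ends -/
def MP : ℕ := 319449169859388577962943297351680

section
variable (rep : ℕ → ℕ) (suc : ℕ → List ℕ)

/-- a correct entry -/
def okE (e : ℕ) : Bool :=
  br (okp (pE e)) (br (Nat.ble 6 (jE e)) false
    (Nat.beq (cdE e) (permc (pE e) (rotc (jE e) (rep (mE e)))))) false

/-- a correct entry in a list of after-states -/
def okS (e : ℕ) : Bool := br (Nat.beq (mE e) 255) (br (stat (cdE e)) false true) (okE rep e)

/-- one event -/
noncomputable def edge (n : ℕ) (ef : Bool) (PA P1 : ℕ) (t : Tr) (x p j : ℕ) (s : ℕ) : Bool :=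
  br (Nat.ble (Nat.succ (mE s)) n) true (br (Nat.beq (mE s) 255) true
    (br (br (Nat.beq (Nat.land (Nat.land (permc p (rotc j (cdE s))) MP) PA)
        (Nat.land (permc p (rotc j (cdE s))) MP))
      (Nat.beq (Nat.land (Nat.land x P1) (permc p (rotc j (cdE s)))) (Nat.land x P1)) false)
      (br (br ef (Nat.beq (Nat.land (Nat.land x (permc p (rotc j (cdE s)))) MI) 0) false) true
        (memT (permc p (rotc j (cdE s))) t)) true))

/-- one state -/
noncomputable def node (n N : ℕ) (ef : Bool) (PA P1 tg : ℕ) (t : Tr) (e : ℕ) : Bool :=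
  br (Nat.beq (cdE e) tg) false (br (Nat.ble N (mE e)) false (br (okE rep e)
    (allL (edge n ef PA P1 t (cdE e) (pE e) (jE e)) (suc (mE e))) false))

/-- the class `n` is eliminated -/
noncomputable def chk (n N : ℕ) (ef : Bool) (t : Tr) : Bool :=
  br (memT (rep n) t) (allT (node rep suc n N ef
    (Nat.land (Nat.lor (rep n) (rotc 1 (rep n))) MP) (Nat.land (rotc 1 (rep n)) MP)
    (rotc 1 (rep n)) t) t) false

end

/-- no event changes all six inner letters -/
def NoE (U : Fin 6 → Set ℂ) (T : ℂ → Set (Fin 6)) (z : ℂ) : Prop :=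
  ∀ u, ∃ k : Fin 6, ((ZL U T z u).1 k).1 = ((ZR U T z u).1 k).1

variable {U : Fin 6 → Set ℂ} {T : ℂ → Set (Fin 6)} {z : ℂ}

theorem noE_perm (C : C6 U T z) (h : NoE U T z) (σ : Equiv.Perm (Fin 6)) :
    NoE (fun i => U (σ i)) (fun x => σ ⁻¹' T x) z := by
  intro u
  obtain ⟨k, hk⟩ := h u
  refine ⟨k, ?_⟩
  rw [C.zl_perm σ u, C.zr_perm σ u]
  show σ.symm _ = σ.symm _
  rw [hk]

/-- going back in time -/
theorem zr_back (C : C6 U T z) (j : ℕ) (u : ℝ) : ZR U T z u = shZ^[j] (ZR U T z (u - j)) := by
  induction j with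
  | zero => simp
  | succ j ih =>
    rw [Function.iterate_succ_apply, ih]
    congr 1
    have h1 := C.zr_succ (u - (j + 1 : ℕ))
    have e : u - ((j + 1 : ℕ) : ℝ) + 1 = u - j := by push_cast; ring
    rw [e] at h1
    exact h1

theorem shZ_iter_inj (j : ℕ) : Function.Injective (shZ^[j]) :=
  Function.Injective.iterate (Function.LeftInverse.injective shI_shZ) j

theorem mp_bit : ∀ c < 6, ∀ i < 6, MP.testBit (18 * c + 12 + i) = true := by decide +kernel

theorem mp_bits : ∀ n < 108, MP.testBit n = decide (12 ≤ n % 18) := by decide +kernel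

theorem mp_lt : MP < 2 ^ 108 := by unfold MP; norm_num

theorem cd_pbit {x : ℕ} {s : StZ} (h : Cd x s) (c k : Fin 6) :
    x.testBit (18 * c.val + 12 + k.val) = true ↔ s.2.1 c % 6 = (k.val : ℤ) := (h.2 c k).2.2

theorem land_ext {a b : ℕ} (h : ∀ i < 108, a.testBit i = true → b.testBit i = true) (ha : a < 2 ^ 108) :
    Nat.land a b = a := by
  refine Nat.eq_of_testBit_eq fun i => ?_
  have e : Nat.land a b = a &&& b := rfl
  rw [e, Nat.testBit_and]
  cases hb : a.testBit i with
  | false => rfl
  | true =>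
    have hi : i < 108 := by
      by_contra hcon
      push Not at hcon
      rw [Nat.testBit_lt_two_pow (lt_of_lt_of_le ha (Nat.pow_le_pow_right (by norm_num) hcon))] at hb
      exact absurd hb (by simp)
    rw [h i hi hb]; rfl

/-- **Elimination of a class.** -/
theorem kill {rep : ℕ → ℕ} {suc : ℕ → List ℕ} {n N : ℕ} {ef : Bool} {t : Tr}
    (hchk : chk rep suc n N ef t = true) (hnN : n < N) (hrep : ∀ m < N, rep m < 2 ^ 108)
    (hS : ∀ m < N, ∀ e ∈ suc m, okS rep e = true)
    (hcomp : ∀ m < N, ∀ s t : StZ, EvZ s t → Cd (rep m) s → ∃ e ∈ suc m, Cd (cdE e) t)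
    (C : C6 U T z) (hE : ef = true → NoE U T z)
    (hdead : ∀ m < n, ∀ (σ : Equiv.Perm (Fin 6)) (u : ℝ),
      ¬ InC (rep m) (ZR (fun i => U (σ i)) (fun x => σ ⁻¹' T x) z u)) (u : ℝ) :
    ¬ InC (rep n) (ZR U T z u) := by
  rintro ⟨σ, j, s0, hs0, hu⟩
  -- a relabelled and turned point
  set U' : Fin 6 → Set ℂ := fun i => U (σ i) with hU'
  set T' : ℂ → Set (Fin 6) := fun x => σ ⁻¹' T x with hT'
  have C' : C6 U' T' z := C.perm σ
  have hE' : ef = true → NoE U' T' z := fun h => noE_perm C (hE h) σ
  have h1 : ZR U' T' z u = shZ^[j] s0 := by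
    rw [C.zr_perm σ u, hu]
    show prmZ σ.symm (prmZ σ (shZ^[j] s0)) = _
    have := prm_symm σ.symm (shZ^[j] s0)
    rw [Equiv.symm_symm] at this
    exact this
  have h2 : ZR U' T' z (u - j) = s0 := by
    have := zr_back C' j u
    rw [h1] at this
    exact (shZ_iter_inj j this).symm
  -- a generic time
  obtain ⟨a, ha1, ha2⟩ := (C'.ev_rightZ (u - j)).exists
  rw [h2] at ha1 ha2
  have hdead' : ∀ m < n, ∀ v, ¬ InC (rep m) (ZR U' T' z v) := fun m hm v => hdead m hm σ v
  obtain ⟨c1, c2⟩ := br_and hchk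
  obtain ⟨e0, he0, he0c⟩ := memT_spec c1
  set tg := rotc 1 (rep n) with htg
  set PA := Nat.land (Nat.lor (rep n) tg) MP with hPA
  set P1 := Nat.land tg MP with hP1
  have htgc : Cd tg (shZ s0) := (cd_rot (j := 1) (by norm_num) (hrep n hnN)).2 hs0
  have hS0 : ∀ v, a < v → v < a + 1 → ∀ c, ((ZR U' T' z v).2.1 c = s0.2.1 c ∨
      (ZR U' T' z v).2.1 c = s0.2.1 c - 1) ∧ ((ZL U' T' z v).2.1 c = s0.2.1 c ∨
      (ZL U' T' z v).2.1 c = s0.2.1 c - 1) ∧ (ZR U' T' z v).2.1 c ≤ (ZL U' T' z v).2.1 c := by
    intro v hv1 hv2 c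
    have m1 := (monoZ (U := U') (T := T') (z := z) hv1 c).1
    rw [ha1] at m1
    have m2 := (monoZ (U := U') (T := T') (z := z) hv2 c).1
    rw [C'.zl_succ a, ha2] at m2
    have m3 : (shZ s0).2.1 c = s0.2.1 c - 1 := rfl
    rw [m3] at m2
    have m4 := (stepZ (U := U') (T := T') (z := z) v).1 c
    omega
  have key := C'.loopZ (a := a) (I := fun s => ∃ e, t.Mem e ∧ Cd (cdE e) s) ?_ ?_ ?_
  · obtain ⟨e, he, hec⟩ := key
    rw [ha1] at hec
    have h3 := allT_spec c2 he
    obtain ⟨h4, -⟩ := br_not h3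
    rw [hec.uniq htgc] at h4
    simp at h4
  · rw [ha1]
    exact ⟨e0, he0, by rw [he0c]; exact hs0⟩
  · rw [ha1, ha2]
  · rintro v ⟨hv1, hv2⟩ ⟨e, he, hec⟩
    have h3 := allT_spec c2 he
    obtain ⟨-, h4⟩ := br_not h3
    obtain ⟨h5, h6⟩ := br_not h4
    obtain ⟨h7, h8⟩ := br_and h6
    have hmN : mE e < N := by
      by_contra hcon
      push Not at hcon
      rw [Nat.ble_eq_true_of_le hcon] at h5
      exact absurd h5 (by simp)
    obtain ⟨g1, g2⟩ := br_and h7
    obtain ⟨g3, g4⟩ := br_not g2
    obtain ⟨τ, hτ⟩ := okp_spec g1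
    have hj : jE e < 6 := by
      by_contra hcon
      push Not at hcon
      rw [Nat.ble_eq_true_of_le hcon] at g3
      exact absurd g3 (by simp)
    have hcode : cdE e = permc (pE e) (rotc (jE e) (rep (mE e))) := Nat.eq_of_beq_eq_true g4
    set s' := ZL U' T' z v with hs'
    set t' := ZR U' T' z v with ht'
    have hev : EvZ s' t' := ⟨U', T', z, C', v, rfl, rfl⟩
    have hev2 := evZ_actI hev τ (jE e)
    have hcs : Cd (rep (mE e)) (ActI τ (jE e) s') := by
      rw [← cd_act hτ hj (hrep _ hmN), act_actI, ← hcode]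
      exact hec
    obtain ⟨w, hw, hwc⟩ := hcomp _ hmN _ _ hev2 hcs
    have hyc : Cd (permc (pE e) (rotc (jE e) (cdE w))) t' := by
      have := (cd_act hτ hj (cdE_lt w)).2 hwc
      rwa [act_actI] at this
    have hedge := allL_spec h8 hw
    set y := permc (pE e) (rotc (jE e) (cdE w)) with hy
    have hSw := hS _ hmN w hw
    rcases br_or hedge with k1 | k1
    · -- a dead class
      exfalso
      have k2 : mE w < n := Nat.le_of_ble_eq_true k1
      have hne : Nat.beq (mE w) 255 = false ∨ Nat.beq (mE w) 255 = true := by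
        cases Nat.beq (mE w) 255 <;> simp
      rcases hne with hne | hne
      · unfold okS at hSw
        rw [hne, br_false] at hSw
        obtain ⟨q1, q2⟩ := br_and hSw
        obtain ⟨q3, q4⟩ := br_not q2
        obtain ⟨ρ, hρ⟩ := okp_spec q1
        have hjw : jE w < 6 := by
          by_contra hcon
          push Not at hcon
          rw [Nat.ble_eq_true_of_le hcon] at q3
          exact absurd q3 (by simp)
        have hin : InC (rep (mE w)) (ActI τ (jE e) t') :=
          InC.of_cd hρ hjw (hrep _ (lt_trans k2 hnN)) (Nat.eq_of_beq_eq_true q4) hwc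
        have hin2 := hin.act τ (jE e)
        rw [act_actI] at hin2
        exact hdead' _ k2 v hin2
      · -- not static
        unfold okS at hSw
        rw [hne, br_true] at hSw
        obtain ⟨q1, -⟩ := br_not hSw
        obtain ⟨U2, T2, z2, C2, u2, hz1, hz2⟩ := hev2
        have hst := C2.stat_R u2
        rw [← toSt6_ZR, hz2] at hst
        rw [stat_of hst hwc] at q1
        exact absurd q1 (by simp)
    rcases br_or k1 with k2 | k2
    · -- not static
      exfalso
      unfold okS at hSw
      rw [k2, br_true] at hSw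
      obtain ⟨q1, -⟩ := br_not hSw
      obtain ⟨U2, T2, z2, C2, u2, hz1, hz2⟩ := hev2
      have hst := C2.stat_R u2
      rw [← toSt6_ZR, hz2] at hst
      rw [stat_of hst hwc] at q1
      exact absurd q1 (by simp)
    -- the motion of the left ends
    have hp1 : Nat.beq (Nat.land (Nat.land y MP) PA) (Nat.land y MP) = true := by
      rw [Nat.beq_eq]
      refine land_ext ?_ ?_
      · intro i hi hb
        have e1 : Nat.land y MP = y &&& MP := rfl
        rw [e1, Nat.testBit_and, Bool.and_eq_true, mp_bits i hi, decide_eq_true_eq] at hb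
        obtain ⟨hb1, hb2⟩ := hb
        have hc6 : i / 18 < 6 := by omega
        have hk6 : i % 18 - 12 < 6 := by omega
        have ei : i = 18 * (i / 18) + 12 + (i % 18 - 12) := by omega
        have b1 := cd_pbit hyc ⟨i / 18, hc6⟩ ⟨i % 18 - 12, hk6⟩
        simp only [← ei] at b1
        have b2 := b1.1 hb1
        have b3 := cd_pbit hs0 ⟨i / 18, hc6⟩ ⟨i % 18 - 12, hk6⟩
        have b4 := cd_pbit htgc ⟨i / 18, hc6⟩ ⟨i % 18 - 12, hk6⟩
        simp only [← ei] at b3 b4
        have b5 : (shZ s0).2.1 ⟨i / 18, hc6⟩ = s0.2.1 ⟨i / 18, hc6⟩ - 1 := rfl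
        rw [b5] at b4
        have e2 : PA = ((rep n) ||| tg) &&& MP := rfl
        rw [e2, Nat.testBit_and, Nat.testBit_or, mp_bits i hi]
        have hd : decide (12 ≤ i % 18) = true := by simpa using hb2
        rw [hd, Bool.and_true, Bool.or_eq_true]
        rcases (hS0 v hv1 hv2 ⟨i / 18, hc6⟩).1 with b6 | b6
        · left; rw [b3, ← b6]; exact b2
        · right; rw [b4, ← b6]; exact b2
      · have e1 : Nat.land y MP = y &&& MP := rfl
        rw [e1]
        exact Nat.and_lt_two_pow _ mp_lt
    have hp2 : Nat.beq (Nat.land (Nat.land (cdE e) P1) y) (Nat.land (cdE e) P1) = true := by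
      rw [Nat.beq_eq]
      refine land_ext ?_ ?_
      · intro i hi hb
        have e1 : Nat.land (cdE e) P1 = (cdE e) &&& (tg &&& MP) := rfl
        rw [e1, Nat.testBit_and, Nat.testBit_and, Bool.and_eq_true, Bool.and_eq_true, mp_bits i hi,
          decide_eq_true_eq] at hb
        obtain ⟨hb1, hb3, hb2⟩ := hb
        have hc6 : i / 18 < 6 := by omega
        have hk6 : i % 18 - 12 < 6 := by omega
        have ei : i = 18 * (i / 18) + 12 + (i % 18 - 12) := by omega
        have b1 := cd_pbit hyc ⟨i / 18, hc6⟩ ⟨i % 18 - 12, hk6⟩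
        have b2 := cd_pbit hec ⟨i / 18, hc6⟩ ⟨i % 18 - 12, hk6⟩
        have b4 := cd_pbit htgc ⟨i / 18, hc6⟩ ⟨i % 18 - 12, hk6⟩
        simp only [← ei] at b1 b2 b4
        have b5 : (shZ s0).2.1 ⟨i / 18, hc6⟩ = s0.2.1 ⟨i / 18, hc6⟩ - 1 := rfl
        rw [b5] at b4
        have b6 := b2.1 hb1
        have b7 := b4.1 hb3
        obtain ⟨r1, r2, r3⟩ := hS0 v hv1 hv2 ⟨i / 18, hc6⟩
        rw [← ht'] at r1 r3
        rw [← hs'] at r2 r3
        rw [b1]
        omega
      · have e1 : Nat.land (cdE e) P1 = (cdE e) &&& P1 := rfl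
        rw [e1]
        refine lt_of_le_of_lt Nat.and_le_left (cdE_lt e)
    rw [hp1, br_true, hp2, br_true] at k2
    rcases br_or k2 with k3 | k3
    · -- all six inner letters change
      exfalso
      obtain ⟨k4, k5⟩ := br_and k3
      obtain ⟨k, hk⟩ := hE' k4 v
      have k6 := Nat.eq_of_beq_eq_true k5
      set c := ((ZL U' T' z v).1 k).1 with hc
      have b1 := ((hec.2 c k).1).2 hc.symm
      have b2 := ((hyc.2 c k).1).2 (by rw [← hk])
      have b3 : (Nat.land (Nat.land (cdE e) y) MI).testBit (18 * c.val + k.val) = true := by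
        have e1 : Nat.land (Nat.land (cdE e) y) MI = ((cdE e) &&& y) &&& MI := rfl
        rw [e1, Nat.testBit_and, Nat.testBit_and, b1, b2, mi_bit c.val c.isLt k.val k.isLt]; rfl
      rw [k6] at b3
      simp at b3
    · obtain ⟨f, hf, hfc⟩ := memT_spec k3
      exact ⟨f, hf, by rw [hfc]; exact hyc⟩

end Vale.Agent.P032.H61
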