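import Vale.Agent.P032.H61.Cd

/-!
# P032: turns and relabellings of codes

`rotc j x` : the code of the state turned `j` times; `permc p x` : the code of the relabelled state, the permutation
is given by the octal digits of `p`.
-/

namespace Vale.Agent.P032.H61

open Vale.Agent.P032.H892

/-- ones at the lowest bits of the 18 blocks of 6 bits -/
def RR : ℕ := 5151088153308360742589778104385

/-- turn by `j` steps -/
def rotc (j x : ℕ) : ℕ :=
  Nat.lor (Nat.land (Nat.shiftRight x j) (Nat.mul RR (Nat.sub (Nat.pow 2 (Nat.sub 6 j)) 1)))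
    (Nat.land (Nat.shiftLeft x (Nat.sub 6 j)) (Nat.mul RR (Nat.sub 64 (Nat.pow 2 (Nat.sub 6 j)))))

/-- the part of the colour `c` -/
def part (p x c : ℕ) : ℕ :=
  Nat.shiftLeft (Nat.land (Nat.shiftRight x (Nat.mul 18 c)) 262143)
    (Nat.mul 18 (Nat.land (Nat.shiftRight p (Nat.mul 3 c)) 7))

/-- relabelling -/
def permc (p x : ℕ) : ℕ :=
  Nat.lor (part p x 0) (Nat.lor (part p x 1) (Nat.lor (part p x 2)
    (Nat.lor (part p x 3) (Nat.lor (part p x 4) (part p x 5)))))

theorem mask_lo : ∀ j < 6, ∀ b < 18, ∀ i < 6,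
    (RR * (2 ^ (6 - j) - 1)).testBit (6 * b + i) = decide (i + j < 6) := by decide +kernel

theorem mask_hi : ∀ j < 6, ∀ b < 18, ∀ i < 6,
    (RR * (64 - 2 ^ (6 - j))).testBit (6 * b + i) = decide (6 ≤ i + j) := by decide +kernel

theorem rotc_bit {j x b i : ℕ} (hj : j < 6) (hb : b < 18) (hi : i < 6) :
    (rotc j x).testBit (6 * b + i) = x.testBit (6 * b + (i + j) % 6) := by
  have e : rotc j x = ((x >>> j) &&& (RR * (2 ^ (6 - j) - 1))) |||
      ((x <<< (6 - j)) &&& (RR * (64 - 2 ^ (6 - j)))) := rfl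
  rw [e, Nat.testBit_or, Nat.testBit_and, Nat.testBit_and, mask_lo j hj b hb i hi,
    mask_hi j hj b hb i hi, Nat.testBit_shiftRight, Nat.testBit_shiftLeft]
  by_cases h : i + j < 6
  · have h1 : ¬ 6 ≤ i + j := by omega
    have h2 : j + (6 * b + i) = 6 * b + (i + j) % 6 := by omega
    rw [h2]
    simp [h, h1]
  · have h1 : 6 ≤ i + j := by omega
    have h2 : 6 * b + i - (6 - j) = 6 * b + (i + j) % 6 := by omega
    have h3 : 6 * b + i ≥ 6 - j := by omega
    rw [h2]
    simp [h, h1, h3]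

theorem rotc_lt {j x : ℕ} (hj : j < 6) : rotc j x < 2 ^ 108 := by
  have e : rotc j x = ((x >>> j) &&& (RR * (2 ^ (6 - j) - 1))) |||
      ((x <<< (6 - j)) &&& (RR * (64 - 2 ^ (6 - j)))) := rfl
  have h1 : RR * (2 ^ (6 - j) - 1) < 2 ^ 108 := by
    interval_cases j <;> (unfold RR; norm_num)
  have h2 : RR * (64 - 2 ^ (6 - j)) < 2 ^ 108 := by
    interval_cases j <;> (unfold RR; norm_num)
  rw [e]
  exact Nat.or_lt_two_pow (Nat.and_lt_two_pow _ h1) (Nat.and_lt_two_pow _ h2)

theorem part_bit {p x c n : ℕ} : (part p x c).testBit n =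
    (decide (18 * ((p >>> (3 * c)) &&& 7) ≤ n) &&
      (decide (n - 18 * ((p >>> (3 * c)) &&& 7) < 18) &&
        x.testBit (18 * c + (n - 18 * ((p >>> (3 * c)) &&& 7))))) := by
  have e : part p x c = ((x >>> (18 * c)) &&& (2 ^ 18 - 1)) <<< (18 * ((p >>> (3 * c)) &&& 7)) := rfl
  rw [e, Nat.testBit_shiftLeft, Nat.testBit_and, Nat.testBit_shiftRight, Nat.testBit_two_pow_sub_one,
    Bool.and_comm (x.testBit _)]

theorem permc_bit {p x n : ℕ} :
    (permc p x).testBit n = true ↔ ∃ c < 6, (part p x c).testBit n = true := by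
  have e : permc p x = (part p x 0) ||| ((part p x 1) ||| ((part p x 2) |||
      ((part p x 3) ||| ((part p x 4) ||| (part p x 5))))) := rfl
  rw [e]
  simp only [Nat.testBit_or, Bool.or_eq_true]
  constructor
  · rintro (h | h | h | h | h | h)
    · exact ⟨0, by norm_num, h⟩
    · exact ⟨1, by norm_num, h⟩
    · exact ⟨2, by norm_num, h⟩
    · exact ⟨3, by norm_num, h⟩
    · exact ⟨4, by norm_num, h⟩
    · exact ⟨5, by norm_num, h⟩
  · rintro ⟨c, hc, h⟩
    interval_cases c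
    · exact Or.inl h
    · exact Or.inr (Or.inl h)
    · exact Or.inr (Or.inr (Or.inl h))
    · exact Or.inr (Or.inr (Or.inr (Or.inl h)))
    · exact Or.inr (Or.inr (Or.inr (Or.inr (Or.inl h))))
    · exact Or.inr (Or.inr (Or.inr (Or.inr (Or.inr h))))

/-- the digits of `p` are the values of `σ` -/
def IsP (p : ℕ) (σ : Equiv.Perm (Fin 6)) : Prop := ∀ c : Fin 6, (p >>> (3 * c.val)) &&& 7 = (σ c).val

theorem permc_blk {p x : ℕ} {σ : Equiv.Perm (Fin 6)} (h : IsP p σ) (c : Fin 6) {i : ℕ} (hi : i < 18) :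
    (permc p x).testBit (18 * c.val + i) = x.testBit (18 * (σ.symm c).val + i) := by
  rw [Bool.eq_iff_iff, permc_bit]
  constructor
  · rintro ⟨d, hd, h1⟩
    rw [part_bit] at h1
    have h2 := h ⟨d, hd⟩
    simp only at h2
    rw [h2] at h1
    simp only [Bool.and_eq_true, decide_eq_true_eq] at h1
    obtain ⟨a1, a2, a3⟩ := h1
    have h3 : (σ ⟨d, hd⟩).val = c.val := by omega
    have h4 : σ ⟨d, hd⟩ = c := Fin.ext h3
    have h5 : σ.symm c = ⟨d, hd⟩ := by rw [← h4, Equiv.symm_apply_apply]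
    rw [h5]
    have h6 : 18 * c.val + i - 18 * (σ ⟨d, hd⟩).val = i := by omega
    rw [h6] at a3
    exact a3
  · intro h1
    refine ⟨(σ.symm c).val, (σ.symm c).isLt, ?_⟩
    rw [part_bit]
    have h2 := h (σ.symm c)
    rw [h2, Equiv.apply_symm_apply]
    simp only [Bool.and_eq_true, decide_eq_true_eq]
    refine ⟨by omega, by omega, ?_⟩
    have h6 : 18 * c.val + i - 18 * c.val = i := by omega
    rw [h6]; exact h1

theorem permc_lt {p x : ℕ} {σ : Equiv.Perm (Fin 6)} (h : IsP p σ) : permc p x < 2 ^ 108 := by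
  refine Nat.lt_pow_two_of_testBit _ fun n hn => ?_
  by_contra hcon
  rw [Bool.not_eq_false, permc_bit] at hcon
  obtain ⟨d, hd, h1⟩ := hcon
  rw [part_bit] at h1
  have h2 := h ⟨d, hd⟩
  simp only at h2
  rw [h2] at h1
  simp only [Bool.and_eq_true, decide_eq_true_eq] at h1
  have := (σ ⟨d, hd⟩).isLt
  omega

/-- the digits of `p` are a permutation -/
def okp (p : ℕ) : Bool :=
  Nat.beq (Nat.lor (Nat.pow 2 (Nat.land (Nat.shiftRight p 0) 7))
    (Nat.lor (Nat.pow 2 (Nat.land (Nat.shiftRight p 3) 7))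
    (Nat.lor (Nat.pow 2 (Nat.land (Nat.shiftRight p 6) 7))
    (Nat.lor (Nat.pow 2 (Nat.land (Nat.shiftRight p 9) 7))
    (Nat.lor (Nat.pow 2 (Nat.land (Nat.shiftRight p 12) 7))
      (Nat.pow 2 (Nat.land (Nat.shiftRight p 15) 7))))))) 63

theorem okp_spec {p : ℕ} (h : okp p = true) : ∃ σ, IsP p σ := by
  have h1 : (2 ^ ((p >>> 0) &&& 7) ||| (2 ^ ((p >>> 3) &&& 7) ||| (2 ^ ((p >>> 6) &&& 7) |||
      (2 ^ ((p >>> 9) &&& 7) ||| (2 ^ ((p >>> 12) &&& 7) ||| 2 ^ ((p >>> 15) &&& 7)))))) = 63 :=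
    Nat.eq_of_beq_eq_true h
  have key : ∀ n : ℕ, (∃ c < 6, (p >>> (3 * c)) &&& 7 = n) ↔ (63 : ℕ).testBit n = true := by
    intro n
    rw [← h1]
    simp only [Nat.testBit_or, Nat.testBit_two_pow, Bool.or_eq_true, decide_eq_true_eq]
    constructor
    · rintro ⟨c, hc, h2⟩
      interval_cases c
      · exact Or.inl h2
      · exact Or.inr (Or.inl h2)
      · exact Or.inr (Or.inr (Or.inl h2))
      · exact Or.inr (Or.inr (Or.inr (Or.inl h2)))
      · exact Or.inr (Or.inr (Or.inr (Or.inr (Or.inl h2))))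
      · exact Or.inr (Or.inr (Or.inr (Or.inr (Or.inr h2))))
    · rintro (h2 | h2 | h2 | h2 | h2 | h2)
      · exact ⟨0, by norm_num, h2⟩
      · exact ⟨1, by norm_num, h2⟩
      · exact ⟨2, by norm_num, h2⟩
      · exact ⟨3, by norm_num, h2⟩
      · exact ⟨4, by norm_num, h2⟩
      · exact ⟨5, by norm_num, h2⟩
  have hlt : ∀ c : Fin 6, (p >>> (3 * c.val)) &&& 7 < 6 := by
    intro c
    have h2 := (key ((p >>> (3 * c.val)) &&& 7)).1 ⟨c.val, c.isLt, rfl⟩
    by_contra hcon
    push Not at hcon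
    have h3 : (63 : ℕ).testBit ((p >>> (3 * c.val)) &&& 7) = false :=
      Nat.testBit_lt_two_pow (lt_of_lt_of_le (by norm_num : 63 < 2 ^ 6)
        (Nat.pow_le_pow_right (by norm_num) hcon))
    rw [h3] at h2
    exact absurd h2 (by simp)
  let f : Fin 6 → Fin 6 := fun c => ⟨(p >>> (3 * c.val)) &&& 7, hlt c⟩
  have hsurj : Function.Surjective f := by
    intro n
    have h2 : (63 : ℕ).testBit n.val = true := by
      revert n; decide
    obtain ⟨c, hc, h3⟩ := (key n.val).2 h2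
    exact ⟨⟨c, hc⟩, Fin.ext h3⟩
  have hbij : Function.Bijective f := ⟨Finite.injective_iff_surjective.2 hsurj, hsurj⟩
  exact ⟨Equiv.ofBijective f hbij, fun c => rfl⟩

/-! ### action on states -/

theorem sh_fst (n : ℕ) (s : StZ) (k : Fin 6) :
    (shZ^[n] s).1 k = s.1 ⟨(k.val + n) % 6, Nat.mod_lt _ (by norm_num)⟩ := by
  induction n generalizing k with
  | zero =>
    show s.1 k = _
    refine congrArg s.1 (Fin.ext ?_)
    have := k.isLt
    show k.val = (k.val + 0) % 6
    omega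
  | succ n ih =>
    rw [Function.iterate_succ_apply']
    show (shZ^[n] s).1 (k + 1) = _
    rw [ih]
    refine congrArg s.1 (Fin.ext ?_)
    have h1 : (k + 1).val = (k.val + 1) % 6 := by rw [Fin.val_add]; rfl
    show ((k + 1).val + n) % 6 = (k.val + (n + 1)) % 6
    rw [h1]; omega

theorem sh_snd (n : ℕ) (s : StZ) (c : Fin 6) : (shZ^[n] s).2.1 c = s.2.1 c - n := by
  induction n with
  | zero => simp
  | succ n ih =>
    rw [Function.iterate_succ_apply']
    show (shZ^[n] s).2.1 c - 1 = _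
    rw [ih]; push_cast; ring

theorem cd_rot {j x : ℕ} {s : StZ} (hj : j < 6) (hx : x < 2 ^ 108) :
    Cd (rotc j x) (shZ^[j] s) ↔ Cd x s := by
  have b0 : ∀ c k : Fin 6, (rotc j x).testBit (18 * c.val + k.val) =
      x.testBit (18 * c.val + (k.val + j) % 6) := by
    intro c k
    have h1 := rotc_bit (x := x) (b := 3 * c.val) (i := k.val) hj (by have := c.isLt; omega) k.isLt
    have e1 : 6 * (3 * c.val) = 18 * c.val := by ring
    rw [e1] at h1; exact h1
  have b1 : ∀ c k : Fin 6, (rotc j x).testBit (18 * c.val + 6 + k.val) =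
      x.testBit (18 * c.val + 6 + (k.val + j) % 6) := by
    intro c k
    have h1 := rotc_bit (x := x) (b := 3 * c.val + 1) (i := k.val) hj (by have := c.isLt; omega) k.isLt
    have e1 : 6 * (3 * c.val + 1) = 18 * c.val + 6 := by ring
    rw [e1] at h1; exact h1
  have b2 : ∀ c k : Fin 6, (rotc j x).testBit (18 * c.val + 12 + k.val) =
      x.testBit (18 * c.val + 12 + (k.val + j) % 6) := by
    intro c k
    have h1 := rotc_bit (x := x) (b := 3 * c.val + 2) (i := k.val) hj (by have := c.isLt; omega) k.isLt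
    have e1 : 6 * (3 * c.val + 2) = 18 * c.val + 12 := by ring
    rw [e1] at h1; exact h1
  unfold Cd
  constructor
  · rintro ⟨-, h⟩
    refine ⟨hx, fun c k => ?_⟩
    -- the preimage of `k`
    have hk6 : (k.val + (6 - j)) % 6 < 6 := Nat.mod_lt _ (by norm_num)
    obtain ⟨h1, h2, h3⟩ := h c ⟨(k.val + (6 - j)) % 6, hk6⟩
    rw [b0, sh_fst] at h1
    rw [b1, sh_fst] at h2
    rw [b2, sh_snd] at h3
    have hk := k.isLt
    have e0 : ((k.val + (6 - j)) % 6 + j) % 6 = k.val := by omega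
    simp only [e0] at h1 h2 h3
    refine ⟨h1, h2, h3.trans ?_⟩
    push_cast
    omega
  · rintro ⟨-, h⟩
    refine ⟨rotc_lt hj, fun c k => ?_⟩
    obtain ⟨h1, h2, h3⟩ := h c ⟨(k.val + j) % 6, Nat.mod_lt _ (by norm_num)⟩
    rw [b0, b1, b2, sh_fst, sh_snd]
    refine ⟨h1, h2, h3.trans ?_⟩
    have hk := k.isLt
    simp only
    push_cast
    omega

theorem cd_perm {p x : ℕ} {σ : Equiv.Perm (Fin 6)} (h : IsP p σ) {s : StZ} (hx : x < 2 ^ 108) :
    Cd (permc p x) (prmZ σ s) ↔ Cd x s := by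
  have b0 : ∀ c k : Fin 6, (permc p x).testBit (18 * c.val + k.val) =
      x.testBit (18 * (σ.symm c).val + k.val) := fun c k => permc_blk h c (by have := k.isLt; omega)
  have b1 : ∀ c k : Fin 6, (permc p x).testBit (18 * c.val + 6 + k.val) =
      x.testBit (18 * (σ.symm c).val + 6 + k.val) := fun c k => by
    have := permc_blk (x := x) h c (i := 6 + k.val) (by have := k.isLt; omega)
    rwa [← add_assoc, ← add_assoc] at this
  have b2 : ∀ c k : Fin 6, (permc p x).testBit (18 * c.val + 12 + k.val) =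
      x.testBit (18 * (σ.symm c).val + 12 + k.val) := fun c k => by
    have := permc_blk (x := x) h c (i := 12 + k.val) (by have := k.isLt; omega)
    rwa [← add_assoc, ← add_assoc] at this
  unfold Cd
  constructor
  · rintro ⟨-, h0⟩
    refine ⟨hx, fun c k => ?_⟩
    obtain ⟨h1, h2, h3⟩ := h0 (σ c) k
    rw [b0, Equiv.symm_apply_apply] at h1
    rw [b1, Equiv.symm_apply_apply] at h2
    rw [b2, Equiv.symm_apply_apply] at h3
    refine ⟨h1.trans ?_, h2.trans ?_, ?_⟩
    · exact σ.injective.eq_iff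
    · exact σ.injective.eq_iff
    · have e : (prmZ σ s).2.1 (σ c) = s.2.1 c := by
        show s.2.1 (σ.symm (σ c)) = _
        rw [Equiv.symm_apply_apply]
      rw [e] at h3; exact h3
  · rintro ⟨-, h0⟩
    refine ⟨permc_lt h, fun c k => ?_⟩
    obtain ⟨h1, h2, h3⟩ := h0 (σ.symm c) k
    rw [b0, b1, b2]
    refine ⟨h1.trans ?_, h2.trans ?_, h3⟩
    · exact Equiv.eq_symm_apply σ
    · exact Equiv.eq_symm_apply σ

/-- codes are unique -/
theorem Cd.uniq {x y : ℕ} {s : StZ} (hx : Cd x s) (hy : Cd y s) : x = y := by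
  refine Nat.eq_of_testBit_eq fun i => ?_
  by_cases hi : i < 108
  · have hc : i / 18 < 6 := by omega
    by_cases h1 : i % 18 < 6
    · have e : i = 18 * (i / 18) + i % 18 := by omega
      have a := (hx.2 ⟨i / 18, hc⟩ ⟨i % 18, h1⟩).1
      have b := (hy.2 ⟨i / 18, hc⟩ ⟨i % 18, h1⟩).1
      simp only [← e] at a b
      exact Bool.eq_iff_iff.2 (a.trans b.symm)
    · by_cases h2 : i % 18 < 12
      · have h3 : i % 18 - 6 < 6 := by omega
        have e : i = 18 * (i / 18) + 6 + (i % 18 - 6) := by omega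
        have a := (hx.2 ⟨i / 18, hc⟩ ⟨i % 18 - 6, h3⟩).2.1
        have b := (hy.2 ⟨i / 18, hc⟩ ⟨i % 18 - 6, h3⟩).2.1
        simp only [← e] at a b
        exact Bool.eq_iff_iff.2 (a.trans b.symm)
      · have h3 : i % 18 - 12 < 6 := by omega
        have e : i = 18 * (i / 18) + 12 + (i % 18 - 12) := by omega
        have a := (hx.2 ⟨i / 18, hc⟩ ⟨i % 18 - 12, h3⟩).2.2
        have b := (hy.2 ⟨i / 18, hc⟩ ⟨i % 18 - 12, h3⟩).2.2
        simp only [← e] at a b
        exact Bool.eq_iff_iff.2 (a.trans b.symm)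
  · have h1 : (2 : ℕ) ^ 108 ≤ 2 ^ i := Nat.pow_le_pow_right (by norm_num) (by omega)
    rw [Nat.testBit_lt_two_pow (lt_of_lt_of_le hx.1 h1), Nat.testBit_lt_two_pow (lt_of_lt_of_le hy.1 h1)]

end Vale.Agent.P032.H61
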