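import Vale.Agent.P032.H61.SymA

/-!
# P032: letters on an open arc of directions and the crossing rule

`AL U T z y α β io r` : at some direction `v ∈ (α, β)`, generic for `S(z)` and `S(y)`, the inner (`io = 0`) or outer letter
of `S(y)` is `r`.

* `al_exists` : some colour is allowed,
* `al_solid` : if only `q` is allowed, then the closed arc of `S(y)` is in `{q ∈ T}`,
* `al_cross` : **the crossing rule**: if one end of the arc is near `w` and the other one is far from `w`, then for every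
  `q ∈ T w` some other colour is allowed; `al_cross_run` : the same for several consecutive arcs,
* `al_z` : the colours of the exact letter of `S(z)` are not allowed at a point `y` with `|y - z| = 1`,
* `al_in`, `al_out` : an allowed inner (outer) colour has no direction at `y` in the half plane `(v, v + 3)` (`(v - 3, v)`),
  for all `v` in the arc.
-/

open Set Filter Topology Metric

noncomputable section

namespace Vale.Agent.P032.H61

open Vale.Agent.P032.Six Vale.Agent.P032.Words Vale.Agent.P032.S5.H767 Vale.Agent.P032.H892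

variable {U : Fin 6 → Set ℂ} {T : ℂ → Set (Fin 6)} {z y w : ℂ} {α β : ℝ} {io : ℕ} {r q : Fin 6}

/-- **a solid arc does not cross the circle about a point of its colour** -/
theorem solid_cross (h : Irr U T) (hw : q ∈ T w) (hs : ∀ v ∈ Icc α β, q ∈ T (pt y v)) (hαβ : α ≤ β)
    (hc : (dist (pt y α) w < 1 ∧ 1 < dist (pt y β) w) ∨ (1 < dist (pt y α) w ∧ dist (pt y β) w < 1)) : False := by
  have hQ : IsPreconnected (pt y '' Icc α β) := isPreconnected_Icc.image _ (continuous_pt y).continuousOn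
  have hQF : pt y '' Icc α β ⊆ closure (U q) := by
    rintro _ ⟨v, hv, rfl⟩
    exact h.sub _ (hs v hv)
  have ha : pt y α ∈ pt y '' Icc α β := ⟨α, ⟨le_refl _, hαβ⟩, rfl⟩
  have hb : pt y β ∈ pt y '' Icc α β := ⟨β, ⟨hαβ, le_refl _⟩, rfl⟩
  rcases hc with ⟨h1, h2⟩ | ⟨h1, h2⟩
  · exact h.mx.wlemma hQ hQF ha hb h1 h2 (h.sub _ hw)
  · exact h.mx.wlemma hQ hQF hb ha h2 h1 (h.sub _ hw)

/-- **common generic directions** -/
theorem exists_common (h : Irr U T) (hl3 : LF3 U T) {J : Type*} [Finite J] (X : J → ℂ) {O : Set ℝ} (hO : IsOpen O)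
    (hne : O.Nonempty) : ∃ v ∈ O, ∃ p q : J → Fin 6, ∀ j, Ino U T (X j) v (p j) (q j) := by
  obtain ⟨v0, hv0⟩ := hne
  obtain ⟨p, q, F⟩ := exists_Fam h hl3 X (fun _ => v0) (l := 𝓝[>] 0) (Or.inl rfl)
  have h1 : ∀ᶠ τ : ℝ in 𝓝[>] 0, v0 + τ ∈ O := by
    have h2 : Continuous fun τ : ℝ => v0 + τ := by fun_prop
    have h3 := h2.tendsto 0
    rw [add_zero] at h3
    exact (h3.eventually (hO.mem_nhds hv0)).filter_mono nhdsWithin_le_nhds
  obtain ⟨τ, h2, h3⟩ := Fam.exists_at F h1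
  exact ⟨v0 + τ, h2, p, q, h3⟩

/-- a letter `r` (inner, `io = 0`, or outer) of `S(y)` on the arc `(α, β)` -/
def AL (U : Fin 6 → Set ℂ) (T : ℂ → Set (Fin 6)) (z y : ℂ) (α β : ℝ) (io : ℕ) (r : Fin 6) : Prop :=
  ∃ v ∈ Ioo α β, ∃ pz qz py qy, Ino U T z v pz qz ∧ Ino U T y v py qy ∧ (if io = 0 then py else qy) = r

theorem al_ex (h : Irr U T) (hl3 : LF3 U T) (z y : ℂ) {O : Set ℝ} (hO : IsOpen O) (hne : O.Nonempty) (io : ℕ) :
    ∃ v ∈ O, ∃ pz qz py qy, Ino U T z v pz qz ∧ Ino U T y v py qy ∧ (if io = 0 then py else qy) ∈ T (pt y v) := by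
  obtain ⟨v, hv, p, q, hI⟩ := exists_common h hl3 (fun b : Bool => bif b then y else z) hO hne
  refine ⟨v, hv, p false, q false, p true, q true, hI false, hI true, ?_⟩
  split_ifs
  · exact (hI true).p_mem h
  · exact (hI true).q_mem h

theorem al_exists (h : Irr U T) (hl3 : LF3 U T) (hαβ : α < β) : ∃ r, AL U T z y α β io r := by
  obtain ⟨v, hv, pz, qz, py, qy, h1, h2, -⟩ := al_ex h hl3 z y isOpen_Ioo (nonempty_Ioo.2 hαβ) io
  exact ⟨_, v, hv, pz, qz, py, qy, h1, h2, rfl⟩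

/-- **if only `q` is allowed, then the arc is solid** -/
theorem al_solid (h : Irr U T) (hl3 : LF3 U T) (hαβ : α < β) (hq : ∀ r, AL U T z y α β io r → r = q) :
    ∀ v ∈ Icc α β, q ∈ T (pt y v) := by
  intro v hv
  have h1 : v ∈ closure (Ioo α β) := by rw [closure_Ioo hαβ.ne]; exact hv
  have h2 : v ∈ closure {v | q ∈ T (pt y v)} := by
    rw [_root_.mem_closure_iff] at h1 ⊢
    intro O hO hvO
    obtain ⟨v', h3, h4⟩ := h1 O hO hvO
    obtain ⟨v'', h5, pz, qz, py, qy, h6, h7, h8⟩ := al_ex h hl3 z y (hO.inter isOpen_Ioo) ⟨v', h3, h4⟩ io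
    refine ⟨v'', h5.1, ?_⟩
    have h9 := hq _ ⟨v'', h5.2, pz, qz, py, qy, h6, h7, rfl⟩
    rw [h9] at h8
    exact h8
  have h3 : IsClosed {v | q ∈ T (pt y v)} := (h.closed q).preimage (continuous_pt y)
  rw [h3.closure_eq] at h2
  exact h2

/-- **The crossing rule.** -/
theorem al_cross (h : Irr U T) (hl3 : LF3 U T) (hαβ : α < β) (hw : q ∈ T w)
    (hc : (dist (pt y α) w < 1 ∧ 1 < dist (pt y β) w) ∨ (1 < dist (pt y α) w ∧ dist (pt y β) w < 1)) :
    ∃ r, r ≠ q ∧ AL U T z y α β io r := by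
  by_contra hcon
  push Not at hcon
  exact solid_cross h hw (al_solid h hl3 hαβ fun r hr => by by_contra h1; exact hcon r h1 hr) hαβ.le hc

/-- **The crossing rule for several consecutive arcs** `(a k, a (k + 1))`, `s ≤ k < s'`. -/
theorem al_cross_run (h : Irr U T) (hl3 : LF3 U T) {a : ℕ → ℝ} {s s' : ℕ} (hs : s < s')
    (ha : ∀ k, s ≤ k → k < s' → a k < a (k + 1)) (hw : q ∈ T w)
    (hc : (dist (pt y (a s)) w < 1 ∧ 1 < dist (pt y (a s')) w) ∨
      (1 < dist (pt y (a s)) w ∧ dist (pt y (a s')) w < 1)) :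
    ∃ k, s ≤ k ∧ k < s' ∧ ∃ r, r ≠ q ∧ AL U T z y (a k) (a (k + 1)) io r := by
  by_contra hcon
  push Not at hcon
  have h1 : ∀ k, s ≤ k → k < s' → ∀ v ∈ Icc (a k) (a (k + 1)), q ∈ T (pt y v) := fun k hk hk' =>
    al_solid h hl3 (ha k hk hk') fun r hr => by by_contra h2; exact hcon k hk hk' r h2 hr
  have h2 : ∀ n, s + n ≤ s' → a s ≤ a (s + n) ∧ ∀ v ∈ Icc (a s) (a (s + n)), q ∈ T (pt y v) := by
    intro n
    induction n with
    | zero =>
      intro _
      refine ⟨le_refl _, fun v hv => ?_⟩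
      have e : v = a s := le_antisymm hv.2 hv.1
      rw [e]
      exact h1 s (le_refl _) hs _ ⟨le_refl _, (ha s (le_refl _) hs).le⟩
    | succ n ih =>
      intro hn
      obtain ⟨h3, h4⟩ := ih (by omega)
      have h5 := ha (s + n) (by omega) (by omega)
      refine ⟨h3.trans h5.le, fun v hv => ?_⟩
      rcases le_or_gt v (a (s + n)) with h6 | h6
      · exact h4 v ⟨hv.1, h6⟩
      · exact h1 (s + n) (by omega) (by omega) v ⟨h6.le, hv.2⟩
  obtain ⟨h3, h4⟩ := h2 (s' - s) (by omega)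
  rw [show s + (s' - s) = s' by omega] at h3 h4
  exact solid_cross h hw h4 h3 hc

/-- a colour of `T` at a generic point of `S(z)` is absent at the parallel point of `S(y)`, `|y - z| = 1` -/
theorem ino_par (h : Irr U T) {v : ℝ} {p p' : Fin 6} (I : Ino U T z v p p') (hzy : dist z y = 1) (h1 : pt z v ≠ y)
    (h2 : pt y v ≠ z) {c : Fin 6} (hc : c ∈ T (pt z v)) : c ∉ Pal U (pt y v) := by
  have e0 : pt y v = pt z v + (y - z) := by unfold pt; ring
  have hd : dist (pt z v) (pt y v) = 1 := by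
    rw [e0, dist_eq_norm]
    have : pt z v - (pt z v + (y - z)) = z - y := by ring
    rw [this, ← dist_eq_norm, hzy]
  refine I.off_line h hc hd h2 ?_
  intro e
  apply h1
  rw [e0] at e
  linear_combination -e

/-- **the colours of the exact letter of `S(z)` are not allowed** -/
theorem al_z (h : Irr U T) (hzy : dist z y = 1) (h1 : ∀ v ∈ Ioo α β, pt z v ≠ y ∧ pt y v ≠ z) {l : L6}
    (hl : Ioo α β ⊆ OC U T z l) (hr : AL U T z y α β io r) : r ≠ l.1 ∧ r ≠ l.2 := by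
  obtain ⟨v, hv, pz, qz, py, qy, hz, hy, e⟩ := hr
  obtain ⟨-, -, h3⟩ := hl hv
  have hT : T (pt z v) = {l.1, l.2} := h3.1
  have hy' : r ∈ T (pt y v) := by
    rw [← e]
    split_ifs
    · exact hy.p_mem h
    · exact hy.q_mem h
  have key : ∀ c ∈ T (pt z v), r ≠ c := fun c hc e =>
    ino_par h hz hzy (h1 v hv).1 (h1 v hv).2 hc (h.sub _ (e ▸ hy'))
  exact ⟨key _ (by rw [hT]; simp), key _ (by rw [hT]; simp)⟩

/-- the inner colour has no direction away from `pt y v` -/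
theorem al_far (h : Irr U T) (hct : ∀ x, Ctn U T x) (hr : AL U T z y α β 0 r) :
    ∃ v ∈ Ioo α β, ∀ θ, ((0 : ℝ), θ) ∈ closure (PS {x | r ∈ T x} y) → ¬ Real.cos ((θ - v) * (Real.pi / 3)) < 0 := by
  obtain ⟨v, hv, pz, qz, py, qy, hz, hy, e⟩ := hr
  rw [if_pos rfl] at e
  refine ⟨v, hv, fun θ hθ hc => ?_⟩
  obtain ⟨x, h3, h4⟩ := ((far_dir hθ hc).and_eventually (hy.far h (hct _))).exists
  exact h4 h3.2 (h.sub _ (by rw [e]; exact h3.1))

/-- the outer colour has no direction towards `pt y v` -/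
theorem al_near (h : Irr U T) (hct : ∀ x, Ctn U T x) (hio : io ≠ 0) (hr : AL U T z y α β io r) :
    ∃ v ∈ Ioo α β, ∀ θ, ((0 : ℝ), θ) ∈ closure (PS {x | r ∈ T x} y) → ¬ 0 < Real.cos ((θ - v) * (Real.pi / 3)) := by
  obtain ⟨v, hv, pz, qz, py, qy, hz, hy, e⟩ := hr
  rw [if_neg hio] at e
  refine ⟨v, hv, fun θ hθ hc => ?_⟩
  obtain ⟨x, h3, h4⟩ := ((near_dir hθ hc).and_eventually (hy.near h (hct _))).exists
  exact h4 h3.2 (h.sub _ (by rw [e]; exact h3.1))

theorem cos_neg' {x : ℝ} (h1 : 3 / 2 < x) (h2 : x < 9 / 2) : Real.cos (x * (Real.pi / 3)) < 0 := by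
  have hp := Real.pi_pos
  exact Real.cos_neg_of_pi_div_two_lt_of_lt (by nlinarith) (by nlinarith)

theorem cos_pos' {x : ℝ} (h1 : -(3 / 2) < x) (h2 : x < 3 / 2) : 0 < Real.cos (x * (Real.pi / 3)) := by
  have hp := Real.pi_pos
  exact Real.cos_pos_of_mem_Ioo ⟨by nlinarith, by nlinarith⟩

/-- **an allowed inner colour has no direction in the half plane** -/
theorem al_in (h : Irr U T) (hct : ∀ x, Ctn U T x) (hr : AL U T z y α β 0 r) {φ : ℝ} (h1 : β ≤ φ) (h2 : φ ≤ α + 3) :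
    φ ∉ Sh T y r := by
  obtain ⟨v, hv, hv2⟩ := al_far h hct hr
  intro hφ
  have h3 : ((0 : ℝ), φ + 3 / 2) ∈ closure (PS {x | r ∈ T x} y) := hφ
  exact hv2 _ h3 (cos_neg' (by linarith [hv.2]) (by linarith [hv.1]))

/-- **an allowed outer colour has no direction in the other half plane** -/
theorem al_out (h : Irr U T) (hct : ∀ x, Ctn U T x) (hio : io ≠ 0) (hr : AL U T z y α β io r) {φ : ℝ}
    (h1 : β - 3 ≤ φ) (h2 : φ ≤ α) : φ ∉ Sh T y r := by
  obtain ⟨v, hv, hv2⟩ := al_near h hct hio hr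
  intro hφ
  have h3 : ((0 : ℝ), φ + 3 / 2) ∈ closure (PS {x | r ∈ T x} y) := hφ
  exact hv2 _ h3 (cos_pos' (by linarith [hv.2]) (by linarith [hv.1]))

end Vale.Agent.P032.H61
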