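import Vale.Agent.P032.H61.Rot6
import Vale.Agent.P032.H913.No16

/-!
# P032: no six-coloured point
-/

open Set Filter Topology Metric

namespace Vale.Agent.P032.H61

open Vale.Agent.P032.Six Vale.Agent.P032.H892

variable {U : Fin 6 → Set ℂ} {T : ℂ → Set (Fin 6)} {z : ℂ}

/-- **There is no six-coloured point** (connected colours, locally finite exceptional points). -/
theorem no6 (C : C6 U T z) (hct : Ctn U T z) : False := H913.no6_of_rot6 rot6 C hct

end Vale.Agent.P032.H61
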