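import Vale.Agent.P032.H61.Kl0
import Vale.Agent.P032.H61.Kl1
import Vale.Agent.P032.H61.Kl2
import Vale.Agent.P032.H61.Kl3
import Vale.Agent.P032.H61.Kl4
import Vale.Agent.P032.H61.Kl5
import Vale.Agent.P032.H61.Kl6
import Vale.Agent.P032.H61.Kl7
import Vale.Agent.P032.H61.Kl8
import Vale.Agent.P032.H61.Kl9
import Vale.Agent.P032.H61.Sta2
import Vale.Agent.P032.H61.Link
import Vale.Agent.P032.H61.SixC

/-!
# P032: at every six-coloured point one of 16 six-fold events occurs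

`dead1` : the classes `0, .., 172` do not occur; `dead2` : if no event changes all six inner letters, no class occurs;
`rot6` : the theorem `Rot6`.
-/

open Set Filter Topology Metric

namespace Vale.Agent.P032.H61

open Vale.Agent.P032.H892

variable {U : Fin 6 → Set ℂ} {T : ℂ → Set (Fin 6)} {z : ℂ}

theorem all_k1 : ∀ n < 173, ∃ t, chk rep suc n 230 false t = true := by
  intro n hn
  interval_cases n
  exacts [⟨_, k0⟩, ⟨_, k1⟩, ⟨_, k2⟩, ⟨_, k3⟩, ⟨_, k4⟩, ⟨_, k5⟩, ⟨_, k6⟩, ⟨_, k7⟩, ⟨_, k8⟩, ⟨_, k9⟩, ⟨_, k10⟩, ⟨_, k11⟩, ⟨_, k12⟩, ⟨_, k13⟩, ⟨_, k14⟩, ⟨_, k15⟩, ⟨_, k16⟩, ⟨_, k17⟩, ⟨_, k18⟩, ⟨_, k19⟩, ⟨_, k20⟩, ⟨_, k21⟩, ⟨_, k22⟩, ⟨_, k23⟩, ⟨_, k24⟩, ⟨_, k25⟩, ⟨_, k26⟩, ⟨_, k27⟩, ⟨_, k28⟩, ⟨_, k29⟩, ⟨_, k30⟩, ⟨_, k31⟩, ⟨_, k32⟩, ⟨_, k33⟩, ⟨_, k34⟩, ⟨_, k35⟩, ⟨_, k36⟩, ⟨_, k37⟩, ⟨_, k38⟩, ⟨_, k39⟩, ⟨_, k40⟩, ⟨_, k41⟩, ⟨_, k42⟩,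 ⟨_, k43⟩, ⟨_, k44⟩, ⟨_, k45⟩, ⟨_, k46⟩, ⟨_, k47⟩, ⟨_, k48⟩, ⟨_, k49⟩, ⟨_, k50⟩, ⟨_, k51⟩, ⟨_, k52⟩, ⟨_, k53⟩, ⟨_, k54⟩, ⟨_, k55⟩, ⟨_, k56⟩, ⟨_, k57⟩, ⟨_, k58⟩, ⟨_, k59⟩, ⟨_, k60⟩, ⟨_, k61⟩, ⟨_, k62⟩, ⟨_, k63⟩, ⟨_, k64⟩, ⟨_, k65⟩, ⟨_, k66⟩, ⟨_, k67⟩, ⟨_, k68⟩, ⟨_, k69⟩, ⟨_, k70⟩, ⟨_, k71⟩, ⟨_, k72⟩, ⟨_, k73⟩, ⟨_, k74⟩, ⟨_, k75⟩, ⟨_, k76⟩, ⟨_, k77⟩, ⟨_, k78⟩, ⟨_, k79⟩, ⟨_, k80⟩, ⟨_, k81⟩, ⟨_, k82⟩, ⟨_, k83⟩, ⟨_, k84⟩, ⟨_, k85⟩, ⟨_, k86⟩, ⟨_, k87⟩, ⟨_, k88⟩, ⟨_, k89⟩, ⟨_, k90⟩, ⟨_, k91⟩, ⟨_, k92⟩, ⟨_, k93⟩, ⟨_, k94⟩, ⟨_, k95⟩, ⟨_, k96⟩, ⟨_, k97⟩, ⟨_, k98⟩, ⟨_, k99⟩, ⟨_, k100⟩, ⟨_, k101⟩, ⟨_, k102⟩, ⟨_, k103⟩, ⟨_, k104⟩, ⟨_, k105⟩, ⟨_, k106⟩, ⟨_, k107⟩, ⟨_, k108⟩, ⟨_, k109⟩, ⟨_, k110⟩, ⟨_, k111⟩, ⟨_, k112⟩, ⟨_, k113⟩, ⟨_, k114⟩, ⟨_, k115⟩, ⟨_, k116⟩, ⟨_, k117⟩, ⟨_, k118⟩, ⟨_, k119⟩, ⟨_, k120⟩, ⟨_, k121⟩, ⟨_, k122⟩, ⟨_, k123⟩, ⟨_,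 k124⟩, ⟨_, k125⟩, ⟨_, k126⟩, ⟨_, k127⟩, ⟨_, k128⟩, ⟨_, k129⟩, ⟨_, k130⟩, ⟨_, k131⟩, ⟨_, k132⟩, ⟨_, k133⟩, ⟨_, k134⟩, ⟨_, k135⟩, ⟨_, k136⟩, ⟨_, k137⟩, ⟨_, k138⟩, ⟨_, k139⟩, ⟨_, k140⟩, ⟨_, k141⟩, ⟨_, k142⟩, ⟨_, k143⟩, ⟨_, k144⟩, ⟨_, k145⟩, ⟨_, k146⟩, ⟨_, k147⟩, ⟨_, k148⟩, ⟨_, k149⟩, ⟨_, k150⟩, ⟨_, k151⟩, ⟨_, k152⟩, ⟨_, k153⟩, ⟨_, k154⟩, ⟨_, k155⟩, ⟨_, k156⟩, ⟨_, k157⟩, ⟨_, k158⟩, ⟨_, k159⟩, ⟨_, k160⟩, ⟨_, k161⟩, ⟨_, k162⟩, ⟨_, k163⟩, ⟨_, k164⟩, ⟨_, k165⟩, ⟨_, k166⟩, ⟨_, k167⟩, ⟨_, k168⟩, ⟨_, k169⟩, ⟨_, k170⟩, ⟨_, k171⟩, ⟨_, k172⟩]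

theorem all_k2 : ∀ n, 173 ≤ n → n < 230 → ∃ t, chk rep suc n 230 true t = true := by
  intro n hn hn'
  interval_cases n
  exacts [⟨_, k173⟩, ⟨_, k174⟩, ⟨_, k175⟩, ⟨_, k176⟩, ⟨_, k177⟩, ⟨_, k178⟩, ⟨_, k179⟩, ⟨_, k180⟩, ⟨_, k181⟩, ⟨_, k182⟩, ⟨_, k183⟩, ⟨_, k184⟩, ⟨_, k185⟩, ⟨_, k186⟩, ⟨_, k187⟩, ⟨_, k188⟩, ⟨_, k189⟩, ⟨_, k190⟩, ⟨_, k191⟩, ⟨_, k192⟩, ⟨_, k193⟩, ⟨_, k194⟩, ⟨_, k195⟩, ⟨_, k196⟩, ⟨_, k197⟩, ⟨_, k198⟩, ⟨_, k199⟩, ⟨_, k200⟩, ⟨_, k201⟩, ⟨_, k202⟩, ⟨_, k203⟩, ⟨_, k204⟩, ⟨_, k205⟩, ⟨_, k206⟩, ⟨_, k207⟩, ⟨_, k208⟩, ⟨_, k209⟩, ⟨_, k210⟩, ⟨_, k211⟩, ⟨_, k212⟩, ⟨_, k213⟩, ⟨_, k214⟩, ⟨_, k215⟩, ⟨_, k216⟩, ⟨_, k217⟩, ⟨_, k218⟩, ⟨_, k219⟩, ⟨_, k220⟩, ⟨_, k221⟩, ⟨_, k222⟩, ⟨_, k223⟩, ⟨_, k224⟩, ⟨_, k225⟩, ⟨_, k226⟩, ⟨_, k227⟩, ⟨_, k228⟩, ⟨_, k229⟩]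

theorem rep_lt : ∀ m < 230, rep m < 2 ^ 108 := fun m hm => (tabOk_spec tabOk_all m hm).2

theorem suc_ok : ∀ m < 230, ∀ e ∈ suc m, okS rep e = true :=
  fun m hm _ he => allL_spec (tabOk_spec tabOk_all m hm).1 he

/-- the classes `0, .., 172` do not occur -/
theorem dead1 : ∀ n < 173, ∀ (U : Fin 6 → Set ℂ) (T : ℂ → Set (Fin 6)) (z : ℂ), C6 U T z →
    ∀ u, ¬ InC (rep n) (ZR U T z u) := by
  intro n
  induction n using Nat.strong_induction_on with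
  | _ n ih =>
    intro hn U T z C u
    obtain ⟨t, ht⟩ := all_k1 n hn
    exact kill ht (by omega) rep_lt suc_ok comp C (by simp)
      (fun m hm σ v => ih m hm (by omega) _ _ _ (C.perm σ) v) u

/-- if no event changes all six inner letters, no class occurs -/
theorem dead2 : ∀ n < 230, ∀ (U : Fin 6 → Set ℂ) (T : ℂ → Set (Fin 6)) (z : ℂ), C6 U T z → NoE U T z →
    ∀ u, ¬ InC (rep n) (ZR U T z u) := by
  intro n
  induction n using Nat.strong_induction_on with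
  | _ n ih =>
    intro hn U T z C hE u
    by_cases h : n < 173
    · exact dead1 n h U T z C u
    · obtain ⟨t, ht⟩ := all_k2 n (by omega) hn
      exact kill ht hn rep_lt suc_ok comp C (fun _ => hE)
        (fun m hm σ v => ih m hm (by omega) _ _ _ (C.perm σ) (noE_perm C hE σ) v) u

/-- an event changes all six inner letters -/
theorem sixfold (C : C6 U T z) :
    ∃ u, ∀ k : Fin 6, ((ZL U T z u).1 k).1 ≠ ((ZR U T z u).1 k).1 := by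
  by_contra hcon
  push Not at hcon
  obtain ⟨m, hm, h⟩ := good_of_sta (s := ZR U T z 0) ⟨C.okZ_R 0, by rw [toSt6_ZR]; exact C.stat_R 0⟩
  exact dead2 m hm U T z C hcon 0 h

theorem iter_shI_shZ (j : ℕ) (s : StZ) : shI^[j] (shZ^[j] s) = s :=
  (Function.LeftInverse.iterate (f := shZ) (g := shI) shI_shZ j) s

theorem actI_act (σ : Equiv.Perm (Fin 6)) (j : ℕ) (s : StZ) : ActI σ j (Act σ j s) = s := by
  unfold Act ActI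
  have := prm_symm σ.symm (shZ^[j] s)
  rw [Equiv.symm_symm] at this
  rw [this, iter_shI_shZ]

theorem zl_add (C : C6 U T z) (j : ℕ) (u : ℝ) : ZL U T z (u + j) = shZ^[j] (ZL U T z u) := by
  induction j with
  | zero => simp
  | succ j ih =>
    rw [Function.iterate_succ_apply', ← ih, ← C.zl_succ]
    congr 1; push_cast; ring

theorem zr_add (C : C6 U T z) (j : ℕ) (u : ℝ) : ZR U T z (u + j) = shZ^[j] (ZR U T z u) := by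
  induction j with
  | zero => simp
  | succ j ih =>
    rw [Function.iterate_succ_apply', ← ih, ← C.zr_succ]
    congr 1; push_cast; ring

theorem mi_bits : ∀ n < 108, MI.testBit n = decide (n % 18 < 6) := by decide +kernel

/-- the letters of a code -/
theorem letters_of {p j x l : ℕ} {τ : Equiv.Perm (Fin 6)} (hτ : IsP p τ) (hj : j < 6) (hx : x < 2 ^ 108)
    {f g : Fin 6 → Fin 6} (hf : ∀ c k : Fin 6, l.testBit (18 * c.val + k.val) = decide (f k = c))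
    (hg : ∀ c k : Fin 6, l.testBit (18 * c.val + (6 + k.val)) = decide (g k = c))
    (h : permc p l = Nat.land (rotc j x) ML) {s : StZ} (hs : Cd x s) (k : Fin 6) :
    (shZ^[j] s).1 k = (τ (f k), τ (g k)) := by
  have h1 : Cd (rotc j x) (shZ^[j] s) := (cd_rot hj hx).2 hs
  have h2 : Nat.land (rotc j x) ML = (rotc j x) &&& ML := rfl
  rw [h2] at h
  refine Prod.ext ?_ ?_
  · set c := ((shZ^[j] s).1 k).1 with hc
    have b1 := ((h1.2 c k).1).2 hc.symm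
    have hk := k.isLt
    have b2 : (permc p l).testBit (18 * c.val + k.val) = true := by
      rw [h, Nat.testBit_and, b1, ml_bit c.val c.isLt k.val (by omega)]; rfl
    rw [permc_blk hτ c (by omega), hf, decide_eq_true_eq] at b2
    show c = τ (f k)
    rw [b2, Equiv.apply_symm_apply]
  · set c := ((shZ^[j] s).1 k).2 with hc
    have b1 := ((h1.2 c k).2.1).2 hc.symm
    have hk := k.isLt
    have b2 : (permc p l).testBit (18 * c.val + (6 + k.val)) = true := by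
      rw [h, Nat.testBit_and, ml_bit c.val c.isLt (6 + k.val) (by omega), ← add_assoc, b1]; rfl
    rw [permc_blk hτ c (by omega), hg, decide_eq_true_eq] at b2
    show c = τ (g k)
    rw [b2, Equiv.apply_symm_apply]

theorem okQ_spec {x y q : ℕ} (h : okQ x y q = true) (hx : x < 2 ^ 108) (hy : y < 2 ^ 108) :
    ∃ (τ : Equiv.Perm (Fin 6)) (j : ℕ) (n : Fin 16),
      (∀ s, Cd x s → ∀ k, (shZ^[j] s).1 k = (τ ((tab6 n).1 k), τ ((tab6 n).2.1 k))) ∧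
      (∀ s, Cd y s → ∀ k, (shZ^[j] s).1 k = (τ ((tab6 n).2.2.1 k), τ ((tab6 n).2.2.2 k))) := by
  obtain ⟨h1, h2⟩ := br_and h
  obtain ⟨h3, h4⟩ := br_not h2
  obtain ⟨h5, h6⟩ := br_and h4
  obtain ⟨h7, h8⟩ := br_and h6
  obtain ⟨τ, hτ⟩ := okp_spec h1
  have hj : Nat.land (Nat.shiftRight q 18) 7 < 6 := by
    by_contra hcon
    push Not at hcon
    rw [Nat.ble_eq_true_of_le hcon] at h3
    exact absurd h3 (by simp)
  have hn : Nat.shiftRight q 21 < 16 := Nat.le_of_ble_eq_true h5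
  have hl := lab_spec ⟨Nat.shiftRight q 21, hn⟩
  refine ⟨τ, Nat.land (Nat.shiftRight q 18) 7, ⟨Nat.shiftRight q 21, hn⟩, fun s hs k => ?_, fun s hs k => ?_⟩
  · exact letters_of hτ hj hx (fun c k => (hl c k).1) (fun c k => (hl c k).2.1)
      (Nat.eq_of_beq_eq_true h7) hs k
  · exact letters_of hτ hj hy (fun c k => (hl c k).2.2.1) (fun c k => (hl c k).2.2.2)
      (Nat.eq_of_beq_eq_true h8) hs k

theorem turn_letters (σ : Equiv.Perm (Fin 6)) (i j : ℕ) (s : StZ) (k : Fin 6) :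
    (shZ^[5 * i + j] (Act σ i s)).1 k = (σ ((shZ^[j] s).1 k).1, σ ((shZ^[j] s).1 k).2) := by
  unfold Act
  rw [iter_prm, ← Function.iterate_add_apply]
  show (σ ((shZ^[5 * i + j + i] s).1 k).1, σ ((shZ^[5 * i + j + i] s).1 k).2) = _
  have e : (shZ^[5 * i + j + i] s).1 k = (shZ^[j] s).1 k := by
    rw [sh_fst, sh_fst]
    refine congrArg s.1 (Fin.ext ?_)
    show (k.val + (5 * i + j + i)) % 6 = (k.val + j) % 6
    omega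
  rw [e]

/-- **At every six-coloured point one of 16 six-fold events occurs.** -/
theorem rot6 : Rot6 := by
  intro U T z C
  obtain ⟨u, hu⟩ := sixfold C
  obtain ⟨m, hm, σ, i, s0, hs0, hs⟩ := good_of_sta (s := ZL U T z u)
    ⟨C.okZ_L u, by rw [toSt6_ZL]; exact C.stat_L u⟩
  have hm173 : 173 ≤ m := by
    by_contra hcon
    obtain ⟨v, hv⟩ := (C.ev_leftZ u).exists
    exact dead1 m (by omega) U T z C v (by rw [hv.1]; exact ⟨σ, i, s0, hs0, hs⟩)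
  have hev : EvZ (ActI σ i (ZL U T z u)) (ActI σ i (ZR U T z u)) := evZ_actI ⟨U, T, z, C, u, rfl, rfl⟩ σ i
  have e1 : ActI σ i (ZL U T z u) = s0 := by rw [hs]; exact actI_act σ i s0
  set t0 := ActI σ i (ZR U T z u) with ht0
  have e2 : ZR U T z u = Act σ i t0 := (act_actI σ i _).symm
  rw [e1] at hev
  obtain ⟨w, hw, hwc⟩ := comp m hm s0 t0 hev hs0
  have hSw := suc_ok m hm w hw
  obtain ⟨q, hq⟩ := sixA_spec sixA_all (m - 173) (by omega) w (by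
    rw [Nat.add_sub_cancel' hm173]; exact hw)
  rw [Nat.add_sub_cancel' hm173] at hq
  have h255 : Nat.beq (mE w) 255 = false := by
    by_contra hcon
    rw [Bool.not_eq_false] at hcon
    unfold okS at hSw
    rw [hcon, br_true] at hSw
    obtain ⟨q1, -⟩ := br_not hSw
    obtain ⟨U2, T2, z2, C2, u2, hz1, hz2⟩ := hev
    have hst := C2.stat_R u2
    rw [← toSt6_ZR, hz2] at hst
    rw [stat_of hst hwc] at q1
    exact absurd q1 (by simp)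
  rcases br_or hq with k1 | k1
  · -- a class which does not occur
    exfalso
    have k2 : mE w ≤ 172 := Nat.le_of_ble_eq_true k1
    unfold okS at hSw
    rw [h255, br_false] at hSw
    obtain ⟨q1, q2⟩ := br_and hSw
    obtain ⟨q3, q4⟩ := br_not q2
    obtain ⟨ρ, hρ⟩ := okp_spec q1
    have hjw : jE w < 6 := by
      by_contra hcon
      push Not at hcon
      rw [Nat.ble_eq_true_of_le hcon] at q3
      exact absurd q3 (by simp)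
    have hin : InC (rep (mE w)) t0 :=
      InC.of_cd hρ hjw (rep_lt _ (by omega)) (Nat.eq_of_beq_eq_true q4) hwc
    have hin2 := hin.act σ i
    rw [← e2] at hin2
    exact dead1 _ (by omega) U T z C u hin2
  rcases br_or k1 with k2 | k2
  · rw [h255] at k2; exact absurd k2 (by simp)
  -- all six inner letters change
  have hch : ∀ k : Fin 6, (s0.1 k).1 ≠ (t0.1 k).1 := by
    intro k hk
    have a1 := hu (k - ⟨i % 6, Nat.mod_lt _ (by norm_num)⟩)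
    apply a1
    rw [hs, e2]
    unfold Act
    show σ ((shZ^[i] s0).1 _).1 = σ ((shZ^[i] t0).1 _).1
    rw [sh_fst, sh_fst]
    have e3 : (⟨((k - (⟨i % 6, Nat.mod_lt _ (by norm_num)⟩ : Fin 6)).val + i) % 6,
        Nat.mod_lt _ (by norm_num)⟩ : Fin 6) = k := by
      refine Fin.ext ?_
      show ((k - (⟨i % 6, Nat.mod_lt _ (by norm_num)⟩ : Fin 6)).val + i) % 6 = k.val
      rw [Fin.sub_def]
      have := k.isLt
      show ((6 - i % 6 + k.val) % 6 + i) % 6 = k.val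
      omega
    rw [e3, hk]
  have hzero : Nat.beq (Nat.land (Nat.land (rep m) (cdE w)) MI) 0 = true := by
    rw [Nat.beq_eq]
    refine Nat.eq_of_testBit_eq fun b => ?_
    have e : Nat.land (Nat.land (rep m) (cdE w)) MI = ((rep m) &&& (cdE w)) &&& MI := rfl
    rw [e, Nat.testBit_and, Nat.testBit_and, Nat.zero_testBit]
    by_contra hcon
    rw [Bool.not_eq_false, Bool.and_eq_true, Bool.and_eq_true] at hcon
    obtain ⟨⟨b1, b2⟩, b3⟩ := hcon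
    have hb : b < 108 := by
      by_contra hge
      push Not at hge
      rw [Nat.testBit_lt_two_pow (lt_of_lt_of_le (rep_lt m hm)
        (Nat.pow_le_pow_right (by norm_num) hge))] at b1
      exact absurd b1 (by simp)
    have b4 := mi_bits b hb
    rw [b3] at b4
    have b5 : b % 18 < 6 := by simpa using b4.symm
    have hc6 : b / 18 < 6 := by omega
    have eb : b = 18 * (b / 18) + b % 18 := by omega
    have f1 := (hs0.2 ⟨b / 18, hc6⟩ ⟨b % 18, b5⟩).1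
    have f2 := (hwc.2 ⟨b / 18, hc6⟩ ⟨b % 18, b5⟩).1
    simp only [← eb] at f1 f2
    exact hch ⟨b % 18, b5⟩ ((f1.1 b1).trans (f2.1 b2).symm)
  rw [hzero, br_true] at k2
  obtain ⟨τ, j, n, g1, g2⟩ := okQ_spec k2 (rep_lt m hm) (cdE_lt w)
  refine ⟨u + ((5 * i + j : ℕ) : ℝ), fun c => σ (τ c), n, fun a b hab => ?_, fun k => ?_, fun k => ?_⟩
  · exact τ.injective (σ.injective hab)
  · rw [← toSt6_ZL, zl_add C, hs]
    show (shZ^[5 * i + j] (Act σ i s0)).1 k = _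
    rw [turn_letters, g1 s0 hs0 k]
  · rw [← toSt6_ZR, zr_add C, e2]
    show (shZ^[5 * i + j] (Act σ i t0)).1 k = _
    rw [turn_letters, g2 t0 hwc k]

end Vale.Agent.P032.H61
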