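import Vale.Agent.P032.H820.Dx

/-!
# P032: rule S in the direction form

`Irr.ruleS`: `|p - y| = 1`, the directions `w` at `p` and `w'` at `y` lie on the same side, and in both
only the colours `a`, `b` are present.  Then the ray `w` at `p` is solid: near `p` all its points have the
palette `{a}`, or all have the palette `{b}`.  `Irr.ruleS3`: the same with a list of at most three colours:
no point of the ray has the whole list.  (The proof is `[2]`: `T y` is no subset of `T x` if
`|x - y| = 1` and `x` has at most three colours.)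
-/

open Set Filter Topology Metric

noncomputable section

namespace Vale.Agent.P032.Six

variable {k : ℕ} {U : Fin k → Set ℂ} {T : ℂ → Set (Fin k)}

/-- the unit circle about `y + r w'` meets the ray `w` at `p` near `p` -/
theorem ray_cross61 {p y w w' : ℂ} (hpy : dist p y = 1)
    (hs : 0 < ip w' (p - y) * ip w (p - y)) {ε : ℝ} (hε : 0 < ε) :
    ∀ᶠ r : ℝ in 𝓝[>] 0, ∃ ρ, 0 < ρ ∧ ρ < ε ∧ dist (p + ρ * w) (y + r * w') = 1 := by
  have hA : ip w (p - y) ≠ 0 := fun h0 => by rw [h0, mul_zero] at hs; exact lt_irrefl _ hs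
  have hB : ip w' (p - y) ≠ 0 := fun h0 => by rw [h0, zero_mul] at hs; exact lt_irrefl _ hs
  obtain ⟨ε1, hε1, h1⟩ := ev_gt_iff.1 (line_side (w := w) hpy hA)
  set ρ2 := min ε ε1 / 2 with hρ2
  have hρ0 : 0 < ρ2 := by have := lt_min hε hε1; linarith
  have hρε : ρ2 < ε := by have := min_le_left ε ε1; have := lt_min hε hε1; linarith
  have hρε1 : ρ2 < ε1 := by have := min_le_right ε ε1; have := lt_min hε hε1; linarith
  have h2 := h1 ρ2 hρ0 hρε1
  -- for small `r` the same sign at `y + r w'`
  have hc : Tendsto (fun r : ℝ => (dist (p + ρ2 * w) (y + r * w') - 1) * ip w (p - y)) (𝓝[>] 0)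
      (𝓝 ((dist (p + ρ2 * w) y - 1) * ip w (p - y))) :=
    ((tendsto_const_nhds.dist (tendsto_line y w')).sub_const 1).mul_const _
  have h3 := hc.eventually (Ioi_mem_nhds h2)
  filter_upwards [h3, point_side (w' := w') hpy hB] with r h4 h5
  have h4' : 0 < (dist (p + ρ2 * w) (y + r * w') - 1) * ip w (p - y) := h4
  -- the intermediate value theorem
  have hcont : ContinuousOn (fun ρ : ℝ => dist (p + ρ * w) (y + r * w')) (uIcc 0 ρ2) := by fun_prop
  have hmem : (1 : ℝ) ∈ uIcc (dist (p + ((0 : ℝ) : ℂ) * w) (y + r * w'))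
      (dist (p + ρ2 * w) (y + r * w')) := by
    rw [Complex.ofReal_zero, zero_mul, add_zero]
    rcases lt_or_gt_of_ne hA with ha | ha
    · have hb : ip w' (p - y) < 0 := by
        by_contra hcon
        push Not at hcon
        nlinarith
      have e1 : dist (p + ρ2 * w) (y + r * w') < 1 := by
        by_contra hcon
        push Not at hcon
        nlinarith
      have e2 : 1 < dist p (y + r * w') := by
        by_contra hcon
        push Not at hcon
        nlinarith
      rw [uIcc_of_ge (by linarith)]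
      exact ⟨e1.le, e2.le⟩
    · have hb : 0 < ip w' (p - y) := by
        by_contra hcon
        push Not at hcon
        nlinarith
      have e1 : 1 < dist (p + ρ2 * w) (y + r * w') := by
        by_contra hcon
        push Not at hcon
        nlinarith
      have e2 : dist p (y + r * w') < 1 := by
        by_contra hcon
        push Not at hcon
        nlinarith
      rw [uIcc_of_le (by linarith)]
      exact ⟨e2.le, e1.le⟩
  obtain ⟨ρ, hρ, hρ1⟩ := intermediate_value_uIcc hcont hmem
  rw [uIcc_of_le hρ0.le] at hρ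
  refine ⟨ρ, ?_, lt_of_le_of_lt hρ.2 hρε, hρ1⟩
  rcases hρ.1.lt_or_eq with h6 | h6
  · exact h6
  · exfalso
    rw [← h6] at hρ1
    simp only [Complex.ofReal_zero, zero_mul, add_zero] at hρ1
    rw [hρ1, sub_self, zero_mul] at h5
    exact lt_irrefl _ h5

/-- only the colours of `L` are present in the direction `w` -/
theorem ev_sub_of_dx {p w : ℂ} {L : Set (Fin k)} (hL : ∀ c, Dx T p w c → c ∈ L) :
    ∀ᶠ r : ℝ in 𝓝[>] 0, T (p + r * w) ⊆ L := by
  have h1 : ∀ c, c ∉ L → ∀ᶠ r : ℝ in 𝓝[>] 0, c ∉ T (p + r * w) := fun c hc =>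
    Filter.not_frequently.1 fun hd => hc (hL c hd)
  have h2 : ∀ᶠ r : ℝ in 𝓝[>] 0, ∀ c, c ∉ L → c ∉ T (p + r * w) := by
    rw [Filter.eventually_all]
    intro c
    by_cases hc : c ∉ L
    · exact (h1 c hc).mono fun r hr _ => hr
    · exact Filter.Eventually.of_forall fun r hr => absurd hr hc
  filter_upwards [h2] with r hr c hc
  by_contra hcL
  exact hr c hcL hc

/-- rule S, general form: `p` in the direction `w` and `y` in the direction `w'` have the same list `L` of
at most three colours, and the directions are on the same side: no point of the ray at `p` has all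
colours of `L` -/
theorem Irr.ruleS3 (h : Irr U T) {p y w w' : ℂ} {L : Set (Fin k)} (hpy : dist p y = 1)
    (hs : 0 < ip w' (p - y) * ip w (p - y)) (h3 : L.ncard ≤ 3)
    (h1 : ∀ c, Dx T p w c → c ∈ L) (h2 : ∀ c, Dx T y w' c → c ∈ L) :
    ∀ᶠ r : ℝ in 𝓝[>] 0, T (y + r * w') ⊆ L ∧ T (y + r * w') ≠ L := by
  obtain ⟨ε, hε, hb⟩ := ev_gt_iff.1 (ev_sub_of_dx h1)
  filter_upwards [ev_sub_of_dx h2, ray_cross61 hpy hs hε] with r hr1 hr2
  refine ⟨hr1, fun heq => ?_⟩
  obtain ⟨ρ, hρ0, hρε, hρ1⟩ := hr2
  exact h.not_sub (x := y + r * w') (y := p + ρ * w) hρ1 (by rw [heq]; exact h3)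
    (by rw [heq]; exact hb ρ hρ0 hρε)

/-- **Rule S**: if only `a`, `b` are present at `p` in the direction `w` and at `y` in the direction `w'`,
`|p - y| = 1`, and the directions are on the same side, then the ray `w'` at `y` is solid -/
theorem Irr.ruleS (h : Irr U T) {p y w w' : ℂ} {a b : Fin k} (hpy : dist p y = 1)
    (hs : 0 < ip w' (p - y) * ip w (p - y))
    (h1 : ∀ c, Dx T p w c → c = a ∨ c = b) (h2 : ∀ c, Dx T y w' c → c = a ∨ c = b) :
    (∀ᶠ r : ℝ in 𝓝[>] 0, T (y + r * w') = {a}) ∨ (∀ᶠ r : ℝ in 𝓝[>] 0, T (y + r * w') = {b}) := by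
  have h3 := h.ruleS3 (L := {a, b}) hpy hs (by
    have h4 := Set.ncard_insert_le a {b}
    rw [Set.ncard_singleton] at h4
    exact h4.trans (by norm_num)) h1 h2
  obtain ⟨ε, hε, hb⟩ := ev_gt_iff.1 h3
  -- the two sets of radii are closed in the interval, disjoint and cover it
  have hcont : Continuous fun r : ℝ => y + r * w' := by fun_prop
  have hcl : ∀ c, IsClosed {r : ℝ | c ∈ T (y + r * w')} := fun c =>
    (h.closed c).preimage hcont
  have hone : ∀ r, 0 < r → r < ε → T (y + r * w') = {a} ∨ T (y + r * w') = {b} := by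
    intro r h0 hr
    obtain ⟨h4, h5⟩ := hb r h0 hr
    obtain ⟨c, hc⟩ := h.ne (y + r * w')
    by_cases ha : a ∈ T (y + r * w')
    · by_cases hbm : b ∈ T (y + r * w')
      · exfalso
        refine h5 (Subset.antisymm h4 ?_)
        rintro x (rfl | hx)
        · exact ha
        · rw [mem_singleton_iff] at hx; exact hx ▸ hbm
      · left
        refine Subset.antisymm (fun x hx => ?_) (fun x hx => ?_)
        · rcases h4 hx with rfl | hx'
          · exact mem_singleton _
          · rw [mem_singleton_iff] at hx'; exact absurd (hx' ▸ hx) hbm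
        · rw [mem_singleton_iff] at hx; exact hx ▸ ha
    · right
      have hcb : c = b := by
        rcases h4 hc with rfl | hx'
        · exact absurd hc ha
        · exact hx'
      refine Subset.antisymm (fun x hx => ?_) (fun x hx => ?_)
      · rcases h4 hx with rfl | hx'
        · exact absurd hx ha
        · exact hx'
      · rw [mem_singleton_iff] at hx; rw [hx, ← hcb]; exact hc
  rcases eq_or_ne a b with hab | hab
  · left
    rw [ev_gt_iff]
    refine ⟨ε, hε, fun r h0 hr => ?_⟩
    rcases hone r h0 hr with h6 | h6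
    · exact h6
    · rw [h6, hab]
  by_contra hcon
  push Not at hcon
  obtain ⟨hc1, hc2⟩ := hcon
  rw [freq_gt_iff] at hc1 hc2
  obtain ⟨r1, h10, h11, h12⟩ := hc1 ε hε
  obtain ⟨r2, h20, h21, h22⟩ := hc2 ε hε
  have g1 : T (y + r1 * w') = {b} := (hone r1 h10 h11).resolve_left h12
  have g2 : T (y + r2 * w') = {a} := (hone r2 h20 h21).resolve_right h22
  have hpre : IsPreconnected (Ioo (0 : ℝ) ε) := isPreconnected_Ioo
  have key := isPreconnected_closed_iff.1 hpre _ _ (hcl a) (hcl b) (fun r hr => by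
    rcases hone r hr.1 hr.2 with h6 | h6
    · left; show a ∈ T (y + r * w'); rw [h6]; exact mem_singleton _
    · right; show b ∈ T (y + r * w'); rw [h6]; exact mem_singleton _)
    ⟨r2, ⟨h20, h21⟩, by show a ∈ T (y + r2 * w'); rw [g2]; exact mem_singleton _⟩
    ⟨r1, ⟨h10, h11⟩, by show b ∈ T (y + r1 * w'); rw [g1]; exact mem_singleton _⟩
  obtain ⟨r, ⟨hr0, hr1⟩, hra, hrb⟩ := key
  have hra' : a ∈ T (y + r * w') := hra
  have hrb' : b ∈ T (y + r * w') := hrb
  rcases hone r hr0 hr1 with h6 | h6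
  · rw [h6] at hrb'; exact hab (mem_singleton_iff.1 hrb').symm
  · rw [h6] at hra'; exact hab (mem_singleton_iff.1 hra')

/-- rule S in terms of `Dx` -/
theorem Irr.ruleS_dx (h : Irr U T) {p y w w' : ℂ} {a b : Fin k} (hpy : dist p y = 1)
    (hs : 0 < ip w' (p - y) * ip w (p - y))
    (h1 : ∀ c, Dx T p w c → c = a ∨ c = b) (h2 : ∀ c, Dx T y w' c → c = a ∨ c = b) :
    (∀ c, c ≠ a → ¬ Dx T y w' c) ∨ (∀ c, c ≠ b → ¬ Dx T y w' c) := by
  rcases h.ruleS hpy hs h1 h2 with h3 | h3
  · left
    intro c hc hd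
    obtain ⟨r, h4, h5⟩ := (hd.and_eventually h3).exists
    rw [h5] at h4
    exact hc (mem_singleton_iff.1 h4)
  · right
    intro c hc hd
    obtain ⟨r, h4, h5⟩ := (hd.and_eventually h3).exists
    rw [h5] at h4
    exact hc (mem_singleton_iff.1 h4)

/-- rule S with R1: the two rays carry different single colours -/
theorem Irr.ruleS_alt (h : Irr U T) {p y w w' : ℂ} {a b : Fin k} (hpy : dist p y = 1) (hab : a ≠ b)
    (hs : 0 < ip w' (p - y) * ip w (p - y))
    (h1 : ∀ c, Dx T p w c → c = a ∨ c = b) (h2 : ∀ c, Dx T y w' c → c = a ∨ c = b) :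
    ((∀ c, c ≠ b → ¬ Dx T p w c) ∧ (∀ c, c ≠ a → ¬ Dx T y w' c)) ∨
      ((∀ c, c ≠ a → ¬ Dx T p w c) ∧ (∀ c, c ≠ b → ¬ Dx T y w' c)) := by
  rcases h.ruleS_dx hpy hs h1 h2 with h3 | h3
  · left
    refine ⟨fun c hc hd => ?_, h3⟩
    -- `c = a` is present at `p`, then a colour different from `a` at `y`
    have hca : c = a := (h1 c hd).resolve_right hc
    subst hca
    have hs' : 0 < ip w (y - p) * ip w' (y - p) := by
      have e1 : ip w (y - p) = - ip w (p - y) := by unfold ip; simp; ring
      have e2 : ip w' (y - p) = - ip w' (p - y) := by unfold ip; simp; ring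
      rw [e1, e2]; nlinarith
    obtain ⟨c', hc', hd'⟩ := h.dx_cross (p := y) (y := p) (w := w') (w' := w)
      (by rw [dist_comm]; exact hpy) hs' hd
    exact h3 c' hc' hd'
  · right
    refine ⟨fun c hc hd => ?_, h3⟩
    have hcb : c = b := (h1 c hd).resolve_left hc
    subst hcb
    have hs' : 0 < ip w (y - p) * ip w' (y - p) := by
      have e1 : ip w (y - p) = - ip w (p - y) := by unfold ip; simp; ring
      have e2 : ip w' (y - p) = - ip w' (p - y) := by unfold ip; simp; ring
      rw [e1, e2]; nlinarith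
    obtain ⟨c', hc', hd'⟩ := h.dx_cross (p := y) (y := p) (w := w') (w' := w)
      (by rw [dist_comm]; exact hpy) hs' hd
    exact h3 c' hc' hd'

end Vale.Agent.P032.Six
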