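import Vale.Agent.P032.H61.SymE
import Vale.Agent.P032.H820.K.Chk

/-!
# P032: the master: images of dead patterns in the kernel

* `gchk` : the check of the tables of the images of the points, `tabs_of_gchk`,
* `gB` : the image of an atom (for the kernel), `upk` : patterns packed into numbers (32 bits for a literal),
* `PTr` : trees of packed patterns, `eC` : the clause of a code (base clause or image of a pattern),
* `chkE` : the checker for certificates with clauses from `eC`,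
* `dead_q` : **a certificate with images of dead patterns shows that a pattern is dead.**
-/

open Set Filter Topology Metric

noncomputable section

namespace Vale.Agent.P032.H61

open Vale.Agent.P032.Six Vale.Agent.P032.Words Vale.Agent.P032.S5.H767 Vale.Agent.P032.H892
  Vale.Agent.P032.H913 Vale.Agent.P032.H357
open Vale.Agent.P032.H357.MK (fx0 cf al al_spec Tb nbeq co)
open Vale.Agent.P032.H820.K (a0 a1 a2 a3 a4 En en_eq dec Md av lv Ho ps ng lv_ps lv_ng nbf lb lb_iff trv ho_trv nthC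
  nthC_ho gen gen_ho inC inC_sat mpl mpl_mem dmk unL aL ho_bif)

/-! ### tables -/

/-- the image of the point `x` under the element `g` -/
def ptb (TG g x : ℕ) : ℕ := Nat.land (Nat.shiftRight TG (Nat.mul 12 (Nat.add (Nat.mul 256 g) x))) 4095

/-- the checks at the point `x` -/
def gx (NP NW TC TG x : ℕ) : Bool :=
  Nat.beq (ptb TG 0 x) x && al (fun g => lb (ptb TG g x) NP && fx0 TC (ptb TG g x) &&
    (bif lb x NW then lb (ptb TG g x) NW else true)) 12 &&
  (Nat.beq (Nat.add (cf 2 TC (ptb TG 1 x) 0) (cf 2 TC x 1)) 16 &&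
    Nat.beq (Nat.add (cf 2 TC (ptb TG 1 x) 1) 8) (Nat.add (cf 2 TC x 0) (cf 2 TC x 1))) &&
  (Nat.beq (Nat.add (cf 2 TC (ptb TG 6 x) 0) 8) (Nat.add (cf 2 TC x 0) (cf 2 TC x 1)) &&
    Nat.beq (Nat.add (cf 2 TC (ptb TG 6 x) 1) (cf 2 TC x 1)) 16) &&
  al (fun r => Nat.beq (ptb TG (Nat.succ r) x) (ptb TG 1 (ptb TG r x)) &&
    Nat.beq (ptb TG (Nat.add 6 (Nat.succ r)) x) (ptb TG 1 (ptb TG (Nat.add 6 r) x))) 5

/-- the check of the tables -/
def gchk (NP NW TC TG : ℕ) : Bool := al (fun x => bif fx0 TC x then gx NP NW TC TG x else true) NP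

theorem tabs_of_gchk {NP NW TC TG : ℕ} (hNP : NP ≤ 4096) (hNW : NW ≤ NP) (h : gchk NP NW TC TG = true) :
    Tabs (kap TC) (Gp NP TC) (Ce NW TC) (ptb TG) := by
  have key : ∀ x, Gp NP TC x → gx NP NW TC TG x = true := by
    intro x hx
    have h1 := al_spec h x hx.1
    rw [hx.2, cond_true] at h1
    exact h1
  have k : ∀ x, Gp NP TC x → ptb TG 0 x = x ∧
      (∀ g < 12, (ptb TG g x < NP ∧ fx0 TC (ptb TG g x) = true) ∧ (x < NW → ptb TG g x < NW)) ∧
      (cf 2 TC (ptb TG 1 x) 0 + cf 2 TC x 1 = 16 ∧ cf 2 TC (ptb TG 1 x) 1 + 8 = cf 2 TC x 0 + cf 2 TC x 1) ∧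
      (cf 2 TC (ptb TG 6 x) 0 + 8 = cf 2 TC x 0 + cf 2 TC x 1 ∧ cf 2 TC (ptb TG 6 x) 1 + cf 2 TC x 1 = 16) ∧
      ∀ r < 5, ptb TG (r + 1) x = ptb TG 1 (ptb TG r x) ∧ ptb TG (6 + (r + 1)) x = ptb TG 1 (ptb TG (6 + r) x) := by
    intro x hx
    have h1 := key x hx
    unfold gx at h1
    rw [Bool.and_eq_true, Bool.and_eq_true, Bool.and_eq_true, Bool.and_eq_true, Bool.and_eq_true, Bool.and_eq_true,
      nbeq, nbeq, nbeq, nbeq, nbeq] at h1
    obtain ⟨⟨⟨⟨h2, h3⟩, h4⟩, h5⟩, h6⟩ := h1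
    refine ⟨h2, fun g hg => ?_, h4, h5, fun r hr => ?_⟩
    · have h7 := al_spec h3 g hg
      rw [Bool.and_eq_true, Bool.and_eq_true, lb_iff] at h7
      refine ⟨h7.1, fun hw => ?_⟩
      have h8 := h7.2
      rw [lb_iff.2 hw, cond_true, lb_iff] at h8
      exact h8
    · have h7 := al_spec h6 r hr
      rw [Bool.and_eq_true, nbeq, nbeq] at h7
      exact h7
  have kc : ∀ x, Ce NW TC x → Gp NP TC x := fun x hx => ⟨lt_of_lt_of_le hx.1 hNW, hx.2⟩
  refine ⟨fun x hx => lt_of_lt_of_le hx.1 hNP, fun x hx => (k x hx).1, fun x hx g hg => ((k x hx).2.1 g hg).1,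
    fun x hx g hg => ⟨((k x (kc x hx)).2.1 g hg).2 hx.1, ((k x (kc x hx)).2.1 g hg).1.2⟩, fun x hx => ?_, fun x hx => ?_,
    fun x hx r hr => ((k x hx).2.2.2.2 r hr).1, fun x hx r hr => ((k x hx).2.2.2.2 r hr).2⟩
  · obtain ⟨h1, h2⟩ := (k x hx).2.2.1
    unfold kap rC
    ext
    · show (cf 2 TC (ptb TG 1 x) 0 : ℤ) - 8 = -((cf 2 TC x 1 : ℤ) - 8)
      omega
    · show (cf 2 TC (ptb TG 1 x) 1 : ℤ) - 8 = (cf 2 TC x 0 : ℤ) - 8 + ((cf 2 TC x 1 : ℤ) - 8)
      omega
  · obtain ⟨h1, h2⟩ := (k x hx).2.2.2.1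
    unfold kap mC
    ext
    · show (cf 2 TC (ptb TG 6 x) 0 : ℤ) - 8 = (cf 2 TC x 0 : ℤ) - 8 + ((cf 2 TC x 1 : ℤ) - 8)
      omega
    · show (cf 2 TC (ptb TG 6 x) 1 : ℤ) - 8 = -((cf 2 TC x 1 : ℤ) - 8)
      omega

/-! ### images for the kernel -/

/-- `rj` for the kernel -/
def rjB (kd j r : ℕ) : ℕ := bif Nat.beq kd 0 || Nat.beq kd 9 then Nat.mod (Nat.add j (Nat.mul 2 r)) 12 else
  bif Nat.beq kd 11 || (Nat.beq kd 14 || Nat.beq kd 15) then Nat.mod (Nat.add j r) 6 else j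

/-- `mkd` for the kernel -/
def mkB (kd : ℕ) : ℕ := bif Nat.beq kd 14 then 15 else bif Nat.beq kd 15 then 14 else kd

/-- `mj` for the kernel -/
def mjB (kd j : ℕ) : ℕ := bif Nat.beq kd 0 then Nat.mod (Nat.sub 18 j) 12 else
  bif Nat.beq kd 9 then Nat.mod (Nat.sub 12 j) 12 else
  bif Nat.beq kd 11 || (Nat.beq kd 14 || Nat.beq kd 15) then Nat.mod (Nat.sub 8 j) 6 else j

/-- `mz` for the kernel -/
def mzB (kd k : ℕ) : ℕ := bif Nat.beq kd 0 then Nat.sub 4 k else bif Nat.beq kd 9 then Nat.mod (Nat.add k 2) 4 else k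

/-- the colour `q` in the table `cp` (3 bits) -/
def cpf (cp q : ℕ) : ℕ := Nat.land (Nat.shiftRight cp (Nat.mul 3 q)) 7

/-- `qc` for the kernel -/
def qB (cp kd q : ℕ) : ℕ := bif Nat.beq kd 6 then q else cpf cp q

theorem rjB_eq (kd j r : ℕ) : rjB kd j r = rj kd j r := by
  unfold rjB rj
  simp only [Bool.cond_eq_ite, Bool.or_eq_true, nbeq]
  rfl

theorem mkB_eq (kd : ℕ) : mkB kd = mkd kd := by
  unfold mkB mkd
  simp only [Bool.cond_eq_ite, nbeq]

theorem mjB_eq (kd j : ℕ) : mjB kd j = mj kd j := by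
  unfold mjB mj
  simp only [Bool.cond_eq_ite, Bool.or_eq_true, nbeq]
  rfl

theorem mzB_eq (kd k : ℕ) : mzB kd k = mz kd k := by
  unfold mzB mz
  simp only [Bool.cond_eq_ite, nbeq]
  rfl

theorem qB_eq (cp kd q : ℕ) : qB cp kd q = qc (cpf cp) kd q := by
  unfold qB qc
  simp only [Bool.cond_eq_ite, nbeq]

/-- the image of an atom given by its fields -/
def gF (TG cp g kd x j k q : ℕ) : ℕ := bif Nat.ble 6 g then
    En (mkB kd) (ptb TG g x) (rjB (mkB kd) (mjB kd j) (Nat.sub g 6)) (mzB kd k) (qB cp kd q) else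
  En kd (ptb TG g x) (rjB kd j g) k (qB cp kd q)

/-- the image of an atom -/
def gB (TG cp g n : ℕ) : ℕ :=
  gF TG cp g (Nat.mod n 16) (Nat.mod (Nat.div n 16) 4096) (Nat.mod (Nat.div n 65536) 256)
    (Nat.mod (Nat.div n 16777216) 8) (Nat.div n 134217728)

theorem mkd_six (kd : ℕ) : mkd kd = 6 ↔ kd = 6 := by
  unfold mkd
  split_ifs <;> omega

theorem gB_eq {κ : ℕ → ℤ × ℤ} {G Ce : ℕ → Prop} {TG cp g n : ℕ} (t : Tabs κ G Ce (ptb TG)) (hg : g < 12)
    (hn : Wn G Ce n) : gB TG cp g n = nc (cpf cp) (gn (ptb TG) g n) := by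
  have e : gB TG cp g n = gF TG cp g (a0 n) (a1 n) (a2 n) (a3 n) (a4 n) := rfl
  rw [e]
  unfold gF
  simp only [Bool.cond_eq_ite, Nat.ble_eq, rjB_eq, mkB_eq, mjB_eq, mzB_eq, qB_eq]
  by_cases h6 : 6 ≤ g
  · rw [if_pos h6]
    have h0 : Wa G Ce (mkd (a0 n)) (ptb TG g (a1 n)) (mj (a0 n) (a2 n)) (mz (a0 n) (a3 n)) (a4 n) :=
      Wa.mir hn (t.good _ hn.va.pt g hg) fun hc => t.cen _ hc g hg
    have h1 : Wa G Ce (mkd (a0 n)) (ptb TG g (a1 n)) (rj (mkd (a0 n)) (mj (a0 n) (a2 n)) (g - 6)) (mz (a0 n) (a3 n))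
        (a4 n) := Wa.rot (pr := id) h0 h0.va.pt id
    obtain ⟨e0, e1, e2, e3, e4⟩ := wn_en t.lt h1
    have e5 : gn (ptb TG) g n = En (mkd (a0 n)) (ptb TG g (a1 n)) (rj (mkd (a0 n)) (mj (a0 n) (a2 n)) (g - 6))
        (mz (a0 n) (a3 n)) (a4 n) := by
      unfold gn; rw [if_neg (by omega)]
    unfold nc
    rw [e5, e0, e1, e2, e3, e4]
    congr 1
    unfold qc
    rw [if_congr (mkd_six (a0 n)) rfl rfl]
  · rw [if_neg h6]
    have h1 : Wa G Ce (a0 n) (ptb TG g (a1 n)) (rj (a0 n) (a2 n) g) (a3 n) (a4 n) :=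
      Wa.rot hn (t.good _ hn.va.pt g hg) fun hc => t.cen _ hc g hg
    obtain ⟨e0, e1, e2, e3, e4⟩ := wn_en t.lt h1
    have e5 : gn (ptb TG) g n = En (a0 n) (ptb TG g (a1 n)) (rj (a0 n) (a2 n) g) (a3 n) (a4 n) := by
      unfold gn; rw [if_pos (by omega)]
    unfold nc
    rw [e5, e0, e1, e2, e3, e4]

/-! ### packed patterns -/

/-- the literals of a packed pattern, mapped by `f` -/
def upk (f : ℕ → ℕ) (fuel : ℕ) : ℕ → List ℕ := @Nat.rec (fun _ => ℕ → List ℕ) (fun _ => [])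
  (fun _ ih x => bif Nat.beq x 0 then [] else f (Nat.land x 4294967295) :: ih (Nat.shiftRight x 32)) fuel

theorem upk_map (f : ℕ → ℕ) (fuel x : ℕ) : upk f fuel x = (upk id fuel x).map f := by
  induction fuel generalizing x with
  | zero => rfl
  | succ n ih =>
    show (bif Nat.beq x 0 then [] else f (Nat.land x 4294967295) :: upk f n (Nat.shiftRight x 32)) =
      (bif Nat.beq x 0 then [] else Nat.land x 4294967295 :: upk id n (Nat.shiftRight x 32)).map f
    cases Nat.beq x 0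
    · simp only [cond_false, List.map_cons]
      rw [ih]
    · rfl

/-- the pattern of a number -/
def pk (x : ℕ) : List ℕ := upk id 64 x

/-- the negated image of a literal -/
def gL (TG cp g l : ℕ) : ℕ := Nat.add (Nat.mul 2 (gB TG cp g (Nat.div l 2))) (Nat.sub 1 (Nat.mod l 2))

/-- the clause of an image of a pattern -/
def imC (TG cp g x : ℕ) : List ℕ := upk (gL TG cp g) 64 x

theorem gL_eq (TG cp g l : ℕ) : gL TG cp g l = Nat.xor (lm (gB TG cp g) l) 1 := by
  have h1 : gL TG cp g l = 2 * gB TG cp g (l / 2) + (1 - l % 2) := rfl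
  have h2 : lm (gB TG cp g) l = 2 * gB TG cp g (l / 2) + l % 2 := rfl
  rw [h1, h2]
  show _ = (2 * gB TG cp g (l / 2) + l % 2) ^^^ 1
  rcases Nat.mod_two_eq_zero_or_one l with h | h
  · rw [h, Nat.xor_one_of_even (by simp)]
  · rw [h, Nat.xor_one_of_odd (by exact odd_two_mul_add_one _)]
    simp

/-! ### trees of patterns -/

/-- binary trees of numbers -/
inductive PTr where
  | leaf (n : ℕ)
  | node (l r : PTr)

/-- the leaf with the number `i` -/
def PTr.get (t : PTr) : ℕ → ℕ :=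
  @PTr.rec (fun _ => ℕ → ℕ) (fun n _ => n)
    (fun _ _ f g i => bif Nat.beq (Nat.land i 1) 0 then f (Nat.shiftRight i 1) else g (Nat.shiftRight i 1)) t

/-- all leaves -/
def PTr.All (P : ℕ → Prop) : PTr → Prop
  | .leaf n => P n
  | .node l r => l.All P ∧ r.All P

theorem PTr.get_all {P : ℕ → Prop} {t : PTr} (h : t.All P) (i : ℕ) : P (t.get i) := by
  induction t generalizing i with
  | leaf n => exact h
  | node l r ihl ihr =>
    show P (bif Nat.beq (Nat.land i 1) 0 then l.get (Nat.shiftRight i 1) else r.get (Nat.shiftRight i 1))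
    cases Nat.beq (Nat.land i 1) 0
    · exact ihr h.2 _
    · exact ihl h.1 _

/-- the clause of a code -/
def eC (e : List (List ℕ)) (t : PTr) (PT NPM TG c : ℕ) : List ℕ :=
  bif Nat.beq (Nat.land c 1) 0 then nthC e (Nat.shiftRight c 1) else
  bif lb (Nat.land (Nat.shiftRight c 1) 15) 12 && lb (Nat.land (Nat.shiftRight c 5) 255) NPM then
    imC TG (Nat.land (Nat.shiftRight PT (Nat.mul 18 (Nat.land (Nat.shiftRight c 5) 255))) 262143)
      (Nat.land (Nat.shiftRight c 1) 15) (t.get (Nat.shiftRight c 13)) else trv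

/-! ### permutations -/

/-- the table `cp` is a permutation of the colours -/
def isPm (cp : ℕ) : Bool :=
  al (fun q => lb (cpf cp q) 6 && al (fun r => bif Nat.beq (cpf cp q) (cpf cp r) then Nat.beq q r else true) 6) 6

theorem exists_pm {cp : ℕ} (h : isPm cp = true) : ∃ π : Equiv.Perm (Fin 6), ∀ q < 6, pn π q = cpf cp q := by
  have h1 : ∀ q < 6, cpf cp q < 6 ∧ ∀ r < 6, cpf cp q = cpf cp r → q = r := by
    intro q hq
    have h2 := al_spec h q hq
    rw [Bool.and_eq_true, lb_iff] at h2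
    refine ⟨h2.1, fun r hr e => ?_⟩
    have h3 := al_spec h2.2 r hr
    rw [nbeq.2 e, cond_true, nbeq] at h3
    exact h3
  have hinj : Function.Injective fun q : Fin 6 => (⟨cpf cp q.val, (h1 q.val q.isLt).1⟩ : Fin 6) := by
    intro q r e
    exact Fin.ext ((h1 q.val q.isLt).2 r.val r.isLt (congrArg Fin.val e))
  refine ⟨Equiv.ofBijective _ (Finite.injective_iff_bijective.1 hinj), fun q hq => ?_⟩
  unfold pn
  show cpf cp (Fin.ofNat 6 q).val = _
  have : (Fin.ofNat 6 q).val = q := Nat.mod_eq_of_lt hq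
  rw [this]

section
variable {NP NW TB TC TG : ℕ} {B : Tb NP NW TB TC} {F : Fr} {M : Md 2 NP NW (nbf 2 TB)} {C : Fr → Prop}

/-- the permutations with the numbers below `NPM` in the table `PT` are allowed -/
def OkPT (C : Fr → Prop) (PT NPM : ℕ) : Prop := ∀ i < NPM, ∃ π : Equiv.Perm (Fin 6),
  (∀ q < 6, pn π q = cpf (Nat.land (Nat.shiftRight PT (Nat.mul 18 i)) 262143) q) ∧ ∀ F, C F → C (F.col π)

/-- **the clauses of the codes hold in every model** -/
theorem eC_ho (t : Tabs (kap TC) (Gp NP TC) (Ce NW TC) (ptb TG)) (hM : Mdl B F M) (hF : C F)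
    (hCr : ∀ F, C F → C (F.rot (ptb TG 1))) (hCm : ∀ F, C F → C (F.mir (ptb TG 6))) {PT NPM : ℕ} (hPT : OkPT C PT NPM)
    {tr : PTr} (ht : tr.All fun p => Dead (kap TC) C (pk p) ∧ Vl (Gp NP TC) (Ce NW TC) (pk p))
    {e : List (List ℕ)} (he : ∀ c ∈ e, Ho M c) (c : ℕ) : Ho M (eC e tr PT NPM TG c) := by
  unfold eC
  cases Nat.beq (Nat.land c 1) 0
  · rw [cond_false]
    cases h1 : lb (Nat.land (Nat.shiftRight c 1) 15) 12 && lb (Nat.land (Nat.shiftRight c 5) 255) NPM
    · rw [cond_false]; exact ho_trv M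
    · rw [cond_true]
      rw [Bool.and_eq_true, lb_iff, lb_iff] at h1
      generalize Nat.land (Nat.shiftRight c 1) 15 = g at h1
      generalize Nat.land (Nat.shiftRight c 5) 255 = i at h1
      obtain ⟨π, h2, h3⟩ := hPT i h1.2
      generalize Nat.land (Nat.shiftRight PT (Nat.mul 18 i)) 262143 = cp at h2
      obtain ⟨h4, h5⟩ := PTr.get_all ht (Nat.shiftRight c 13)
      generalize tr.get (Nat.shiftRight c 13) = x at h4 h5
      have h6 := ho_ncl hM (dead_img t h4 h5 hCr hCm h1.1 π h3) hF (vl_img t h5 h1.1 π)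
      have e1 : imC TG cp g x = ncl ((pk x).map (lm fun n => nc (pn π) (gn (ptb TG) g n))) := by
        unfold imC ncl pk
        rw [upk_map (gL TG cp g), List.map_map]
        refine List.map_congr_left fun l hl => ?_
        show gL TG cp g l = Nat.xor (lm (fun n => nc (pn π) (gn (ptb TG) g n)) l) 1
        rw [gL_eq]
        congr 1
        unfold lm
        rw [gB_eq t h1.1 (h5 l hl)]
        congr 2
        have hw := wn_gn t h1.1 (h5 l hl)
        unfold nc
        congr 1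
        unfold qc
        split_ifs
        · rfl
        · exact (h2 _ hw.va.col).symm
      rw [e1]; exact h6
  · rw [cond_true]; exact nthC_ho he _

end

/-! ### the checker -/

section
variable {K NP NW TB : ℕ}

/-- the clause of a code, external clauses from `E` -/
def genE (K NP NW TB : ℕ) (E : ℕ → List ℕ) (n : ℕ) : List ℕ :=
  bif Nat.beq (Nat.land (Nat.shiftRight n 3) 7) 7 then E (Nat.shiftRight n 6) else gen K NP NW TB [] n

/-- the mask of an input block -/
noncomputable def inE (K NP NW TB : ℕ) (E : ℕ → List ℕ) (B mB : ℕ) (A : H139.Lrat.Db) (x : ℕ) : ℕ :=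
  inC B mB A (genE K NP NW TB E (Nat.land x 288230376151711743)) (Nat.shiftRight x 58) 0

/-- the check with the tree of atoms `A` -/
noncomputable def chkE1 (K NP NW TB : ℕ) (E : ℕ → List ℕ) (B mB HB d : ℕ) (C D H : List ℕ) (A : H139.Lrat.Db) : Bool :=
  H820.K.ck HB 100000 (H139.Lrat.build d (mpl (inE K NP NW TB E B mB A) (unL C) (mpl (dmk B mB 100000) (unL D) [])) 0
    (fun t _ => t)) (mpl (inE K NP NW TB E B mB A) (unL C) []) (unL H)

/-- **The check of a certificate.** -/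
noncomputable def chkE (K NP NW TB : ℕ) (E : ℕ → List ℕ) (B HB dA d : ℕ) (A C D H : List ℕ) : Bool :=
  chkE1 K NP NW TB E B (Nat.sub (Nat.shiftLeft 1 B) 1) HB d C D H (H139.Lrat.build dA (unL A) 0 (fun t _ => t))

theorem genE_ho {M : Md K NP NW (nbf K TB)} {E : ℕ → List ℕ} (h : ∀ i, Ho M (E i)) (n : ℕ) :
    Ho M (genE K NP NW TB E n) := ho_bif (h _) (gen_ho M (fun c hc => absurd hc List.not_mem_nil) n)

/-- **Soundness.** -/
theorem chkE_sound {E : ℕ → List ℕ} {B HB dA d : ℕ} {A C D H : List ℕ}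
    (h : chkE K NP NW TB E B HB dA d A C D H = true) {M : Md K NP NW (nbf K TB)} (he : ∀ i, Ho M (E i)) : False := by
  unfold chkE chkE1 at h
  refine H820.K.ck_sound h (aL M (H139.Lrat.build dA (unL A) 0 fun t _ => t)) fun K hK => ?_
  obtain ⟨x, rfl⟩ := mpl_mem hK
  exact inC_sat _ _ _ (genE_ho he _)

end

/-! ### the master -/

section
variable {NP NW TB TC TG : ℕ} {B : Tb NP NW TB TC} {C C' : Fr → Prop}

/-- the units of a pattern -/
def uns (P : List ℕ) : List (List ℕ) := P.map fun l => [l]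

/-- **A pattern is dead by images of dead patterns.**  `C` : the class of the frames of the patterns, `C'` : the class of
the frames of the conclusion (`e` holds for them). -/
theorem dead_q (B : Tb NP NW TB TC) (hT : gchk NP NW TC TG = true) (hOk : ∀ F, C' F → FOk (kap TC) (cxv NW TC) F)
    (hCC : ∀ F, C' F → C F) (hCr : ∀ F, C F → C (F.rot (ptb TG 1))) (hCm : ∀ F, C F → C (F.mir (ptb TG 6)))
    {PT NPM : ℕ} (hPT : OkPT C PT NPM) {tr : PTr}
    (ht : tr.All fun p => Dead (kap TC) C (pk p) ∧ Vl (Gp NP TC) (Ce NW TC) (pk p))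
    {e : List (List ℕ)} (he : ∀ F M, C' F → Mdl B F M → ∀ c ∈ e, Ho M c) {P : List ℕ}
    (hv : Vl (Gp NP TC) (Ce NW TC) P) {b HB dA d : ℕ} {A CC D H : List ℕ}
    (hq : chkE 2 NP NW TB (eC (e ++ uns P) tr PT NPM TG) b HB dA d A CC D H = true) : Dead (kap TC) C' P := by
  intro F hF hall
  obtain ⟨M, hM⟩ := exists_mdl B (hOk F hF)
  have t := tabs_of_gchk B.hNP B.hNW hT
  refine chkE_sound hq (M := M) fun i => eC_ho t hM (hCC F hF) hCr hCm hPT ht (fun c hc => ?_) i
  rcases List.mem_append.1 hc with hc | hc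
  · exact he F M hF hM c hc
  · obtain ⟨l, hl, rfl⟩ := List.mem_map.1 hc
    exact ⟨l, List.mem_singleton_self _, (hM.lv (hv l hl)).2 (hall l hl)⟩

end

end Vale.Agent.P032.H61
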